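import Crest.Agent.DFT.Defs

set_option autoImplicit false
open Matrix Finset
namespace DFTC

/-- `star n ⊗ star n ⊗ star n` -/
def kron3 (n : ℕ) : Matrix (Fin (n + 1) × Fin (n + 1) × Fin (n + 1))
    (Fin (n + 1) × Fin (n + 1) × Fin (n + 1)) ℂ :=
  Matrix.of fun a b => star n a.1 b.1 * star n a.2.1 b.2.1 * star n a.2.2 b.2.2

end DFTC
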