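import Crest.Agent.DFT.Serve
import Crest.Agent.DFT.Kron3

set_option autoImplicit false
set_option linter.unusedSimpArgs false

namespace DFTC

open Finset Matrix

/-! ### lifting to more wires -/

lemma Run.inl {W R F : Type*} [DecidableEq W] [DecidableEq R] [AddCommGroup F] {s s' : W → F}
    {t : ℕ} (r : R → F) (h : Run s s' t) : Run (Sum.elim s r) (Sum.elim s' r) t := by
  induction h with
  | refl => exact Run.refl
  | @step s' t σ i j hij h ih =>
    have := Run.step σ (Sum.inl i : W ⊕ R) (Sum.inl j) (by simpa using hij) ih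
    convert this using 1
    funext w
    rcases w with w | w
    · by_cases hw : w = i
      · subst hw; simp
      · rw [Function.update_of_ne (by simpa using hw)]
        simp [Function.update_of_ne hw]
    · simp

/-- the remaining wires -/
inductive Rs (p : ℕ) (P Q : Type)
  | p1 (h : Fin (p + 1)) (e : Fin 4)
  | p2 (i : P) (b : Bool)
  | p3 (c : Q) (g : Fin 4)
  | o
  deriving DecidableEq

section
variable {p : ℕ} {P Q : Type} [DecidableEq P] [DecidableEq Q] [Fintype P] [Fintype Q]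
variable {F : Type*} [AddCommGroup F]

def rk (P1 : Fin (p + 1) → Fin 4 → F) (P2 : P → Bool → F) (P3 : Q → Fin 4 → F) (O : F) :
    Rs p P Q → F
  | .p1 h e => P1 h e
  | .p2 i b => P2 i b
  | .p3 c g => P3 c g
  | .o => O

def fs (U : Fin (p + 1) → Fin 4 → P → Bool → Q → Fin 4 → F) (L1 : P → Bool → Q → Fin 4 → F)
    (L2 : Fin (p + 1) → Fin 4 → Q → Fin 4 → F) (L3 : Fin (p + 1) → Fin 4 → P → Bool → F)
    (P1 : Fin (p + 1) → Fin 4 → F) (P2 : P → Bool → F) (P3 : Q → Fin 4 → F) (O : F) :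
    Bl p P Q ⊕ Rs p P Q → F := Sum.elim (mk U L1 L2 L3) (rk P1 P2 P3 O)

variable (U : Fin (p + 1) → Fin 4 → P → Bool → Q → Fin 4 → F) (L1 : P → Bool → Q → Fin 4 → F)
    (L2 : Fin (p + 1) → Fin 4 → Q → Fin 4 → F) (L3 : Fin (p + 1) → Fin 4 → P → Bool → F)
    (P1 : Fin (p + 1) → Fin 4 → F) (P2 : P → Bool → F) (P3 : Q → Fin 4 → F) (O : F)

lemma st_p1 : Run (fs U L1 L2 L3 P1 P2 P3 O) (fs U L1 L2 L3 (fun h e => P1 h e + O) P2 P3 O)
    (Fintype.card (Fin (p + 1) × Fin 4)) := by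
  apply Run.fam (I := Fin (p + 1) × Fin 4) (fun _ => true) (fun k => Sum.inr (Rs.p1 k.1 k.2))
    (fun _ => Sum.inr Rs.o)
  · rintro ⟨a, b⟩ ⟨a', b'⟩ h; simpa using h
  · intro i j; simp
  · rintro ⟨a, b⟩; simp [fs, rk]
  · rintro (_ | ⟨h, e⟩ | _ | _ | _) hw
    · rfl
    · exact absurd rfl (hw (h, e))
    · rfl
    · rfl
    · rfl

lemma st_p2 : Run (fs U L1 L2 L3 P1 P2 P3 O) (fs U L1 L2 L3 P1 (fun h e => P2 h e + O) P3 O)
    (Fintype.card (P × Bool)) := by
  apply Run.fam (I := P × Bool) (fun _ => true) (fun k => Sum.inr (Rs.p2 k.1 k.2))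
    (fun _ => Sum.inr Rs.o)
  · rintro ⟨a, b⟩ ⟨a', b'⟩ h; simpa using h
  · intro i j; simp
  · rintro ⟨a, b⟩; simp [fs, rk]
  · rintro (_ | _ | ⟨h, e⟩ | _ | _) hw
    · rfl
    · rfl
    · exact absurd rfl (hw (h, e))
    · rfl
    · rfl

lemma st_p3 : Run (fs U L1 L2 L3 P1 P2 P3 O) (fs U L1 L2 L3 P1 P2 (fun h e => P3 h e + O) O)
    (Fintype.card (Q × Fin 4)) := by
  apply Run.fam (I := Q × Fin 4) (fun _ => true) (fun k => Sum.inr (Rs.p3 k.1 k.2))
    (fun _ => Sum.inr Rs.o)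
  · rintro ⟨a, b⟩ ⟨a', b'⟩ h; simpa using h
  · intro i j; simp
  · rintro ⟨a, b⟩; simp [fs, rk]
  · rintro (_ | _ | _ | ⟨h, e⟩ | _) hw
    · rfl
    · rfl
    · rfl
    · exact absurd rfl (hw (h, e))
    · rfl

lemma st_l1 (src : P → Bool → Q → Fin 4 → Rs p P Q) :
    Run (fs U L1 L2 L3 P1 P2 P3 O)
      (fs U (fun i b c g => L1 i b c g + rk P1 P2 P3 O (src i b c g)) L2 L3 P1 P2 P3 O)
    (Fintype.card (P × Bool × Q × Fin 4)) := by
  apply Run.fam (I := P × Bool × Q × Fin 4) (fun _ => true)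
    (fun k => Sum.inl (Bl.l1 k.1 k.2.1 k.2.2.1 k.2.2.2))
    (fun k => Sum.inr (src k.1 k.2.1 k.2.2.1 k.2.2.2))
  · rintro ⟨a, b, c, d⟩ ⟨a', b', c', d'⟩ h; simpa using h
  · intro i j; simp
  · rintro ⟨a, b, c, d⟩; simp [fs, mk]
  · rintro ((_ | ⟨a, b, c, d⟩ | _ | _) | _) hw
    · rfl
    · exact absurd rfl (hw (a, b, c, d))
    · rfl
    · rfl
    · rfl

lemma st_l2 (src : Fin (p + 1) → Fin 4 → Q → Fin 4 → Rs p P Q) :
    Run (fs U L1 L2 L3 P1 P2 P3 O)
      (fs U L1 (fun i b c g => L2 i b c g + rk P1 P2 P3 O (src i b c g)) L3 P1 P2 P3 O)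
    (Fintype.card (Fin (p + 1) × Fin 4 × Q × Fin 4)) := by
  apply Run.fam (I := Fin (p + 1) × Fin 4 × Q × Fin 4) (fun _ => true)
    (fun k => Sum.inl (Bl.l2 k.1 k.2.1 k.2.2.1 k.2.2.2))
    (fun k => Sum.inr (src k.1 k.2.1 k.2.2.1 k.2.2.2))
  · rintro ⟨a, b, c, d⟩ ⟨a', b', c', d'⟩ h; simpa using h
  · intro i j; simp
  · rintro ⟨a, b, c, d⟩; simp [fs, mk]
  · rintro ((_ | _ | ⟨a, b, c, d⟩ | _) | _) hw
    · rfl
    · rfl
    · exact absurd rfl (hw (a, b, c, d))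
    · rfl
    · rfl

lemma st_l3 (src : Fin (p + 1) → Fin 4 → P → Bool → Rs p P Q) :
    Run (fs U L1 L2 L3 P1 P2 P3 O)
      (fs U L1 L2 (fun i b c g => L3 i b c g + rk P1 P2 P3 O (src i b c g)) P1 P2 P3 O)
    (Fintype.card (Fin (p + 1) × Fin 4 × P × Bool)) := by
  apply Run.fam (I := Fin (p + 1) × Fin 4 × P × Bool) (fun _ => true)
    (fun k => Sum.inl (Bl.l3 k.1 k.2.1 k.2.2.1 k.2.2.2))
    (fun k => Sum.inr (src k.1 k.2.1 k.2.2.1 k.2.2.2))
  · rintro ⟨a, b, c, d⟩ ⟨a', b', c', d'⟩ h; simpa using h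
  · intro i j; simp
  · rintro ⟨a, b, c, d⟩; simp [fs, mk]
  · rintro ((_ | _ | _ | ⟨a, b, c, d⟩) | _) hw
    · rfl
    · rfl
    · rfl
    · exact absurd rfl (hw (a, b, c, d))
    · rfl

/-- cost of the block -/
def cB (p : ℕ) (P Q : Type) [Fintype P] [Fintype Q] : ℕ :=
  (2 * Fintype.card (SI p P Q) + Fintype.card (Fin p × P × Q × KS) +
        3 * Fintype.card (NI p P Q) +
        (8 * Fintype.card (P × Q) + 2 * ((4 * p + 3) * Fintype.card (P ⊕ Q)) +
        26 * p * Fintype.card (P × Q)))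

def cT (p : ℕ) (P Q : Type) [Fintype P] [Fintype Q] : ℕ :=
  Fintype.card (P × Bool) + Fintype.card (Fin (p + 1) × Fin 4 × P × Bool) +
  Fintype.card (P × Bool × Q × Fin 4) + Fintype.card (Fin (p + 1) × Fin 4 × Q × Fin 4) +
  cB p P Q + Fintype.card (Fin (p + 1) × Fin 4 × P × Bool) +
  Fintype.card (P × Bool × Q × Fin 4) + Fintype.card (Fin (p + 1) × Fin 4) +
  Fintype.card (Fin (p + 1) × Fin 4 × Q × Fin 4) + Fintype.card (Q × Fin 4)

theorem full :
    Run (fs U L1 L2 L3 P1 P2 P3 O)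
      (fs (fun h e i b c g => U h e i b c g + L1 i b c g + L2 h e c g + L3 h e i b + P1 h e +
          P2 i b + P3 c g + O)
        (fun i b c g => L1 i b c g + P2 i b + P3 c g + O)
        (fun h e c g => L2 h e c g + P1 h e + P3 c g + O)
        (fun h e i b => L3 h e i b + P1 h e + P2 i b + O)
        (fun h e => P1 h e + O) (fun i b => P2 i b + O) (fun c g => P3 c g + O) O)
      (cT p P Q) := by
  have h1 := st_p2 U L1 L2 L3 P1 P2 P3 O
  set P2' : P → Bool → F := fun h e => P2 h e + O with hP2'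
  have h2 := st_l3 U L1 L2 L3 P1 P2' P3 O (fun h e _ _ => Rs.p1 h e)
  simp only [rk] at h2
  set L3' : Fin (p + 1) → Fin 4 → P → Bool → F := fun h e i b => L3 h e i b + P1 h e with hL3'
  have h3 := st_l1 U L1 L2 L3' P1 P2' P3 O (fun i b _ _ => Rs.p2 i b)
  simp only [rk] at h3
  set L1' : P → Bool → Q → Fin 4 → F := fun i b c g => L1 i b c g + P2' i b with hL1'
  have h4 := st_l2 U L1' L2 L3' P1 P2' P3 O (fun _ _ c g => Rs.p3 c g)
  simp only [rk] at h4
  set L2' : Fin (p + 1) → Fin 4 → Q → Fin 4 → F := fun h e c g => L2 h e c g + P3 c g with hL2'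
  have h5 := Run.inl (rk P1 P2' P3 O) (block U L1' L2' L3')
  change Run (fs U L1' L2' L3' P1 P2' P3 O) (fs _ L1' L2' L3' P1 P2' P3 O) (cB p P Q) at h5
  set U' : Fin (p + 1) → Fin 4 → P → Bool → Q → Fin 4 → F :=
    fun h e i b c g => U h e i b c g + L1' i b c g + L2' h e c g + L3' h e i b with hU'
  have h6 := st_l3 U' L1' L2' L3' P1 P2' P3 O (fun _ _ i b => Rs.p2 i b)
  simp only [rk] at h6
  set L3'' : Fin (p + 1) → Fin 4 → P → Bool → F := fun h e i b => L3' h e i b + P2' i b with hL3''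
  have h7 := st_l1 U' L1' L2' L3'' P1 P2' P3 O (fun _ _ c g => Rs.p3 c g)
  simp only [rk] at h7
  set L1'' : P → Bool → Q → Fin 4 → F := fun i b c g => L1' i b c g + P3 c g with hL1''
  have h8 := st_p1 U' L1'' L2' L3'' P1 P2' P3 O
  set P1' : Fin (p + 1) → Fin 4 → F := fun h e => P1 h e + O with hP1'
  have h9 := st_l2 U' L1'' L2' L3'' P1' P2' P3 O (fun h e _ _ => Rs.p1 h e)
  simp only [rk] at h9
  set L2'' : Fin (p + 1) → Fin 4 → Q → Fin 4 → F := fun h e c g => L2' h e c g + P1' h e with hL2''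
  have h10 := st_p3 U' L1'' L2'' L3'' P1' P2' P3 O
  have all := h1.trans <| h2.trans <| h3.trans <| h4.trans <| h5.trans <| h6.trans <|
    h7.trans <| h8.trans <| h9.trans h10
  convert all using 1
  · congr 1
    · funext h e i b c g
      simp only [hU', hL1', hL2', hL3', hP2']
      abel
    · funext i b c g
      simp only [hL1'', hL1', hP2']
      abel
    · funext h e c g
      simp only [hL2'', hL2', hP1']
      abel
    · funext h e i b
      simp only [hL3'', hL3', hP2']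
      abel
  · simp only [cT]; ring

end

/-! ### transfer to `kron3` -/

lemma TV.reindex {W W' : Type*} [Fintype W] [DecidableEq W] [Fintype W'] [DecidableEq W']
    (e : W' ≃ W) {M : Matrix W W ℂ} {t : ℕ} (h : TV M t) : TV (M.submatrix e e) t := by
  induction h with
  | one => rw [Matrix.submatrix_one_equiv]; exact TV.one
  | @step M t i j c hij hc h ih =>
    have := TV.step (e.symm i) (e.symm j) c (fun hh => hij (e.symm.injective hh)) hc ih
    convert this using 1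
    rw [← Matrix.submatrix_mul_equiv _ _ _ e _]
    congr 1
    ext a b
    simp only [Matrix.transvection, Matrix.submatrix_apply, Matrix.add_apply, Matrix.one_apply,
      Matrix.single_apply, EmbeddingLike.apply_eq_iff_eq, Equiv.symm_apply_eq]

instance {p : ℕ} {P Q : Type} [Fintype P] [Fintype Q] [DecidableEq P] [DecidableEq Q] :
    Fintype (Bl p P Q) :=
  Fintype.ofSurjective (fun k : (Fin (p + 1) × Fin 4 × P × Bool × Q × Fin 4) ⊕
      (P × Bool × Q × Fin 4) ⊕ (Fin (p + 1) × Fin 4 × Q × Fin 4) ⊕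
      (Fin (p + 1) × Fin 4 × P × Bool) => match k with
    | .inl k => Bl.u k.1 k.2.1 k.2.2.1 k.2.2.2.1 k.2.2.2.2.1 k.2.2.2.2.2
    | .inr (.inl k) => Bl.l1 k.1 k.2.1 k.2.2.1 k.2.2.2
    | .inr (.inr (.inl k)) => Bl.l2 k.1 k.2.1 k.2.2.1 k.2.2.2
    | .inr (.inr (.inr k)) => Bl.l3 k.1 k.2.1 k.2.2.1 k.2.2.2) (by
    rintro (⟨h, e, i, b, c, g⟩ | ⟨i, b, c, g⟩ | ⟨h, e, c, g⟩ | ⟨h, e, i, b⟩)
    · exact ⟨.inl (h, e, i, b, c, g), rfl⟩
    · exact ⟨.inr (.inl (i, b, c, g)), rfl⟩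
    · exact ⟨.inr (.inr (.inl (h, e, c, g))), rfl⟩
    · exact ⟨.inr (.inr (.inr (h, e, i, b))), rfl⟩)

instance {p : ℕ} {P Q : Type} [Fintype P] [Fintype Q] [DecidableEq P] [DecidableEq Q] :
    Fintype (Rs p P Q) :=
  Fintype.ofSurjective (fun k : (Fin (p + 1) × Fin 4) ⊕ (P × Bool) ⊕ (Q × Fin 4) ⊕ Unit =>
    match k with
    | .inl k => Rs.p1 k.1 k.2
    | .inr (.inl k) => Rs.p2 k.1 k.2
    | .inr (.inr (.inl k)) => Rs.p3 k.1 k.2
    | .inr (.inr (.inr _)) => Rs.o) (by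
    rintro (⟨h, e⟩ | ⟨i, b⟩ | ⟨c, g⟩ | _)
    · exact ⟨.inl (h, e), rfl⟩
    · exact ⟨.inr (.inl (i, b)), rfl⟩
    · exact ⟨.inr (.inr (.inl (c, g))), rfl⟩
    · exact ⟨.inr (.inr (.inr ())), rfl⟩)

/-- the wires are triples of options -/
def weq (p : ℕ) (P Q : Type) : (Bl p P Q ⊕ Rs p P Q) ≃
    Option (Fin (p + 1) × Fin 4) × Option (P × Bool) × Option (Q × Fin 4) where
  toFun
    | .inl (.u h e i b c g) => (some (h, e), some (i, b), some (c, g))
    | .inl (.l1 i b c g) => (none, some (i, b), some (c, g))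
    | .inl (.l2 h e c g) => (some (h, e), none, some (c, g))
    | .inl (.l3 h e i b) => (some (h, e), some (i, b), none)
    | .inr (.p1 h e) => (some (h, e), none, none)
    | .inr (.p2 i b) => (none, some (i, b), none)
    | .inr (.p3 c g) => (none, none, some (c, g))
    | .inr .o => (none, none, none)
  invFun
    | (some (h, e), some (i, b), some (c, g)) => .inl (.u h e i b c g)
    | (none, some (i, b), some (c, g)) => .inl (.l1 i b c g)
    | (some (h, e), none, some (c, g)) => .inl (.l2 h e c g)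
    | (some (h, e), some (i, b), none) => .inl (.l3 h e i b)
    | (some (h, e), none, none) => .inr (.p1 h e)
    | (none, some (i, b), none) => .inr (.p2 i b)
    | (none, none, some (c, g)) => .inr (.p3 c g)
    | (none, none, none) => .inr .o
  left_inv := by rintro ((_ | _ | _ | _) | (_ | _ | _ | _)) <;> rfl
  right_inv := by rintro ⟨_ | ⟨_, _⟩, _ | ⟨_, _⟩, _ | ⟨_, _⟩⟩ <;> rfl

def ostar {α : Type*} [DecidableEq α] (i j : Option α) : ℂ := if i = j ∨ j = none then 1 else 0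

lemma TV_full (p : ℕ) (P Q : Type) [Fintype P] [Fintype Q] [DecidableEq P] [DecidableEq Q] :
    TV (Matrix.of fun w v : Bl p P Q ⊕ Rs p P Q =>
      ostar (weq p P Q w).1 (weq p P Q v).1 * ostar (weq p P Q w).2.1 (weq p P Q v).2.1 *
        ostar (weq p P Q w).2.2 (weq p P Q v).2.2) (cT p P Q) := by
  set E : (Bl p P Q ⊕ Rs p P Q) → (Bl p P Q ⊕ Rs p P Q) → ℂ :=
    fun i j => (1 : Matrix _ _ ℂ) i j with hE
  have h := full (F := (Bl p P Q ⊕ Rs p P Q) → ℂ) (fun h e i b c g => E (.inl (.u h e i b c g)))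
    (fun i b c g => E (.inl (.l1 i b c g))) (fun h e c g => E (.inl (.l2 h e c g)))
    (fun h e i b => E (.inl (.l3 h e i b))) (fun h e => E (.inr (.p1 h e)))
    (fun i b => E (.inr (.p2 i b))) (fun c g => E (.inr (.p3 c g))) (E (.inr .o))
  have e0 : fs (fun h e i b c g => E (.inl (.u h e i b c g)))
    (fun i b c g => E (.inl (.l1 i b c g))) (fun h e c g => E (.inl (.l2 h e c g)))
    (fun h e i b => E (.inl (.l3 h e i b))) (fun h e => E (.inr (.p1 h e)))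
    (fun i b => E (.inr (.p2 i b))) (fun c g => E (.inr (.p3 c g))) (E (.inr .o)) = E := by
    funext w
    rcases w with (_ | _ | _ | _) | (_ | _ | _ | _) <;> rfl
  rw [e0] at h
  have h2 := TV_of_Run h
  convert h2 using 1
  ext w v
  rcases w with (⟨h, e, i, b, c, g⟩ | ⟨i, b, c, g⟩ | ⟨h, e, c, g⟩ | ⟨h, e, i, b⟩) |
    (⟨h, e⟩ | ⟨i, b⟩ | ⟨c, g⟩ | _) <;>
  rcases v with (⟨h', e', i', b', c', g'⟩ | ⟨i', b', c', g'⟩ | ⟨h', e', c', g'⟩ |
    ⟨h', e', i', b'⟩) | (⟨h', e'⟩ | ⟨i', b'⟩ | ⟨c', g'⟩ | _) <;>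
  simp [fs, mk, rk, weq, ostar, hE, Matrix.one_apply, ← ite_and, and_assoc]
  all_goals (congr 1; apply propext; tauto)

lemma star_eq {n : ℕ} {α : Type*} [DecidableEq α] (e : α ≃ Fin n) (i j : Option α) :
    star n ((finSuccEquiv n).symm (e.optionCongr i)) ((finSuccEquiv n).symm (e.optionCongr j)) =
      ostar i j := by
  simp only [star, ostar, Matrix.of_apply, EmbeddingLike.apply_eq_iff_eq]
  congr 2
  rw [Equiv.symm_apply_eq]
  cases j <;> simp


lemma card_served (p : ℕ) (P Q : Type) [Fintype P] [Fintype Q] :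
    Fintype.card {k : Fin (p + 1) × Fin 4 × P × Bool × Q × Fin 4 //
      (k.1.val < p ∧ Srv k.2.1 k.2.2.2.1 k.2.2.2.2.2)} = Fintype.card (Fin p × P × Q × KS) := by
  apply Fintype.card_congr
  refine
    { toFun := fun k => (⟨k.1.1.val, k.2.1⟩, k.1.2.2.1, k.1.2.2.2.2.1,
        ⟨(k.1.2.1, k.1.2.2.2.1, k.1.2.2.2.2.2), k.2.2⟩)
      invFun := fun k => ⟨(k.1.castSucc, k.2.2.2.1.1, k.2.1, k.2.2.2.1.2.1, k.2.2.1,
        k.2.2.2.1.2.2), ⟨k.1.isLt, k.2.2.2.2⟩⟩
      left_inv := ?_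
      right_inv := ?_ }
  · rintro ⟨⟨h, e, i, b, c, g⟩, hk⟩
    rfl
  · rintro ⟨h, i, c, ⟨⟨e, b, g⟩, hk⟩⟩
    rfl

lemma card_NI (p : ℕ) (P Q : Type) [Fintype P] [Fintype Q] :
    Fintype.card (NI p P Q) = Fintype.card (Fin (p + 1) × Fin 4 × P × Bool × Q × Fin 4) -
      Fintype.card (Fin p × P × Q × KS) := by
  rw [← card_served]
  exact Fintype.card_subtype_compl _

lemma cT_eq (p : ℕ) :
    cT p (Fin (2 * (p + 1))) (Fin (p + 1)) + 4 * p * (p + 1) ^ 2 = 192 * (p + 1) ^ 3 +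
      156 * (p + 1) ^ 2 + 24 * p * (p + 1) + 30 * (p + 1) := by
  have hSI : Fintype.card (SI p (Fin (2 * (p + 1))) (Fin (p + 1))) = 22 * (p + 1) ^ 2 := by
    have : Fintype.card (SI p (Fin (2 * (p + 1))) (Fin (p + 1))) = Fintype.card
      ((Fin (2 * (p + 1)) × Fin (p + 1)) ⊕ (Fin (2 * (p + 1)) × Fin (p + 1)) ⊕
       (Fin (2 * (p + 1)) × Fin (p + 1)) ⊕ (Fin (p + 1) × Fin 4 × Fin (p + 1)) ⊕
        (Fin (p + 1) × Fin 4 × Fin (p + 1)) ⊕ (Fin (p + 1) × Fin 4 × Fin (2 * (p + 1)))) :=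
      Fintype.card_congr (Equiv.refl _)
    rw [this]
    simp only [Fintype.card_sum, Fintype.card_prod, Fintype.card_fin]
    ring
  have hK : Fintype.card (Fin p × (Fin (2 * (p + 1))) × (Fin (p + 1)) × KS) =
      28 * p * (p + 1) ^ 2 := by
    simp only [Fintype.card_prod, Fintype.card_fin, card_KS]
    ring
  have hN : Fintype.card (NI p (Fin (2 * (p + 1))) (Fin (p + 1))) + 28 * p * (p + 1) ^ 2 =
      64 * (p + 1) ^ 3 := by
    rw [card_NI, hK]
    simp only [Fintype.card_prod, Fintype.card_fin, Fintype.card_bool]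
    have h1 : 28 * p * (p + 1) ^ 2 ≤
      (p + 1) * (4 * (2 * (p + 1) * (2 * ((p + 1) * 4)))) := by nlinarith
    rw [Nat.sub_add_cancel h1]
    ring
  simp only [cT, cB, hSI, hK]
  simp only [Fintype.card_prod, Fintype.card_fin, Fintype.card_bool, Fintype.card_sum]
  nlinarith

theorem TV_kron3 (p : ℕ) (hp : 1 ≤ p) : ∃ T : ℕ, TV (kron3 (4 * p)) T ∧
    16 * T + (4 * p) ^ 3 ≤ 48 * (4 * p) * (4 * p + 1) ^ 2 + 640 * (4 * p) ^ 2 := by
  obtain ⟨q, rfl⟩ : ∃ q, p = q + 1 := ⟨p - 1, by omega⟩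
  refine ⟨cT q (Fin (2 * (q + 1))) (Fin (q + 1)), ?_, ?_⟩
  · have h := TV_full q (Fin (2 * (q + 1))) (Fin (q + 1))
    obtain ⟨eX⟩ : Nonempty ((Fin (q + 1) × Fin 4) ≃ Fin (4 * (q + 1))) :=
      ⟨Fintype.equivFinOfCardEq (by simp; ring)⟩
    obtain ⟨eY⟩ : Nonempty ((Fin (2 * (q + 1)) × Bool) ≃ Fin (4 * (q + 1))) :=
      ⟨Fintype.equivFinOfCardEq (by simp; ring)⟩
    obtain ⟨eZ⟩ : Nonempty ((Fin (q + 1) × Fin 4) ≃ Fin (4 * (q + 1))) :=
      ⟨Fintype.equivFinOfCardEq (by simp; ring)⟩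
    have h2 := TV.reindex (((Equiv.prodCongr (eX.optionCongr.trans (finSuccEquiv _).symm).symm
      (Equiv.prodCongr (eY.optionCongr.trans (finSuccEquiv _).symm).symm
        (eZ.optionCongr.trans (finSuccEquiv _).symm).symm))).trans
        (weq q (Fin (2 * (q + 1))) (Fin (q + 1))).symm) h
    convert h2 using 1
    ext a b
    obtain ⟨a1, a2, a3⟩ := a
    obtain ⟨b1, b2, b3⟩ := b
    simp only [kron3, Matrix.of_apply, Matrix.submatrix_apply, Equiv.trans_apply,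
      Equiv.apply_symm_apply, Equiv.prodCongr_apply, Prod.map]
    obtain ⟨a1, rfl⟩ := (eX.optionCongr.trans (finSuccEquiv _).symm).surjective a1
    obtain ⟨a2, rfl⟩ := (eY.optionCongr.trans (finSuccEquiv _).symm).surjective a2
    obtain ⟨a3, rfl⟩ := (eZ.optionCongr.trans (finSuccEquiv _).symm).surjective a3
    obtain ⟨b1, rfl⟩ := (eX.optionCongr.trans (finSuccEquiv _).symm).surjective b1
    obtain ⟨b2, rfl⟩ := (eY.optionCongr.trans (finSuccEquiv _).symm).surjective b2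
    obtain ⟨b3, rfl⟩ := (eZ.optionCongr.trans (finSuccEquiv _).symm).surjective b3
    simp only [Equiv.symm_apply_apply]
    simp only [Equiv.trans_apply, star_eq]
  · have h := cT_eq q
    nlinarith

end DFTC
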