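import Crest.Agent.DFT.RunBasic

set_option autoImplicit false
set_option linter.unusedSimpArgs false

namespace DFTC

open Finset

/-- the wires of the main block.  x = (h,e), y = (i,b), z = (c,g) -/
inductive Bl (p : ℕ) (P Q : Type)
  | u (h : Fin (p + 1)) (e : Fin 4) (i : P) (b : Bool) (c : Q) (g : Fin 4)
  | l1 (i : P) (b : Bool) (c : Q) (g : Fin 4)
  | l2 (h : Fin (p + 1)) (e : Fin 4) (c : Q) (g : Fin 4)
  | l3 (h : Fin (p + 1)) (e : Fin 4) (i : P) (b : Bool)
  deriving DecidableEq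

section
variable {p : ℕ} {P Q : Type} [DecidableEq P] [DecidableEq Q] [Fintype P] [Fintype Q]
variable {F : Type*} [AddCommGroup F]

def mk (U : Fin (p + 1) → Fin 4 → P → Bool → Q → Fin 4 → F) (L1 : P → Bool → Q → Fin 4 → F)
    (L2 : Fin (p + 1) → Fin 4 → Q → Fin 4 → F) (L3 : Fin (p + 1) → Fin 4 → P → Bool → F) :
    Bl p P Q → F
  | .u h e i b c g => U h e i b c g
  | .l1 i b c g => L1 i b c g
  | .l2 h e c g => L2 h e c g
  | .l3 h e i b => L3 h e i b

variable (U : Fin (p + 1) → Fin 4 → P → Bool → Q → Fin 4 → F)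
variable (a1 : P → Bool → Q → Fin 4 → F)
variable (a2 : Fin (p + 1) → Fin 4 → Q → Fin 4 → F) (a3 : Fin (p + 1) → Fin 4 → P → Bool → F)

/-! ### the chain differences -/

def D2 : Fin (p + 1) → Fin 4 → Q → Fin 4 → F := fun h e c g =>
  if g = 0 then
    (if e = 0 then (if h = 0 then a2 0 0 c 0 else a2 h 0 c 0 - a2 (h - 1) 3 c 0)
      else a2 h e c 0 - a2 h (e - 1) c 0)
  else a2 h e c g

def D3 : Fin (p + 1) → Fin 4 → P → Bool → F := fun h e i b =>
  if b = false then
    (if e = 0 then (if h = 0 then a3 0 0 i false else a3 h 0 i false - a3 (h - 1) 3 i false)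
      else a3 h e i false - a3 h (e - 1) i false)
  else a3 h e i b

/-- partially processed chain: block `h > k` done, and in block `k` those `e ≥ m`  -/
def E2 (k : ℕ) (m : ℕ) : Fin (p + 1) → Fin 4 → Q → Fin 4 → F := fun h e c g =>
  if g = 0 ∧ (k < h.val ∨ (h.val = k ∧ m ≤ e.val)) then D2 a2 h e c g else a2 h e c g

def E3 (k : ℕ) (m : ℕ) : Fin (p + 1) → Fin 4 → P → Bool → F := fun h e i b =>
  if b = false ∧ (k < h.val ∨ (h.val = k ∧ m ≤ e.val)) then D3 a3 h e i b else a3 h e i b

/-- one chain step at position (k, m), m ≥ 1 -/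
lemma chain_step (L1 : P → Bool → Q → Fin 4 → F) (k : ℕ) (hk : k < p + 1) (m : ℕ) (hm : m + 1 < 4) :
    Run (mk U L1 (E2 a2 k (m + 2)) (E3 a3 k (m + 2)))
      (mk U L1 (E2 a2 k (m + 1)) (E3 a3 k (m + 1))) (Fintype.card (P ⊕ Q)) := by
  apply Run.fam (I := P ⊕ Q) (fun _ => false)
    (Sum.elim (fun i => Bl.l3 ⟨k, hk⟩ ⟨m + 1, hm⟩ i false) (fun c => Bl.l2 ⟨k, hk⟩ ⟨m + 1, hm⟩ c 0))
    (Sum.elim (fun i => Bl.l3 ⟨k, hk⟩ ⟨m, by omega⟩ i false)
      (fun c => Bl.l2 ⟨k, hk⟩ ⟨m, by omega⟩ c 0))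
  · rintro (i | c) (i' | c') h <;> simp_all
  · rintro (i | c) (i' | c') <;> simp
  · have e1 : (⟨m + 1, hm⟩ : Fin 4) - 1 = ⟨m, by omega⟩ := by
      have : m = 0 ∨ m = 1 ∨ m = 2 := by omega
      rcases this with rfl | rfl | rfl <;> rfl
    have e2 : (⟨m + 1, hm⟩ : Fin 4) ≠ 0 := by
      intro h; simpa using congrArg Fin.val h
    rintro (i | c)
    · simp [mk, E3, D3, e1, e2]
    · simp [mk, E2, D2, e1, e2]
  · rintro (_ | _ | ⟨h, e, c, g⟩ | ⟨h, e, i, b⟩) hw
    · rfl
    · rfl
    · simp only [mk, E2]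
      by_cases h1 : h.val = k ∧ e.val = m + 1 ∧ g = 0
      · exfalso
        apply hw (Sum.inr c)
        obtain ⟨h1, h2, h3⟩ := h1
        simp [Fin.ext_iff, h1, h2, h3]
      · have : (g = 0 ∧ (k < h.val ∨ (h.val = k ∧ m + 1 ≤ e.val))) ↔
            (g = 0 ∧ (k < h.val ∨ (h.val = k ∧ m + 2 ≤ e.val))) := by
          constructor
          · rintro ⟨h3, h4⟩
            refine ⟨h3, ?_⟩
            rcases h4 with h4 | ⟨h4, h5⟩
            · exact Or.inl h4
            · right
              refine ⟨h4, ?_⟩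
              rcases Nat.lt_or_ge (m + 1) e.val with h6 | h6
              · exact h6
              · exact absurd ⟨h4, by omega, h3⟩ h1
          · rintro ⟨h3, h4⟩
            refine ⟨h3, ?_⟩
            rcases h4 with h4 | ⟨h4, h5⟩
            · exact Or.inl h4
            · exact Or.inr ⟨h4, by omega⟩
        simp only [this]
    · simp only [mk, E3]
      by_cases h1 : h.val = k ∧ e.val = m + 1 ∧ b = false
      · exfalso
        apply hw (Sum.inl i)
        obtain ⟨h1, h2, h3⟩ := h1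
        simp [Fin.ext_iff, h1, h2, h3]
      · have : (b = false ∧ (k < h.val ∨ (h.val = k ∧ m + 1 ≤ e.val))) ↔
            (b = false ∧ (k < h.val ∨ (h.val = k ∧ m + 2 ≤ e.val))) := by
          constructor
          · rintro ⟨h3, h4⟩
            refine ⟨h3, ?_⟩
            rcases h4 with h4 | ⟨h4, h5⟩
            · exact Or.inl h4
            · right
              refine ⟨h4, ?_⟩
              rcases Nat.lt_or_ge (m + 1) e.val with h6 | h6
              · exact h6
              · exact absurd ⟨h4, by omega, h3⟩ h1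
          · rintro ⟨h3, h4⟩
            refine ⟨h3, ?_⟩
            rcases h4 with h4 | ⟨h4, h5⟩
            · exact Or.inl h4
            · exact Or.inr ⟨h4, by omega⟩
        simp only [this]

/-- crossing step: position (k+1, 0) from (k, 3) -/
lemma chain_cross (L1 : P → Bool → Q → Fin 4 → F) (k : ℕ) (hk : k + 1 < p + 1) :
    Run (mk U L1 (E2 a2 (k + 1) 1) (E3 a3 (k + 1) 1))
      (mk U L1 (E2 a2 k 4) (E3 a3 k 4)) (Fintype.card (P ⊕ Q)) := by
  apply Run.fam (I := P ⊕ Q) (fun _ => false)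
    (Sum.elim (fun i => Bl.l3 ⟨k + 1, hk⟩ 0 i false) (fun c => Bl.l2 ⟨k + 1, hk⟩ 0 c 0))
    (Sum.elim (fun i => Bl.l3 ⟨k, by omega⟩ 3 i false)
      (fun c => Bl.l2 ⟨k, by omega⟩ 3 c 0))
  · rintro (i | c) (i' | c') h <;> simp_all
  · rintro (i | c) (i' | c') <;> simp
  · have e1 : (⟨k + 1, hk⟩ : Fin (p + 1)) - 1 = ⟨k, by omega⟩ := by
      apply Fin.ext
      have h1 : (1 : Fin (p + 1)) ≤ ⟨k + 1, hk⟩ := by
        rw [Fin.le_def]
        have : ((1 : Fin (p + 1)) : ℕ) = 1 % (p + 1) := by simp [Fin.val_one']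
        rw [this, Nat.mod_eq_of_lt (by omega)]
        simp
      rw [Fin.sub_val_of_le h1]
      have : ((1 : Fin (p + 1)) : ℕ) = 1 % (p + 1) := by simp [Fin.val_one']
      rw [this, Nat.mod_eq_of_lt (by omega)]
      simp
    have e2 : (⟨k + 1, hk⟩ : Fin (p + 1)) ≠ 0 := by
      intro h; simpa using congrArg Fin.val h
    rintro (i | c)
    · simp [mk, E3, D3, e1, e2]
    · simp [mk, E2, D2, e1, e2]
  · rintro (_ | _ | ⟨h, e, c, g⟩ | ⟨h, e, i, b⟩) hw
    · rfl
    · rfl
    · simp only [mk, E2]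
      by_cases h1 : h.val = k + 1 ∧ e.val = 0 ∧ g = 0
      · exfalso
        apply hw (Sum.inr c)
        obtain ⟨h1, h2, h3⟩ := h1
        simp [Fin.ext_iff, h1, h2, h3]
      · have he := e.isLt
        have : (g = 0 ∧ (k < h.val ∨ (h.val = k ∧ 4 ≤ e.val))) ↔
            (g = 0 ∧ (k + 1 < h.val ∨ (h.val = k + 1 ∧ 1 ≤ e.val))) := by
          constructor
          · rintro ⟨h3, h4⟩
            refine ⟨h3, ?_⟩
            by_contra h5
            apply h1
            exact ⟨by omega, by omega, h3⟩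
          · rintro ⟨h3, h4⟩
            exact ⟨h3, by omega⟩
        simp only [this]
    · simp only [mk, E3]
      by_cases h1 : h.val = k + 1 ∧ e.val = 0 ∧ b = false
      · exfalso
        apply hw (Sum.inl i)
        obtain ⟨h1, h2, h3⟩ := h1
        simp [Fin.ext_iff, h1, h2, h3]
      · have he := e.isLt
        have : (b = false ∧ (k < h.val ∨ (h.val = k ∧ 4 ≤ e.val))) ↔
            (b = false ∧ (k + 1 < h.val ∨ (h.val = k + 1 ∧ 1 ≤ e.val))) := by
          constructor
          · rintro ⟨h3, h4⟩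
            refine ⟨h3, ?_⟩
            by_contra h5
            apply h1
            exact ⟨by omega, by omega, h3⟩
          · rintro ⟨h3, h4⟩
            exact ⟨h3, by omega⟩
        simp only [this]

lemma chain_block (L1 : P → Bool → Q → Fin 4 → F) (k : ℕ) (hk : k < p + 1) :
    Run (mk U L1 (E2 a2 k 4) (E3 a3 k 4))
      (mk U L1 (E2 a2 k 1) (E3 a3 k 1)) (3 * Fintype.card (P ⊕ Q)) := by
  have h3 := chain_step U a2 a3 L1 k hk 2 (by norm_num)
  have h2 := chain_step U a2 a3 L1 k hk 1 (by norm_num)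
  have h1 := chain_step U a2 a3 L1 k hk 0 (by norm_num)
  have := (h3.trans h2).trans h1
  convert this using 1
  ring

lemma chain_down (L1 : P → Bool → Q → Fin 4 → F) (k : ℕ) (hk : k < p + 1) :
    Run (mk U L1 (E2 a2 k 1) (E3 a3 k 1))
      (mk U L1 (E2 a2 0 1) (E3 a3 0 1)) (4 * k * Fintype.card (P ⊕ Q)) := by
  induction k with
  | zero => simpa using Run.refl
  | succ k ih =>
    have h1 := chain_cross U a2 a3 L1 k hk
    have h2 := chain_block U a2 a3 L1 k (by omega)
    have h3 := ih (by omega)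
    have := (h1.trans h2).trans h3
    convert this using 1
    ring

/-- preparation of the chains -/
lemma chain_prep (L1 : P → Bool → Q → Fin 4 → F) :
    Run (mk U L1 a2 a3) (mk U L1 (D2 a2) (D3 a3)) ((4 * p + 3) * Fintype.card (P ⊕ Q)) := by
  have h1 := chain_block U a2 a3 L1 p (by omega)
  have h2 := chain_down U a2 a3 L1 p (by omega)
  have h3 := h1.trans h2
  have e1 : E2 a2 p 4 = a2 := by
    funext h e c g
    have h1 := h.isLt
    have h2 := e.isLt
    simp only [E2]
    rw [if_neg]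
    rintro ⟨-, h3⟩
    omega
  have e2 : E3 a3 p 4 = a3 := by
    funext h e c g
    have h1 := h.isLt
    have h2 := e.isLt
    simp only [E3]
    rw [if_neg]
    rintro ⟨-, h3⟩
    omega
  have e3 : E2 a2 0 1 = D2 a2 := by
    funext h e c g
    simp only [E2]
    by_cases hh : g = 0 ∧ (0 < h.val ∨ (h.val = 0 ∧ 1 ≤ e.val))
    · rw [if_pos hh]
    · rw [if_neg hh]
      by_cases hg : g = 0
      · have hh2 : h.val = 0 ∧ e.val = 0 := by
          by_contra h5
          apply hh
          refine ⟨hg, ?_⟩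
          omega
        obtain ⟨q1, q2⟩ := hh2
        have q1 : h = 0 := Fin.ext q1
        have q2 : e = 0 := Fin.ext q2
        simp [D2, q1, q2, hg]
      · simp [D2, hg]
  have e4 : E3 a3 0 1 = D3 a3 := by
    funext h e c g
    simp only [E3]
    by_cases hh : g = false ∧ (0 < h.val ∨ (h.val = 0 ∧ 1 ≤ e.val))
    · rw [if_pos hh]
    · rw [if_neg hh]
      by_cases hg : g = false
      · have hh2 : h.val = 0 ∧ e.val = 0 := by
          by_contra h5
          apply hh
          refine ⟨hg, ?_⟩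
          omega
        obtain ⟨q1, q2⟩ := hh2
        have q1 : h = 0 := Fin.ext q1
        have q2 : e = 0 := Fin.ext q2
        simp [D3, q1, q2, hg]
      · simp [D3, hg]
  rw [e1, e2, e3, e4] at h3
  convert h3 using 1
  ring

end
end DFTC
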