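import Crest.Agent.DFT.CLBasic

/-! S0501 part J1: Bluestein's reduction of the DFT of order `n` to Fourier matrices on `ZMod N`. -/

set_option autoImplicit false

open Matrix Finset

namespace DFTC

namespace Blu

theorem inv_primitive {N : ℕ} [NeZero N] {ψ : AddChar (ZMod N) ℂ} (h : ψ.IsPrimitive) :
    (ψ⁻¹).IsPrimitive := by
  intro a ha h1
  apply h (neg_ne_zero.2 ha)
  ext x
  have := DFunLike.congr_fun h1 x
  rw [AddChar.mulShift_apply, AddChar.inv_apply] at this
  rw [AddChar.mulShift_apply, neg_mul]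
  exact this

/-- the circulant matrix `c (a - b)` through two Fourier matrices -/
theorem circ {N : ℕ} [NeZero N] (ψ : AddChar (ZMod N) ℂ) (h : ψ.IsPrimitive) (c : ZMod N → ℂ)
    (a b : ZMod N) :
    (GM ψ * Matrix.diagonal (fun s => (∑ d, c d * ψ (-(s * d))) / N) * GM ψ⁻¹) a b = c (a - b) := by
  have hN : (N : ℂ) ≠ 0 := by exact_mod_cast NeZero.ne N
  rw [Matrix.mul_apply]
  simp only [Matrix.mul_diagonal, GM, Matrix.of_apply, AddChar.inv_apply]
  have e1 : ∀ s, ψ (a * s) * ((∑ d, c d * ψ (-(s * d))) / N) * ψ (-(s * b))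
      = ∑ d, c d / N * ψ (s * (a - b - d)) := by
    intro s
    rw [mul_div_assoc', div_mul_eq_mul_div, Finset.mul_sum, Finset.sum_mul, Finset.sum_div]
    refine Finset.sum_congr rfl fun d _ => ?_
    have : s * (a - b - d) = a * s + (-(s * d)) + (-(s * b)) := by ring
    rw [this, AddChar.map_add_eq_mul, AddChar.map_add_eq_mul]
    ring
  rw [Finset.sum_congr rfl fun s _ => e1 s, Finset.sum_comm]
  have e2 : ∀ d, ∑ s, c d / N * ψ (s * (a - b - d)) = if d = a - b then c d else 0 := by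
    intro d
    rw [← Finset.mul_sum, AddChar.sum_mulShift _ h]
    by_cases hd : d = a - b
    · subst hd
      simp only [sub_self, if_true, ZMod.card]
      field_simp
    · have : ¬ (a - b - d = 0) := fun h => hd (sub_eq_zero.1 h).symm
      simp only [this, if_false, hd]
      simp
  rw [Finset.sum_congr rfl fun d _ => e2 d]
  simp

/-- the chirp -/
noncomputable def w (n : ℕ) : ℂ := Complex.exp (Real.pi * Complex.I / n)

theorem w_ne (n : ℕ) : w n ≠ 0 := Complex.exp_ne_zero _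

theorem w_sq (n : ℕ) : w n ^ 2 = Complex.exp (2 * Real.pi * Complex.I / n) := by
  rw [w, ← Complex.exp_nat_mul]
  congr 1
  push_cast
  ring

theorem chirp (n j k : ℕ) : Complex.exp (2 * Real.pi * Complex.I / n) ^ (j * k)
    = w n ^ (j ^ 2) * ((w n)⁻¹ ^ (((j : ℤ) - k).natAbs ^ 2)) * w n ^ (k ^ 2) := by
  have hw := w_ne n
  rw [← w_sq, ← pow_mul]
  have e : (w n)⁻¹ ^ (((j : ℤ) - k).natAbs ^ 2) = w n ^ (-(((j : ℤ) - k) ^ 2)) := by
    rw [_root_.zpow_neg, inv_pow]
    congr 1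
    rw [← Int.natAbs_sq, ← zpow_natCast]
    push_cast
    rfl
  rw [e, ← zpow_natCast, ← zpow_natCast, ← zpow_natCast, ← zpow_add₀ hw, ← zpow_add₀ hw]
  congr 1
  push_cast
  ring

theorem valMinAbs_sub (n N j k : ℕ) [NeZero N] (hN : 2 * n ≤ N) (hj : j < n) (hk : k < n) :
    ((j : ZMod N) - (k : ZMod N)).valMinAbs = (j : ℤ) - k := by
  rw [ZMod.valMinAbs_spec]
  refine ⟨by push_cast; ring, ?_⟩
  constructor
  · omega
  · omega

end Blu

open Blu in
theorem CL_dft_of_GM (n N : ℕ) (hn : 1 ≤ n) (hN : 2 * n ≤ N) [NeZero N] (t : ℕ)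
    (h : ∀ ψ : AddChar (ZMod N) ℂ, ψ.IsPrimitive → CL (GM ψ) t) :
    CL (Crest.FourierCircuit.dftMatrix n) (2 * t + 2 * N + 2 * n) := by
  classical
  set ψ : AddChar (ZMod N) ℂ := ZMod.stdAddChar with hψd
  have hψ : ψ.IsPrimitive := ZMod.isPrimitive_stdAddChar N
  set c : ZMod N → ℂ := fun d => (w n)⁻¹ ^ (d.valMinAbs.natAbs ^ 2) with hc
  set D : Matrix (ZMod N) (ZMod N) ℂ := Matrix.diagonal (fun s => (∑ d, c d * ψ (-(s * d))) / N)
    with hD
  have hinj : Function.Injective (fun k : Fin n => ((k : ℕ) : ZMod N)) := by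
    intro a b hab
    have h1 := valMinAbs_sub n N a b hN a.2 b.2
    have h2 : ((a : ℕ) : ZMod N) - ((b : ℕ) : ZMod N) = 0 := sub_eq_zero.2 hab
    rw [h2, ZMod.valMinAbs_zero] at h1
    exact Fin.ext (by omega)
  have key : Crest.FourierCircuit.dftMatrix n =
      Matrix.diagonal (fun j : Fin n => w n ^ ((j : ℕ) ^ 2)) *
        ((GM ψ).submatrix (fun k : Fin n => ((k : ℕ) : ZMod N)) id * D *
          (GM ψ⁻¹).submatrix id (fun k : Fin n => ((k : ℕ) : ZMod N))) *
        Matrix.diagonal (fun j : Fin n => w n ^ ((j : ℕ) ^ 2)) := by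
    ext j k
    rw [Matrix.mul_diagonal, Matrix.diagonal_mul]
    have e1 : ((GM ψ).submatrix (fun k : Fin n => ((k : ℕ) : ZMod N)) id * D *
          (GM ψ⁻¹).submatrix id (fun k : Fin n => ((k : ℕ) : ZMod N))) j k
        = (GM ψ * D * GM ψ⁻¹) ((j : ℕ) : ZMod N) ((k : ℕ) : ZMod N) := by
      rw [Matrix.mul_apply, Matrix.mul_apply]
      refine Finset.sum_congr rfl fun s _ => ?_
      rw [Matrix.submatrix_apply, id]
      congr 1
    rw [e1, circ ψ hψ c]
    show Complex.exp (2 * Real.pi * Complex.I / n) ^ ((j : ℕ) * (k : ℕ)) = _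
    rw [chirp, hc]
    simp only
    rw [valMinAbs_sub n N j k hN j.2 k.2]
  rw [key]
  have h1 := CL.diagonal (fun j : Fin n => w n ^ ((j : ℕ) ^ 2))
  have h2 := (h ψ hψ).submatrix (fun k : Fin n => ((k : ℕ) : ZMod N)) id Function.injective_id
  have h3 : CL D (Fintype.card (ZMod N)) := CL.diagonal _
  have h4 := (h ψ⁻¹ (inv_primitive hψ)).submatrix id (fun k : Fin n => ((k : ℕ) : ZMod N)) hinj
  rw [Fintype.card_fin] at h1
  rw [ZMod.card] at h3
  exact ((h1.mul ((h2.mul h3).mul h4)).mul h1).le (by omega)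

end DFTC
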