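import Mathlib
import Crest.Prelude.Def_LinCircuit

/-!
S0501 shared definitions (owner helper6).  Everybody imports this file; do not edit it
without asking helper6.  NOTE all statements are instance-free (no `DecidableEq` arguments in
`CL`), so there are no instance clashes.
-/

set_option autoImplicit false

namespace DFTC

open Matrix

/-! ### Part 0 : straight line complexity of matrices -/

/-- `v` is the value of one gate on available values `S` (0 is always available) -/
def GateVal {V : Type*} [AddCommGroup V] [Module ℂ V] (S : Set V) (v : V) : Prop :=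
  (∃ a ∈ insert 0 S, ∃ b ∈ insert 0 S, v = a + b ∨ v = a - b) ∨
    ∃ a ∈ insert 0 S, ∃ c : ℂ, v = c • a

/-- from the available values `S` one can get all of `T` with `t` gates -/
inductive Reach {V : Type*} [AddCommGroup V] [Module ℂ V] : Set V → ℕ → Set V → Prop
  | base {S T : Set V} (h : T ⊆ insert 0 S) : Reach S 0 T
  | step {S T : Set V} {t : ℕ} (v : V) (hv : GateVal S v) (h : Reach (insert v S) t T) :
      Reach S (t + 1) T

/-- the unit vectors, instance-free -/
def units (n : Type*) : Set (n → ℂ) := {v | ∃ j, v j = 1 ∧ ∀ k, k ≠ j → v k = 0}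

/-- `CL M t` : the linear map `x ↦ M x` is computed by a linear straight line program with
`t` gates. -/
def CL {m n : Type*} (M : Matrix m n ℂ) (t : ℕ) : Prop :=
  Reach (units n) t (Set.range M)

/-! ### Part 1 : Kronecker products over Pi types -/

/-- Kronecker product of a family of matrices, indexed by dependent functions -/
def piK {ι : Type*} [Fintype ι] {m n : ι → Type*} (M : ∀ i, Matrix (m i) (n i) ℂ) :
    Matrix (∀ i, m i) (∀ i, n i) ℂ :=
  Matrix.of fun a b => ∏ i, M i (a i) (b i)

/-- Kronecker power, index type `Fin k → W` -/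
def pw {W : Type*} (k : ℕ) (M : Matrix W W ℂ) : Matrix (Fin k → W) (Fin k → W) ℂ :=
  Matrix.of fun a b => ∏ i, M (a i) (b i)

/-- The star gate with `a` leaves: wires `Fin (a+1)`, wire `0` is the root,
`x_i += x_0` for all `i ≠ 0`.  `star 1 = [[1,0],[1,1]]`. -/
def star (a : ℕ) : Matrix (Fin (a + 1)) (Fin (a + 1)) ℂ :=
  Matrix.of fun i j => if i = j ∨ j = 0 then 1 else 0

/-- the exponent we prove for the Kronecker powers of `star 1` -/
noncomputable def th1 : ℝ := 1 - 1 / 10 ^ 10

/-- main bound on Kronecker powers of `[[1,0],[1,1]]` -/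
def ZBound (A : ℝ) : Prop :=
  ∀ k : ℕ, ∃ t : ℕ, (t : ℝ) ≤ A * 2 ^ k * (k : ℝ) ^ th1 ∧ CL (pw k (star 1)) t

/-! ### Part 3 : in-place programs of transvections -/

/-- `M` is a product of `t` matrices `1 + c E_{ij}`, `i ≠ j` (entries `c = 1` or `-1`).
`Matrix.transvection i j c` acts on column vectors by `x_i += c x_j`. -/
inductive TV {W : Type*} [Fintype W] [DecidableEq W] : Matrix W W ℂ → ℕ → Prop
  | one : TV 1 0
  | step {M : Matrix W W ℂ} {t : ℕ} (i j : W) (c : ℂ) (hij : i ≠ j) (hc : c = 1 ∨ c = -1)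
      (h : TV M t) : TV (Matrix.transvection i j c * M) (t + 1)

/-! ### Part 5 : layers -/

/-- monomial matrices -/
def Mono {W : Type*} (M : Matrix W W ℂ) : Prop :=
  ∃ (σ : Equiv.Perm W) (d : W → ℂ), (∀ w, d w ≠ 0) ∧
    (∀ w, M w (σ w) = d w) ∧ ∀ w v, v ≠ σ w → M w v = 0

/-- matching layers: `x_w += c_w x_{s w}`; targets (those `w` with `c w ≠ 0`) are not sources and
have distinct sources. -/
def IsLayer {W : Type*} (M : Matrix W W ℂ) : Prop :=
  ∃ (s : W → W) (c : W → ℂ), (∀ w, c w ≠ 0 → c (s w) = 0) ∧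
    (∀ w w', c w ≠ 0 → c w' ≠ 0 → s w = s w' → w = w') ∧
    (∀ w, M w w = 1) ∧ (∀ w, c w ≠ 0 → M w (s w) = c w) ∧
    ∀ w v, v ≠ w → (c w ≠ 0 → v ≠ s w) → M w v = 0

/-- products of `ℓ` layers interleaved with monomial matrices -/
inductive Lay {W : Type*} [Fintype W] : ℕ → Matrix W W ℂ → Prop
  | mono {M : Matrix W W ℂ} (h : Mono M) : Lay 0 M
  | step {ℓ : ℕ} {A L M : Matrix W W ℂ} (hA : Mono A) (hL : IsLayer L) (h : Lay ℓ M) :
      Lay (ℓ + 1) (A * L * M)

/-- Fourier type matrix `ψ(a b)` on a finite commutative ring -/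
def GM {R : Type*} [CommRing R] (ψ : AddChar R ℂ) : Matrix R R ℂ :=
  Matrix.of fun a b => ψ (a * b)

end DFTC
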