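import Mathlib
import Crest.Agent.DFT.Defs

/-!
S0501 Part A (owner helper7): API of `Reach` and `CL`.
-/

set_option autoImplicit false

namespace DFTC

open Matrix

section Reach

variable {V : Type*} [AddCommGroup V] [Module ℂ V]

omit [Module ℂ V] in
theorem insert_zero_sub {S T : Set V} (h : S ⊆ insert 0 T) : insert 0 S ⊆ insert 0 T := by
  intro v hv
  rcases hv with rfl | hv
  · exact Set.mem_insert _ _
  · exact h hv

theorem GateVal.mono {S S' : Set V} (h : S ⊆ insert 0 S') {v : V} (hv : GateVal S v) :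
    GateVal S' v := by
  have h' := insert_zero_sub h
  rcases hv with ⟨a, ha, b, hb, hv⟩ | ⟨a, ha, c, hv⟩
  · exact Or.inl ⟨a, h' ha, b, h' hb, hv⟩
  · exact Or.inr ⟨a, h' ha, c, hv⟩

/-- more available values (modulo `0`) -/
theorem Reach.mono_left {S T : Set V} {t : ℕ} (h : Reach S t T) :
    ∀ {S' : Set V}, S ⊆ insert 0 S' → Reach S' t T := by
  induction h with
  | base h => exact fun hS => Reach.base (h.trans (insert_zero_sub hS))
  | step v hv h ih =>
    intro S' hS
    refine Reach.step v (hv.mono hS) (ih ?_)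
    intro w hw
    rcases hw with rfl | hw
    · exact Or.inr (Or.inl rfl)
    · rcases hS hw with h0 | h0
      · exact Or.inl h0
      · exact Or.inr (Or.inr h0)

/-- fewer targets (modulo `0`) -/
theorem Reach.mono_right {S T : Set V} {t : ℕ} (h : Reach S t T) :
    ∀ {T' : Set V}, T' ⊆ insert 0 T → Reach S t T' := by
  induction h with
  | base h => exact fun hT => Reach.base (hT.trans (insert_zero_sub h))
  | step v hv h ih => exact fun hT => Reach.step v hv (ih hT)

theorem Reach.succ {S T : Set V} {t : ℕ} (h : Reach S t T) : Reach S (t + 1) T :=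
  Reach.step 0 (Or.inr ⟨0, Set.mem_insert _ _, 0, by simp⟩)
    (h.mono_left fun _ hw => Or.inr (Or.inr hw))

theorem Reach.le {S T : Set V} {s t : ℕ} (h : Reach S s T) (hst : s ≤ t) : Reach S t T := by
  induction hst with
  | refl => exact h
  | step _ ih => exact ih.succ

/-- composition; the second program may also use the inputs of the first one -/
theorem Reach.trans' {S T : Set V} {s : ℕ} (h : Reach S s T) :
    ∀ {U : Set V} {t : ℕ}, Reach (S ∪ T) t U → Reach S (s + t) U := by
  induction h with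
  | @base S T h =>
    intro U t hU
    rw [Nat.zero_add]
    refine hU.mono_left ?_
    intro w hw
    rcases hw with hw | hw
    · exact Or.inr hw
    · exact h hw
  | @step S T s v hv h ih =>
    intro U t hU
    have h1 : Reach (insert v S) (s + t) U := ih (hU.mono_left (by
      intro w hw
      rcases hw with hw | hw
      · exact Or.inr (Or.inl (Or.inr hw))
      · exact Or.inr (Or.inr hw)))
    have h2 := Reach.step v hv h1
    have e : s + 1 + t = s + t + 1 := by omega
    rw [e]
    exact h2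

theorem Reach.trans {S T U : Set V} {s t : ℕ} (h : Reach S s T) (h' : Reach T t U) :
    Reach S (s + t) U :=
  h.trans' (h'.mono_left fun _ hw => Or.inr (Or.inr hw))

theorem Reach.keep {S U : Set V} {t : ℕ} (h : Reach S t U) :
    ∀ (T : Set V), Reach (S ∪ T) t (T ∪ U) := by
  induction h with
  | base h =>
    intro T
    refine Reach.base ?_
    intro w hw
    rcases hw with hw | hw
    · exact Or.inr (Or.inr hw)
    · rcases h hw with h0 | h0
      · exact Or.inl h0
      · exact Or.inr (Or.inl h0)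
  | step v hv h ih =>
    intro T
    refine Reach.step v (hv.mono fun w hw => Or.inr (Or.inl hw)) ?_
    rw [← Set.insert_union]
    exact ih T

theorem Reach.union {S T U : Set V} {s t : ℕ} (h : Reach S s T) (h' : Reach S t U) :
    Reach S (s + t) (T ∪ U) :=
  h.trans' (h'.keep T)

theorem Reach.iUnion_finset {β : Type*} {S : Set V} (F : Finset β) {t : β → ℕ}
    {T : β → Set V} (h : ∀ b ∈ F, Reach S (t b) (T b)) :
    Reach S (∑ b ∈ F, t b) (⋃ b ∈ F, T b) := by
  classical
  induction F using Finset.induction_on with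
  | empty => exact Reach.base (by simp)
  | insert a F ha ih =>
    rw [Finset.sum_insert ha]
    have h1 := (h a (Finset.mem_insert_self _ _)).union
      (ih fun b hb => h b (Finset.mem_insert_of_mem hb))
    refine h1.mono_right ?_
    rw [Finset.set_biUnion_insert]
    exact fun _ hw => Or.inr hw

theorem Reach.iUnion {β : Type*} [Fintype β] {S : Set V} {t : β → ℕ}
    {T : β → Set V} (h : ∀ b, Reach S (t b) (T b)) :
    Reach S (∑ b, t b) (⋃ b, T b) := by
  have h1 := Reach.iUnion_finset (S := S) Finset.univ (t := t) (T := T) fun b _ => h b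
  simpa using h1

theorem GateVal.reach {S : Set V} {v : V} (h : GateVal S v) : Reach S 1 {v} :=
  Reach.step v h (Reach.base fun w hw => by
    rw [Set.mem_singleton_iff] at hw
    subst hw
    exact Or.inr (Or.inl rfl))

/-- every value of a finite family is given by one gate -/
theorem Reach.of_gates {ι : Type*} [Fintype ι] {S : Set V} {v : ι → V}
    (h : ∀ i, GateVal S (v i)) : Reach S (Fintype.card ι) (Set.range v) := by
  have h1 := Reach.iUnion (S := S) (t := fun _ : ι => 1) (T := fun i => {v i})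
    fun i => (h i).reach
  simp only [Finset.sum_const, Finset.card_univ, smul_eq_mul, mul_one] at h1
  refine h1.mono_right ?_
  rintro _ ⟨i, rfl⟩
  exact Or.inr (Set.mem_iUnion.2 ⟨i, rfl⟩)

theorem GateVal.map {V' : Type*} [AddCommGroup V'] [Module ℂ V'] (f : V →ₗ[ℂ] V')
    {S : Set V} {v : V} (h : GateVal S v) : GateVal (f '' S) (f v) := by
  have key : ∀ a ∈ insert 0 S, f a ∈ insert 0 (f '' S) := by
    intro a ha
    rcases ha with rfl | ha
    · left; exact map_zero f
    · right; exact ⟨a, ha, rfl⟩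
  rcases h with ⟨a, ha, b, hb, hv⟩ | ⟨a, ha, c, hv⟩
  · refine Or.inl ⟨f a, key a ha, f b, key b hb, ?_⟩
    rcases hv with rfl | rfl
    · left; exact map_add f a b
    · right; exact map_sub f a b
  · refine Or.inr ⟨f a, key a ha, c, ?_⟩
    rw [hv, map_smul]

theorem Reach.map {V' : Type*} [AddCommGroup V'] [Module ℂ V'] (f : V →ₗ[ℂ] V')
    {S T : Set V} {t : ℕ} (h : Reach S t T) : Reach (f '' S) t (f '' T) := by
  induction h with
  | base h =>
    refine Reach.base ?_
    rintro _ ⟨a, ha, rfl⟩
    rcases h ha with rfl | h0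
    · left; exact map_zero f
    · right; exact ⟨a, h0, rfl⟩
  | step v hv h ih =>
    refine Reach.step (f v) (hv.map f) ?_
    rw [← Set.image_insert_eq]
    exact ih

/-- a linear combination of `k` available values costs `2k` gates -/
theorem Reach.sum {ι : Type*} {S : Set V} (F : Finset ι) (c : ι → ℂ) (v : ι → V)
    (h : ∀ i ∈ F, v i ∈ insert 0 S) : Reach S (2 * F.card) {∑ i ∈ F, c i • v i} := by
  classical
  induction F using Finset.induction_on with
  | empty => exact Reach.base (by simp)
  | insert a F ha ih =>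
    rw [Finset.card_insert_of_notMem ha, Finset.sum_insert ha, mul_add, add_comm (2 * F.card)]
    have h1 : Reach S 1 {c a • v a} :=
      GateVal.reach (Or.inr ⟨v a, h a (Finset.mem_insert_self _ _), c a, rfl⟩)
    have h2 := h1.union (ih fun i hi => h i (Finset.mem_insert_of_mem hi))
    have h3 : Reach ({c a • v a} ∪ {∑ i ∈ F, c i • v i}) 1 {c a • v a + ∑ i ∈ F, c i • v i} :=
      GateVal.reach (Or.inl ⟨_, Or.inr (Or.inl rfl), _, Or.inr (Or.inr rfl), Or.inl rfl⟩)
    have h4 := h2.trans h3
    have e : 2 * 1 + 2 * F.card = 1 + 2 * F.card + 1 := by omega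
    rw [e]
    exact h4

end Reach

/-! ### units -/

theorem single_mem_units {n : Type*} [DecidableEq n] (j : n) :
    (Pi.single j (1 : ℂ) : n → ℂ) ∈ units n :=
  ⟨j, by simp, fun k hk => by simp [hk]⟩

theorem mem_units_iff {n : Type*} [DecidableEq n] {v : n → ℂ} :
    v ∈ units n ↔ ∃ j, v = Pi.single j 1 := by
  constructor
  · rintro ⟨j, h1, h2⟩
    refine ⟨j, funext fun k => ?_⟩
    by_cases h : k = j
    · subst h; simp [h1]
    · simp [h, h2 k h]
  · rintro ⟨j, rfl⟩
    exact single_mem_units j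

/-! ### A1 – A9 -/

section CL

variable {m n p m' n' : Type*}

/-- A1 -/
theorem CL.le {M : Matrix m n ℂ} {s t : ℕ} (h : CL M s) (hst : s ≤ t) : CL M t :=
  Reach.le h hst

/-- A4 -/
theorem CL.of_unit_rows {M : Matrix m n ℂ}
    (h : ∀ i, (∀ j, M i j = 0) ∨ ∃ j, M i j = 1 ∧ ∀ k, k ≠ j → M i k = 0) : CL M 0 := by
  refine Reach.base ?_
  rintro _ ⟨i, rfl⟩
  rcases h i with h0 | h1
  · exact Or.inl (funext h0)
  · exact Or.inr h1

theorem CL_one [DecidableEq n] : CL (1 : Matrix n n ℂ) 0 :=
  CL.of_unit_rows fun i => Or.inr ⟨i, by simp, fun k hk => by simp [Ne.symm hk]⟩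

theorem CL.zero : CL (0 : Matrix m n ℂ) 0 :=
  CL.of_unit_rows fun _ => Or.inl fun _ => rfl

/-- A2 -/
theorem CL.mul [Fintype n] {M : Matrix m n ℂ} {N : Matrix n p ℂ} {s t : ℕ}
    (hM : CL M s) (hN : CL N t) : CL (M * N) (s + t) := by
  classical
  have h1 := Reach.map (N.vecMulLinear) hM
  have h2 : Reach (Set.range N) s (Set.range (M * N)) := by
    refine (h1.mono_left ?_).mono_right ?_
    · rintro _ ⟨v, hv, rfl⟩
      obtain ⟨j, rfl⟩ := mem_units_iff.1 hv
      right
      refine ⟨j, ?_⟩
      simp only [Matrix.vecMulLinear_apply]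
      rw [Matrix.single_one_vecMul]
      rfl
    · rintro _ ⟨i, rfl⟩
      right
      refine ⟨M i, ⟨i, rfl⟩, ?_⟩
      simp only [Matrix.vecMulLinear_apply]
      rw [Matrix.mul_apply_eq_vecMul]
  rw [add_comm]
  exact Reach.trans hN h2

/-- A3 -/
theorem CL.submatrix {M : Matrix m n ℂ} {t : ℕ} (h : CL M t) (e : m' → m) (f : n' → n)
    (hf : Function.Injective f) : CL (M.submatrix e f) t := by
  classical
  have h1 := Reach.map (LinearMap.funLeft ℂ ℂ f) h
  refine (h1.mono_left ?_).mono_right ?_
  · rintro _ ⟨v, hv, rfl⟩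
    obtain ⟨j, rfl⟩ := mem_units_iff.1 hv
    by_cases hj : ∃ j', f j' = j
    · obtain ⟨j', rfl⟩ := hj
      right
      refine mem_units_iff.2 ⟨j', funext fun k => ?_⟩
      simp only [LinearMap.funLeft_apply, Pi.single_apply, hf.eq_iff]
    · left
      funext k
      simp only [LinearMap.funLeft_apply, Pi.single_apply, Pi.zero_apply]
      rw [if_neg]
      exact fun hk => hj ⟨k, hk⟩
  · rintro _ ⟨i, rfl⟩
    right
    exact ⟨M (e i), ⟨e i, rfl⟩, rfl⟩

theorem CL.reindex {M : Matrix m n ℂ} {t : ℕ} (h : CL M t) (e : m ≃ m') (f : n ≃ n') :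
    CL (Matrix.reindex e f M) t :=
  h.submatrix e.symm f.symm f.symm.injective

theorem CL_reindex_iff {M : Matrix m n ℂ} {t : ℕ} (e : m ≃ m') (f : n ≃ n') :
    CL (Matrix.reindex e f M) t ↔ CL M t := by
  constructor
  · intro h
    have h2 := h.reindex e.symm f.symm
    simpa using h2
  · exact fun h => h.reindex e f

theorem CL_submatrix_iff {M : Matrix m n ℂ} {t : ℕ} (e : m' ≃ m) (f : n' ≃ n) :
    CL (M.submatrix e f) t ↔ CL M t := by
  constructor
  · intro h
    have h2 := h.submatrix e.symm f.symm f.symm.injective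
    simpa using h2
  · exact fun h => h.submatrix e f f.injective

/-- one scalar multiplication of an input for every row -/
theorem CL.of_scaled_rows [Fintype m] {M : Matrix m n ℂ}
    (h : ∀ i, (∀ j, M i j = 0) ∨ ∃ j, ∀ k, k ≠ j → M i k = 0) : CL M (Fintype.card m) := by
  classical
  refine Reach.of_gates (ι := m) (v := fun i => M i) fun i => ?_
  rcases h i with h0 | ⟨j, hj⟩
  · exact Or.inr ⟨0, Set.mem_insert _ _, 0, funext fun k => by simpa using h0 k⟩
  · refine Or.inr ⟨Pi.single j 1, Or.inr (single_mem_units j), M i j, funext fun k => ?_⟩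
    by_cases hk : k = j
    · subst hk; simp
    · simp [hk, hj k hk]

/-- A5 -/
theorem CL.of_mono [Fintype n] {M : Matrix n n ℂ} (h : Mono M) : CL M (Fintype.card n) := by
  obtain ⟨σ, d, -, -, h3⟩ := h
  exact CL.of_scaled_rows fun i => Or.inr ⟨σ i, h3 i⟩

/-- A5 -/
theorem CL.diagonal [Fintype n] [DecidableEq n] (d : n → ℂ) :
    CL (Matrix.diagonal d) (Fintype.card n) :=
  CL.of_scaled_rows fun i => Or.inr ⟨i, fun k hk => by simp [Ne.symm hk]⟩

/-- A6 -/
theorem CL.naive [Fintype m] [Fintype n] (M : Matrix m n ℂ) :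
    CL M (2 * Fintype.card m * Fintype.card n) := by
  classical
  have h1 := Reach.iUnion (S := units n) (t := fun _ : m => 2 * (Finset.univ : Finset n).card)
    (T := fun i => {∑ j ∈ (Finset.univ : Finset n), M i j • (Pi.single j (1 : ℂ) : n → ℂ)})
    fun i => Reach.sum Finset.univ _ _ fun j _ => Or.inr (single_mem_units j)
  simp only [Finset.sum_const, Finset.card_univ, smul_eq_mul] at h1
  have e : 2 * Fintype.card m * Fintype.card n = Fintype.card m * (2 * Fintype.card n) := by ring
  rw [e]
  refine h1.mono_right ?_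
  rintro _ ⟨i, rfl⟩
  right
  refine Set.mem_iUnion.2 ⟨i, ?_⟩
  rw [Set.mem_singleton_iff]
  funext k
  simp [Finset.sum_apply, Pi.single_apply]

/-- A7 -/
theorem CL.add [Fintype m] {M N : Matrix m n ℂ} {s t : ℕ} (hM : CL M s) (hN : CL N t) :
    CL (M + N) (s + t + Fintype.card m) := by
  refine (hM.union hN).trans (Reach.of_gates (ι := m) (v := fun i => (M + N) i) fun i => ?_)
  exact Or.inl ⟨M i, Or.inr (Or.inl ⟨i, rfl⟩), N i, Or.inr (Or.inr ⟨i, rfl⟩), Or.inl rfl⟩

theorem CL.sub [Fintype m] {M N : Matrix m n ℂ} {s t : ℕ} (hM : CL M s) (hN : CL N t) :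
    CL (M - N) (s + t + Fintype.card m) := by
  refine (hM.union hN).trans (Reach.of_gates (ι := m) (v := fun i => (M - N) i) fun i => ?_)
  exact Or.inl ⟨M i, Or.inr (Or.inl ⟨i, rfl⟩), N i, Or.inr (Or.inr ⟨i, rfl⟩), Or.inr rfl⟩

theorem CL.smul [Fintype m] {M : Matrix m n ℂ} {s : ℕ} (c : ℂ) (hM : CL M s) :
    CL (c • M) (s + Fintype.card m) := by
  refine hM.trans (Reach.of_gates (ι := m) (v := fun i => (c • M) i) fun i => ?_)
  exact Or.inr ⟨M i, Or.inr ⟨i, rfl⟩, c, rfl⟩

/-- rows split along `p` -/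
theorem CL.of_rows {B : Type*} [Fintype B] {M : Matrix m n ℂ} (p : m → B) (t : B → ℕ)
    (h : ∀ b, CL (M.submatrix (fun i : {i // p i = b} => i.1) id) (t b)) :
    CL M (∑ b, t b) := by
  have h1 := Reach.iUnion h
  refine h1.mono_right ?_
  rintro _ ⟨i, rfl⟩
  right
  exact Set.mem_iUnion.2 ⟨p i, ⟨⟨i, rfl⟩, rfl⟩⟩

/-- A8 -/
theorem CL.block {B : Type*} [Fintype B] (M : Matrix m n ℂ) (p : m → B) (q : n → B)
    (h0 : ∀ i j, p i ≠ q j → M i j = 0) (t : B → ℕ)
    (h : ∀ b, CL (M.submatrix (fun i : {i // p i = b} => i.1) (fun j : {j // q j = b} => j.1))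
      (t b)) : CL M (∑ b, t b) := by
  classical
  refine CL.of_rows p t fun b => ?_
  let f : ({j // q j = b} → ℂ) →ₗ[ℂ] (n → ℂ) :=
    { toFun := fun v j => if hj : q j = b then v ⟨j, hj⟩ else 0
      map_add' := by
        intro v w
        funext j
        by_cases hj : q j = b <;> simp [hj]
      map_smul' := by
        intro c v
        funext j
        by_cases hj : q j = b <;> simp [hj] }
  have h1 := Reach.map f (h b)
  refine (h1.mono_left ?_).mono_right ?_
  · rintro _ ⟨v, ⟨j, hj1, hj2⟩, rfl⟩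
    right
    refine ⟨j.1, ?_, fun k hk => ?_⟩
    · change (if hj : q j.1 = b then v ⟨j.1, hj⟩ else 0) = 1
      rw [dif_pos j.2]
      exact hj1
    · change (if hj : q k = b then v ⟨k, hj⟩ else 0) = 0
      by_cases hkb : q k = b
      · rw [dif_pos hkb]
        exact hj2 _ fun hh => hk (by rw [← hh])
      · rw [dif_neg hkb]
  · rintro _ ⟨i, rfl⟩
    right
    refine ⟨_, ⟨i, rfl⟩, ?_⟩
    funext k
    by_cases hkb : q k = b
    · exact dif_pos hkb
    · have h3 : M i.1 k = 0 := h0 i.1 k (by rw [i.2]; exact Ne.symm hkb)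
      exact (dif_neg hkb).trans h3.symm

/-- `M` on every fibre of the second coordinate -/
theorem CL.kron_one {B : Type*} [Fintype B] [DecidableEq B] {M : Matrix m n ℂ} {t : ℕ}
    (h : CL M t) : CL (Matrix.kroneckerMap (fun x y => x * y) M (1 : Matrix B B ℂ))
      (Fintype.card B * t) := by
  have h1 : CL (Matrix.kroneckerMap (fun x y => x * y) M (1 : Matrix B B ℂ)) (∑ _b : B, t) := by
    refine CL.block _ (fun i : m × B => i.2) (fun j : n × B => j.2) ?_ _ fun b => ?_
    · intro i j hij
      simp [Matrix.kroneckerMap_apply, hij]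
    · have h2 := h.submatrix (fun i : {i : m × B // i.2 = b} => i.1.1)
        (fun j : {j : n × B // j.2 = b} => j.1.1) (by
          rintro ⟨⟨a, a'⟩, ha⟩ ⟨⟨c, c'⟩, hc⟩ hac
          simp only at ha hc hac
          subst ha hc hac
          rfl)
      convert h2 using 1
      ext ⟨i, hi⟩ ⟨j, hj⟩
      simp only [Matrix.submatrix_apply, Matrix.kroneckerMap_apply, Matrix.one_apply]
      rw [if_pos (hi.trans hj.symm), mul_one]
  simpa using h1

/-- `M` on every fibre of the first coordinate -/
theorem CL.one_kron {B : Type*} [Fintype B] [DecidableEq B] {M : Matrix m n ℂ} {t : ℕ}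
    (h : CL M t) : CL (Matrix.kroneckerMap (fun x y => x * y) (1 : Matrix B B ℂ) M)
      (Fintype.card B * t) := by
  have h1 := (h.kron_one (B := B)).submatrix (Prod.swap : B × m → m × B)
    (Prod.swap : B × n → n × B) Prod.swap_injective
  convert h1 using 1
  ext ⟨i, i'⟩ ⟨j, j'⟩
  simp [Matrix.kroneckerMap_apply, mul_comm]

/-- independent blocks given by a disjoint sum -/
theorem CL.fromBlocks {M : Matrix m n ℂ} {N : Matrix m' n' ℂ} {s t : ℕ} (hM : CL M s)
    (hN : CL N t) : CL (Matrix.fromBlocks M 0 0 N) (s + t) := by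
  classical
  have h1 : CL (Matrix.fromBlocks M 0 0 N) (∑ b : Bool, if b then t else s) := by
    refine CL.block _ (fun i : m ⊕ m' => i.isRight) (fun j : n ⊕ n' => j.isRight) ?_ _ fun b => ?_
    · rintro (i | i) (j | j) hij <;> simp at hij ⊢
    · cases b
      · have h2 := hM.submatrix
          (fun i : {i : m ⊕ m' // i.isRight = false} => i.1.getLeft (by simpa using i.2))
          (fun j : {j : n ⊕ n' // j.isRight = false} => j.1.getLeft (by simpa using j.2)) (by
            rintro ⟨a | a, ha⟩ ⟨c | c, hc⟩ hac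
            · simp at hac; subst hac; rfl
            all_goals simp at ha hc)
        simp only [Bool.false_eq_true, if_false]
        convert h2 using 1
        ext ⟨i | i, hi⟩ ⟨j | j, hj⟩
        · rfl
        all_goals simp at hi hj
      · have h2 := hN.submatrix
          (fun i : {i : m ⊕ m' // i.isRight = true} => i.1.getRight (by simpa using i.2))
          (fun j : {j : n ⊕ n' // j.isRight = true} => j.1.getRight (by simpa using j.2)) (by
            rintro ⟨a | a, ha⟩ ⟨c | c, hc⟩ hac
            · simp at ha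
            · simp at ha
            · simp at hc
            · simp at hac; subst hac; rfl)
        simp only [if_true]
        convert h2 using 1
        ext ⟨i | i, hi⟩ ⟨j | j, hj⟩
        · simp at hi
        · simp at hi
        · simp at hj
        · rfl
  refine h1.le ?_
  simp [add_comm]

end CL

/-! ### A9: circuits -/

section Circuit

open Crest.FourierCircuit

theorem reach_circuit {n : ℕ} {S T : Set (Fin n → ℂ)} {t : ℕ} (h : Reach S t T) :
    ∀ L : List (Fin n → ℂ), (∀ v ∈ insert 0 S, v ∈ L) →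
      ∃ (gs : List LGate) (L' : List (Fin n → ℂ)), gs.length = t ∧
        (∀ x : Fin n → ℂ, gs.foldl (fun avail g => avail ++ [g.value avail])
          (L.map fun v => v ⬝ᵥ x) = L'.map fun v => v ⬝ᵥ x) ∧ ∀ v ∈ T, v ∈ L' := by
  induction h with
  | base h =>
    intro L hL
    exact ⟨[], L, rfl, fun x => rfl, fun v hv => hL v (h hv)⟩
  | @step S T t v hv h ih =>
    intro L hL
    have hL' : ∀ w ∈ insert 0 (insert v S), w ∈ L ++ [v] := by
      intro w hw
      rcases hw with hw | hw | hw
      · exact List.mem_append_left _ (hL w (Or.inl hw))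
      · exact List.mem_append_right _ (by simp [hw])
      · exact List.mem_append_left _ (hL w (Or.inr hw))
    obtain ⟨gs, L', h1, h2, h3⟩ := ih (L ++ [v]) hL'
    have key : ∀ a ∈ L, ∃ k : ℕ, ∀ x : Fin n → ℂ,
        (L.map fun v => v ⬝ᵥ x).getD k 0 = a ⬝ᵥ x := by
      intro a ha
      obtain ⟨k, hk, rfl⟩ := List.getElem_of_mem ha
      refine ⟨k, fun x => ?_⟩
      rw [List.getD_eq_getElem _ _ (by simpa using hk)]
      simp
    have hg : ∃ g : LGate, ∀ x : Fin n → ℂ, g.value (L.map fun v => v ⬝ᵥ x) = v ⬝ᵥ x := by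
      rcases hv with ⟨a, ha, b, hb, hv⟩ | ⟨a, ha, c, hv⟩
      · obtain ⟨i, hi⟩ := key a (hL a ha)
        obtain ⟨j, hj⟩ := key b (hL b hb)
        rcases hv with hv | hv
        · refine ⟨LGate.add i j, fun x => ?_⟩
          rw [LGate.value, hi, hj, hv, add_dotProduct]
        · refine ⟨LGate.sub i j, fun x => ?_⟩
          rw [LGate.value, hi, hj, hv, sub_dotProduct]
      · obtain ⟨i, hi⟩ := key a (hL a ha)
        refine ⟨LGate.smul c i, fun x => ?_⟩
        rw [LGate.value, hi, hv, smul_dotProduct]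
        rfl
    obtain ⟨g, hg⟩ := hg
    refine ⟨g :: gs, L', by simp [h1], fun x => ?_, h3⟩
    rw [List.foldl_cons, ← h2 x, hg x]
    simp

/-- A9 -/
theorem CL.toLinCircuit {n : ℕ} {M : Matrix (Fin n) (Fin n) ℂ} {t : ℕ} (h : CL M t) :
    ∃ P : LinCircuit n, P.Computes M ∧ P.size ≤ t := by
  obtain ⟨gs, L', h1, h2, h3⟩ := reach_circuit h
    (List.ofFn (fun i : Fin n => (Pi.single i (1 : ℂ) : Fin n → ℂ)) ++ [0]) (by
      intro v hv
      rcases hv with hv | hv
      · exact List.mem_append_right _ (by simp [hv])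
      · obtain ⟨j, rfl⟩ := mem_units_iff.1 hv
        exact List.mem_append_left _ (by simp [List.mem_ofFn]))
  have key : ∀ i : Fin n, ∃ k : ℕ, ∀ x : Fin n → ℂ,
      (L'.map fun v => v ⬝ᵥ x).getD k 0 = M i ⬝ᵥ x := by
    intro i
    obtain ⟨k, hk, hk'⟩ := List.getElem_of_mem (h3 (M i) ⟨i, rfl⟩)
    refine ⟨k, fun x => ?_⟩
    rw [List.getD_eq_getElem _ _ (by simpa using hk)]
    simp [hk']
  choose o ho using key
  refine ⟨⟨gs, o⟩, ?_, h1.le⟩
  intro x k
  have e : (⟨gs, o⟩ : LinCircuit n).values x = L'.map fun v => v ⬝ᵥ x := by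
    rw [← h2 x]
    unfold LinCircuit.values
    congr 1
    simp [List.map_ofFn, Function.comp_def]
  rw [e]
  exact ho k x

end Circuit

end DFTC
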