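import Crest.Agent.DFT.Defs

/-! S0501: the structure `Chain` (shared by parts H, I, J). -/

set_option autoImplicit false
open Matrix Finset
namespace DFTC

/-- everything about the primes -/
structure Chain (d m : ℕ) (q q' : Fin d → ℕ) (q₀ : ℕ) : Prop where
  prime : ∀ g, (q g).Prime
  prime' : ∀ g, (q' g).Prime
  prime₀ : q₀.Prime
  three : ∀ g, 3 ≤ q g
  le' : ∀ g, q g ≤ q' g
  le4 : ∀ g, q' g ≤ 4 * q g
  lt' : ∀ g, q' g < 2 ^ m
  lt₀ : q₀ < 2 ^ m
  three₀ : 3 ≤ q₀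
  inj : Function.Injective q
  inj' : Function.Injective q'
  disj : ∀ g h, q g ≠ q' h
  ne : ∀ g, q g ≠ q₀ ∧ q' g ≠ q₀

end DFTC
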