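import Crest.Agent.DFT.CLBasic

/-!
S0501, parts B1, B2, B3 (helper27): Kronecker products and powers.
-/

set_option autoImplicit false
open Matrix Finset
namespace DFTC

theorem piK_mul {ι : Type*} [Fintype ι] [DecidableEq ι] {m n p : ι → Type*} [∀ i, Fintype (n i)]
    (M : ∀ i, Matrix (m i) (n i) ℂ) (N : ∀ i, Matrix (n i) (p i) ℂ) :
    piK (fun i => M i * N i) = piK M * piK N := by
  ext a b
  simp only [piK, Matrix.of_apply, Matrix.mul_apply]
  rw [Finset.prod_univ_sum]
  simp only [Fintype.piFinset_univ, ← Finset.prod_mul_distrib]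

theorem pw_mul {W : Type*} [Fintype W] (k : ℕ) (M N : Matrix W W ℂ) :
    pw k (M * N) = pw k M * pw k N := by
  ext a b
  simp only [pw, Matrix.of_apply, Matrix.mul_apply]
  rw [Finset.prod_univ_sum]
  simp only [Fintype.piFinset_univ, ← Finset.prod_mul_distrib]

theorem pw_one {W : Type*} [Fintype W] [DecidableEq W] (k : ℕ) :
    pw k (1 : Matrix W W ℂ) = 1 := by
  ext a b
  simp only [pw, Matrix.of_apply, Matrix.one_apply]
  by_cases h : a = b
  · subst h
    simp
  · rw [if_neg h]
    obtain ⟨i, hi⟩ := Function.ne_iff.1 h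
    exact Finset.prod_eq_zero (mem_univ i) (if_neg hi)

/-- reindexing of powers -/
theorem CL_pw_reindex {W W' : Type*} (e : W ≃ W') (M : Matrix W W ℂ) (M' : Matrix W' W' ℂ)
    (h : ∀ a b, M a b = M' (e a) (e b)) (k t : ℕ) (hM : CL (pw k M') t) : CL (pw k M) t := by
  have h1 : pw k M = (pw k M').submatrix (fun x i => e (x i)) (fun x i => e (x i)) := by
    ext a b
    simp only [pw, Matrix.of_apply, Matrix.submatrix_apply]
    exact Finset.prod_congr rfl fun i _ => h _ _
  rw [h1]
  refine hM.submatrix _ _ ?_
  intro x y hxy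
  funext i
  exact e.injective (congrFun hxy i)

theorem CL_pw_two {W : Type*} (M : Matrix W W ℂ) (k t : ℕ)
    (h : CL (pw k (Matrix.of fun a b : W × W => M a.1 b.1 * M a.2 b.2)) t) :
    CL (pw (2 * k) M) t := by
  set φ : (Fin (2 * k) → W) → (Fin k → W × W) := fun x i =>
    (x (finProdFinEquiv (0, i)), x (finProdFinEquiv (1, i))) with hφ
  have h1 : pw (2 * k) M =
      (pw k (Matrix.of fun a b : W × W => M a.1 b.1 * M a.2 b.2)).submatrix φ φ := by
    ext a b
    simp only [pw, Matrix.of_apply, Matrix.submatrix_apply, hφ]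
    rw [← Equiv.prod_comp finProdFinEquiv, Fintype.prod_prod_type_right]
    refine Finset.prod_congr rfl fun i _ => ?_
    rw [Fin.prod_univ_two]
  rw [h1]
  refine h.submatrix _ _ ?_
  intro x y hxy
  funext j
  obtain ⟨⟨s, i⟩, rfl⟩ := (finProdFinEquiv (m := 2) (n := k)).surjective j
  have h2 := congrFun hxy i
  simp only [hφ, Prod.mk.injEq] at h2
  fin_cases s
  · exact h2.1
  · exact h2.2

theorem CL_pw_three {W : Type*} (M : Matrix W W ℂ) (k t : ℕ)
    (h : CL (pw k (Matrix.of fun a b : W × W × W => M a.1 b.1 * M a.2.1 b.2.1 * M a.2.2 b.2.2)) t) :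
    CL (pw (3 * k) M) t := by
  set φ : (Fin (3 * k) → W) → (Fin k → W × W × W) := fun x i =>
    (x (finProdFinEquiv (0, i)), x (finProdFinEquiv (1, i)), x (finProdFinEquiv (2, i))) with hφ
  have h1 : pw (3 * k) M =
      (pw k (Matrix.of fun a b : W × W × W =>
        M a.1 b.1 * M a.2.1 b.2.1 * M a.2.2 b.2.2)).submatrix φ φ := by
    ext a b
    simp only [pw, Matrix.of_apply, Matrix.submatrix_apply, hφ]
    rw [← Equiv.prod_comp finProdFinEquiv, Fintype.prod_prod_type_right]
    refine Finset.prod_congr rfl fun i _ => ?_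
    rw [Fin.prod_univ_three]
  rw [h1]
  refine h.submatrix _ _ ?_
  intro x y hxy
  funext j
  obtain ⟨⟨s, i⟩, rfl⟩ := (finProdFinEquiv (m := 3) (n := k)).surjective j
  have h2 := congrFun hxy i
  simp only [hφ, Prod.mk.injEq] at h2
  fin_cases s
  · exact h2.1
  · exact h2.2.1
  · exact h2.2.2

/-- counting the blocks -/
theorem sum_blocks {U : Type*} [Fintype U] (k : ℕ) (c : ℕ → ℕ)
    [DecidableEq (U ⊕ Unit)] [Fintype (Fin k → U ⊕ Unit)] :
    ∑ b : Fin k → U ⊕ Unit, c (Finset.univ.filter fun i => b i = Sum.inr ()).card =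
      ∑ j ∈ range (k + 1), k.choose j * (Fintype.card U) ^ (k - j) * c j := by
  classical
  have h1 : ∀ J : Finset (Fin k),
      (Finset.univ.filter fun b : Fin k → U ⊕ Unit =>
        (Finset.univ.filter fun i => b i = Sum.inr ()) = J).card =
        (Fintype.card U) ^ (k - J.card) := by
    intro J
    have h2 : (Finset.univ.filter fun b : Fin k → U ⊕ Unit =>
        (Finset.univ.filter fun i => b i = Sum.inr ()) = J) =
        Fintype.piFinset fun i => if i ∈ J then {(Sum.inr () : U ⊕ Unit)} else
          Finset.univ.image (fun u : U => (Sum.inl u : U ⊕ Unit)) := by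
      ext b
      simp only [Finset.mem_filter, Finset.mem_univ, true_and, Fintype.mem_piFinset]
      constructor
      · intro h i
        by_cases hi : i ∈ J
        · rw [if_pos hi]
          rw [← h] at hi
          simpa using hi
        · rw [if_neg hi]
          rw [← h] at hi
          simp only [Finset.mem_filter, Finset.mem_univ, true_and] at hi
          rcases hb : b i with u | u
          · simp
          · exact absurd hb (by cases u; exact hi)
      · intro h
        ext i
        simp only [Finset.mem_filter, Finset.mem_univ, true_and]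
        have h3 := h i
        by_cases hi : i ∈ J
        · rw [if_pos hi] at h3
          simp only [Finset.mem_singleton] at h3
          simp [h3, hi]
        · rw [if_neg hi] at h3
          simp only [Finset.mem_image, Finset.mem_univ, true_and] at h3
          obtain ⟨u, hu⟩ := h3
          simp [← hu, hi]
    rw [h2, Fintype.card_piFinset]
    have h4 : ∀ i : Fin k, (if i ∈ J then {(Sum.inr () : U ⊕ Unit)} else
          Finset.univ.image (fun u : U => (Sum.inl u : U ⊕ Unit))).card =
          if i ∈ J then 1 else Fintype.card U := by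
      intro i
      split_ifs
      · simp
      · rw [Finset.card_image_of_injective _ Sum.inl_injective, Finset.card_univ]
    rw [Finset.prod_congr rfl fun i _ => h4 i, Finset.prod_ite]
    simp only [Finset.prod_const_one, one_mul, Finset.prod_const]
    congr 1
    rw [Finset.filter_not, Finset.card_sdiff_of_subset (Finset.filter_subset _ _)]
    simp
  rw [← Finset.sum_fiberwise_of_maps_to (s := Finset.univ) (t := (Finset.univ : Finset (Fin k)).powerset)
    (g := fun b : Fin k → U ⊕ Unit => Finset.univ.filter fun i => b i = Sum.inr ())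
    (fun b _ => by simp)]
  rw [Finset.sum_congr rfl (g := fun J : Finset (Fin k) => (Fintype.card U) ^ (k - J.card) * c J.card)]
  · rw [Finset.sum_powerset_apply_card (fun j => (Fintype.card U) ^ (k - j) * c j)]
    simp only [Finset.card_univ, Fintype.card_fin, smul_eq_mul, mul_assoc]
  · intro J _
    rw [Finset.sum_congr rfl (g := fun _ => c J.card)]
    · rw [Finset.sum_const, smul_eq_mul]
      congr 1
      exact h1 J
    · intro b hb
      rw [(Finset.mem_filter.1 hb).2]

/-- B2: powers of a gate acting as `G` on `X` and trivially on `U`. -/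
theorem CL_pw_block {W U X : Type*} [Fintype U] [Fintype X] (e : W ≃ U ⊕ X)
    (g : Matrix W W ℂ) (G : Matrix X X ℂ)
    (h1 : ∀ u, g (e.symm (.inl u)) (e.symm (.inl u)) = 1)
    (h2 : ∀ u w, w ≠ e.symm (.inl u) → g (e.symm (.inl u)) w = 0 ∧ g w (e.symm (.inl u)) = 0)
    (h3 : ∀ x x', g (e.symm (.inr x)) (e.symm (.inr x')) = G x x')
    (k : ℕ) (c : ℕ → ℕ) (hc : ∀ j ≤ k, CL (pw j G) (c j)) :
    CL (pw k g) (∑ j ∈ range (k + 1), k.choose j * (Fintype.card U) ^ (k - j) * c j) := by
  classical
  rw [← sum_blocks]
  set p : (Fin k → W) → (Fin k → U ⊕ Unit) := fun a i => Sum.map id (fun _ => ()) (e (a i)) with hp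
  refine CL.block (pw k g) p p ?_ (fun b => c (Finset.univ.filter fun i => b i = Sum.inr ()).card) ?_
  · intro a b hab
    obtain ⟨i, hi⟩ := Function.ne_iff.1 hab
    simp only [pw, Matrix.of_apply]
    refine Finset.prod_eq_zero (mem_univ i) ?_
    rcases ha : e (a i) with u | x
    · have ha' : a i = e.symm (.inl u) := by rw [← ha, Equiv.symm_apply_apply]
      rw [ha']
      refine (h2 u (b i) ?_).1
      intro hb'
      apply hi
      simp [hp, ha', hb']
    · rcases hb : e (b i) with u | x'
      · have hb' : b i = e.symm (.inl u) := by rw [← hb, Equiv.symm_apply_apply]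
        rw [hb']
        refine (h2 u (a i) ?_).2
        intro ha'
        apply hi
        simp [hp, ha', hb']
      · exfalso
        apply hi
        simp [hp, ha, hb]
  · intro b
    set J : Finset (Fin k) := Finset.univ.filter fun i => b i = Sum.inr () with hJ
    have hmemJ : ∀ i, i ∈ J ↔ b i = Sum.inr () := fun i => by simp [hJ]
    let eJ : Fin J.card ≃ {i // i ∈ J} := J.equivFin.symm
    have hx : ∀ (a : {a : Fin k → W // p a = b}) (s : Fin J.card),
        ∃ x : X, a.1 (eJ s).1 = e.symm (.inr x) := by
      intro a s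
      have hs := (hmemJ _).1 (eJ s).2
      rw [← a.2] at hs
      simp only [hp] at hs
      rcases hh : e (a.1 (eJ s).1) with u | x
      · rw [hh] at hs
        simp at hs
      · exact ⟨x, by rw [← hh, Equiv.symm_apply_apply]⟩
    choose φ hφ using hx
    have hu : ∀ i, i ∉ J → ∃ u : U, ∀ a : {a : Fin k → W // p a = b}, a.1 i = e.symm (.inl u) := by
      intro i hi
      rw [hmemJ] at hi
      rcases hb : b i with u | u
      · refine ⟨u, fun a => ?_⟩
        have ha := congrFun a.2 i
        rw [hb] at ha
        simp only [hp] at ha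
        rcases hh : e (a.1 i) with u' | x
        · rw [hh] at ha
          simp only [Sum.map_inl, id, Sum.inl.injEq] at ha
          rw [← ha, ← hh, Equiv.symm_apply_apply]
        · rw [hh] at ha
          simp at ha
      · exact absurd hb (by cases u; exact hi)
    have hsub : (pw k g).submatrix (fun i : {i // p i = b} => i.1) (fun j : {j // p j = b} => j.1) =
        (pw J.card G).submatrix φ φ := by
      ext a a'
      simp only [pw, Matrix.of_apply, Matrix.submatrix_apply]
      rw [← Finset.prod_subset (Finset.subset_univ J)]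
      · rw [← Finset.prod_coe_sort, ← Equiv.prod_comp eJ]
        refine Finset.prod_congr rfl fun s _ => ?_
        rw [hφ a s, hφ a' s, h3]
      · intro i _ hi
        obtain ⟨u, hu⟩ := hu i hi
        rw [hu a, hu a', h1]
    rw [hsub]
    have hJk : J.card ≤ k := by
      simpa using Finset.card_le_univ J
    refine (hc _ hJk).submatrix _ _ ?_
    intro a a' haa
    apply Subtype.ext
    funext i
    by_cases hi : i ∈ J
    · have hs : (eJ (eJ.symm ⟨i, hi⟩)).1 = i := by rw [Equiv.apply_symm_apply]
      have h5 := hφ a (eJ.symm ⟨i, hi⟩)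
      have h6 := hφ a' (eJ.symm ⟨i, hi⟩)
      rw [hs] at h5 h6
      rw [h5, h6, haa]
    · obtain ⟨u, hu⟩ := hu i hi
      rw [hu a, hu a']

/-- one factor of a Kronecker product -/
theorem CL_piK_single {d : ℕ} (W : Fin d → Type) [∀ i, Fintype (W i)] [∀ i, DecidableEq (W i)]
    (i : Fin d) (M : Matrix (W i) (W i) ℂ) (c : ℕ) (h : CL M c) (E : ∀ i, Matrix (W i) (W i) ℂ)
    (hE : E i = M) (hE' : ∀ j, j ≠ i → E j = 1) :
    CL (piK E) ((∏ j ∈ univ.erase i, Fintype.card (W j)) * c) := by
  classical
  have hcard : Fintype.card (∀ j : {j // j ≠ i}, W j.1) = ∏ j ∈ univ.erase i, Fintype.card (W j) := by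
    rw [Fintype.card_pi]
    exact (Finset.prod_subtype (univ.erase i) (by simp) fun j => Fintype.card (W j)).symm
  have hsum : (∏ j ∈ univ.erase i, Fintype.card (W j)) * c =
      ∑ _b : (∀ j : {j // j ≠ i}, W j.1), c := by
    rw [Finset.sum_const, smul_eq_mul, Finset.card_univ, hcard]
  rw [hsum]
  refine CL.block (piK E) (fun a (j : {j // j ≠ i}) => a j.1) (fun a (j : {j // j ≠ i}) => a j.1)
    ?_ (fun _ => c) ?_
  · intro a b hab
    obtain ⟨j, hj⟩ := Function.ne_iff.1 hab
    simp only [piK, Matrix.of_apply]
    refine Finset.prod_eq_zero (mem_univ j.1) ?_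
    rw [hE' j.1 j.2, Matrix.one_apply, if_neg hj]
  · intro b
    have hsub : (piK E).submatrix
        (fun x : {x : ∀ j, W j // (fun (j : {j // j ≠ i}) => x j.1) = b} => x.1)
        (fun x : {x : ∀ j, W j // (fun (j : {j // j ≠ i}) => x j.1) = b} => x.1) =
        M.submatrix (fun x => x.1 i) (fun x => x.1 i) := by
      ext x y
      simp only [piK, Matrix.of_apply, Matrix.submatrix_apply]
      rw [Finset.prod_eq_single i]
      · rw [hE]
      · intro j _ hj
        have h1 : x.1 j = y.1 j := by
          have hx := congrFun x.2 ⟨j, hj⟩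
          have hy := congrFun y.2 ⟨j, hj⟩
          exact hx.trans hy.symm
        rw [hE' j hj, h1, Matrix.one_apply_eq]
      · intro hi
        exact absurd (mem_univ i) hi
    rw [hsub]
    refine h.submatrix _ _ ?_
    intro x y hxy
    apply Subtype.ext
    funext j
    by_cases hj : j = i
    · subst hj
      exact hxy
    · have hx := congrFun x.2 ⟨j, hj⟩
      have hy := congrFun y.2 ⟨j, hj⟩
      exact hx.trans hy.symm

/-- B3 -/
theorem CL_piK_seq {d : ℕ} (W : Fin d → Type) [∀ i, Fintype (W i)]
    (M : ∀ i, Matrix (W i) (W i) ℂ) (c : Fin d → ℕ) (h : ∀ i, CL (M i) (c i)) :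
    CL (piK M) (∑ i, (∏ j ∈ univ.erase i, Fintype.card (W j)) * c i) := by
  classical
  have key : ∀ S : Finset (Fin d), CL (piK (fun i => if i ∈ S then M i else 1))
      (∑ i ∈ S, (∏ j ∈ univ.erase i, Fintype.card (W j)) * c i) := by
    intro S
    induction S using Finset.induction_on with
    | empty =>
      have h1 : (piK (fun i => if i ∈ (∅ : Finset (Fin d)) then M i else 1) :
          Matrix (∀ i, W i) (∀ i, W i) ℂ) = 1 := by
        ext a b
        simp only [piK, Matrix.of_apply, Finset.notMem_empty, if_false, Matrix.one_apply]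
        by_cases hab : a = b
        · subst hab
          simp
        · rw [if_neg hab]
          obtain ⟨i, hi⟩ := Function.ne_iff.1 hab
          exact Finset.prod_eq_zero (mem_univ i) (if_neg hi)
      rw [h1, Finset.sum_empty]
      exact CL_one
    | insert i S hi ih =>
      rw [Finset.sum_insert hi]
      have h1 : (fun j => if j ∈ insert i S then M j else 1) =
          (fun j => (if j = i then M j else 1) * (if j ∈ S then M j else 1)) := by
        funext j
        by_cases hj : j = i
        · subst hj
          simp [hi]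
        · simp [hj]
      rw [h1, piK_mul]
      refine CL.mul ?_ ih
      exact CL_piK_single W i (M i) (c i) (h i) _ (by simp) (fun j hj => by simp [hj])
  have h1 := key Finset.univ
  simpa using h1

end DFTC
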