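import Crest.Agent.DFT.LPLay

/-!
S0501 Part G1: eight copies of a Fourier matrix of odd order `q` are a product of `O(log q)`
layers.
-/

set_option autoImplicit false
set_option linter.unusedSectionVars false

namespace DFTC

namespace LP

open Matrix

variable {W X : Type*} [Fintype W] [DecidableEq W] [Fintype X] [DecidableEq X]

theorem incT_mul_mul_inc {A : Type*} [Fintype A] [DecidableEq A] (v : X → A)
    (M : Matrix A A ℂ) (a b : X) : ((inc v)ᵀ * M * inc v) a b = M (v a) (v b) := by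
  have h1 : ∀ z, ((inc v)ᵀ * M) a z = M (v a) z := by
    intro z
    simp only [inc, Matrix.mul_apply, Matrix.transpose_apply, Matrix.of_apply, ite_mul, one_mul,
      zero_mul]
    rw [Finset.sum_eq_single (v a)]
    · simp
    · intro w _ hw; rw [if_neg hw]
    · intro h; exact absurd (Finset.mem_univ _) h
  rw [Matrix.mul_apply, Finset.sum_congr rfl (fun z _ => by rw [h1 z])]
  simp only [inc, Matrix.of_apply, mul_ite, mul_one, mul_zero]
  rw [Finset.sum_eq_single (v b)]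
  · simp
  · intro w _ hw; rw [if_neg hw]
  · intro h; exact absurd (Finset.mem_univ _) h

/-- `x += K y` for a matrix `K` that embeds in a circulant of size `2^k`, with a dirty ancilla -/
theorem Lay_Ecirc {k : ℕ} {x y : X → W} (hx : Function.Injective x) (hy : Function.Injective y)
    (hxy : ∀ a b, x a ≠ y b) {ι : ZMod (2 ^ k) → W} (hι : Function.Injective ι)
    (hxι : ∀ a z, x a ≠ ι z) (hyι : ∀ b z, y b ≠ ι z) (v : X → ZMod (2 ^ k))
    (hv : Function.Injective v) (h : ZMod (2 ^ k) → ℂ) (K : Matrix X X ℂ)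
    (hK : ∀ a b, K a b = h (v a - v b)) : Lay (16 * k + 5) (Eop x y K) := by
  obtain ⟨c, M, M', hMM', hM'M, hM, hL, hL'⟩ := Lay_circ k h
  have hιy : ∀ z b, ι z ≠ y b := fun z b => (hyι b z).symm
  have hιv : Function.Injective (ι ∘ v) := hι.comp hv
  have hP : ∀ e : ℂ, Eop (ι ∘ v) y (e • (1 : Matrix X X ℂ)) = Eop ι y (e • inc v) := by
    intro e
    simp only [Eop, inc_comp, Matrix.mul_assoc, Matrix.smul_mul, Matrix.mul_smul, Matrix.one_mul]
  have hQ0 : ∀ e : ℂ, Eop x (ι ∘ v) (e • (1 : Matrix X X ℂ)) = Eop x ι (e • (inc v)ᵀ) := by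
    intro e
    simp only [Eop, inc_comp, Matrix.transpose_mul, Matrix.mul_assoc, Matrix.smul_mul,
      Matrix.mul_smul, Matrix.one_mul]
  have hQ : ∀ e : ℂ, ext ι M' * Eop x (ι ∘ v) (e • (1 : Matrix X X ℂ)) * ext ι M =
      Eop x ι (e • ((inc v)ᵀ * M)) := by
    intro e
    rw [hQ0, conj_right hι hxι _ M M' hM'M, Matrix.smul_mul]
  have hcomm := comm_trick (f := x) (a := ι) (g := y) hι hxι hxy hιy ((inc v)ᵀ * M) (inc v)
  have hKc : (inc v)ᵀ * M * inc v = K + c • (1 : Matrix X X ℂ) := by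
    ext a b
    rw [incT_mul_mul_inc, hM, Matrix.add_apply, hK, Matrix.smul_apply, Matrix.one_apply]
    simp only [hv.eq_iff, smul_eq_mul, mul_ite, mul_one, mul_zero]
  have hfin : Eop x y K = Eop x ι ((inc v)ᵀ * M) * Eop ι y (inc v) *
      Eop x ι (-((inc v)ᵀ * M)) * Eop ι y (-(inc v)) *
      Eop x y ((-c) • (1 : Matrix X X ℂ)) := by
    rw [hcomm, hKc, Eop_mul hxy, neg_smul, add_neg_cancel_right]
  have q1 : Lay (4 * k + 1 + 4 * k) (Eop x ι ((inc v)ᵀ * M)) := by
    have := hQ 1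
    rw [one_smul (M := ℂ) (b := (inc v)ᵀ * M)] at this
    rw [← this]
    exact ((Lay_ext hι hL').mul (Lay_E hx hιv (fun a b => hxι a (v b)) 1)).mul (Lay_ext hι hL)
  have q2 : Lay (4 * k + 1 + 4 * k) (Eop x ι (-((inc v)ᵀ * M))) := by
    have := hQ (-1)
    rw [neg_smul, neg_smul, one_smul, one_smul] at this
    rw [← this]
    have h2 := Lay_E hx hιv (fun a b => hxι a (v b)) (-1)
    rw [neg_smul, one_smul] at h2
    exact ((Lay_ext hι hL').mul h2).mul (Lay_ext hι hL)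
  have p1 : Lay 1 (Eop ι y (inc v)) := by
    have := hP 1
    rw [one_smul, one_smul] at this
    rw [← this]
    have h2 := Lay_E hιv hy (fun a b => hιy (v a) b) 1
    rwa [one_smul] at h2
  have p2 : Lay 1 (Eop ι y (-(inc v))) := by
    have := hP (-1)
    rw [neg_smul, neg_smul, one_smul, one_smul] at this
    rw [← this]
    have h2 := Lay_E hιv hy (fun a b => hιy (v a) b) (-1)
    rwa [neg_smul, one_smul] at h2
  rw [hfin]
  have := (((q1.mul p1).mul q2).mul p2).mul (Lay_E hx hy hxy (-c))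
  refine this.le (le_of_eq ?_)
  ring

theorem Mono_diagonal (d : X → ℂ) (hd : ∀ x, d x ≠ 0) : Mono (Matrix.diagonal d) := by
  refine ⟨Equiv.refl X, d, hd, fun w => ?_, fun w v hv => ?_⟩
  · exact Matrix.diagonal_apply_eq d w
  · have hv : v ≠ w := hv
    exact Matrix.diagonal_apply_ne _ hv.symm

theorem char_ne_zero {R : Type*} [AddCommGroup R] (ψ : AddChar R ℂ) (a : R) : ψ a ≠ 0 := by
  intro h
  have h1 : ψ (a + -a) = ψ a * ψ (-a) := AddChar.map_add_eq_mul ψ a (-a)
  rw [add_neg_cancel, AddChar.map_zero_eq_one, h, zero_mul] at h1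
  exact one_ne_zero h1

/-- `x += c GM(ψ) y` -/
theorem Lay_EGM {q k : ℕ} (hq : Odd q) (hk : 2 * q ≤ 2 ^ k) [Fintype (ZMod q)]
    {x y : ZMod q → W}
    (hx : Function.Injective x) (hy : Function.Injective y)
    (hxy : ∀ a b, x a ≠ y b) {ι : ZMod (2 ^ k) → W} (hι : Function.Injective ι)
    (hxι : ∀ a z, x a ≠ ι z) (hyι : ∀ b z, y b ≠ ι z) (ψ : AddChar (ZMod q) ℂ) (c0 : ℂ) :
    Lay (16 * k + 5) (Eop x y (c0 • GM ψ)) := by
  have : NeZero q := ⟨by rintro rfl; exact absurd hq (by decide)⟩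
  obtain ⟨m, hm⟩ := hq
  set hh : ZMod q := ((m + 1 : ℕ) : ZMod q) with hhh
  have h2 : 2 * hh = 1 := by
    have : ((2 * (m + 1) : ℕ) : ZMod q) = ((q + 1 : ℕ) : ZMod q) := by rw [hm]; ring_nf
    have h3 : ((2 * (m + 1) : ℕ) : ZMod q) = 2 * hh := by rw [hhh]; push_cast; ring
    rw [← h3, this]
    push_cast
    rw [ZMod.natCast_self, zero_add]
  set D : Matrix (ZMod q) (ZMod q) ℂ := Matrix.diagonal (fun a => ψ (hh * a ^ 2)) with hD
  set D' : Matrix (ZMod q) (ZMod q) ℂ := Matrix.diagonal (fun a => (ψ (hh * a ^ 2))⁻¹) with hD'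
  set Cm : Matrix (ZMod q) (ZMod q) ℂ := Matrix.of (fun a b => c0 * ψ (-(hh * (a - b) ^ 2)))
    with hCm
  have hDD' : D * D' = 1 := by
    rw [hD, hD', Matrix.diagonal_mul_diagonal, ← Matrix.diagonal_one]
    congr 1
    funext a
    exact mul_inv_cancel₀ (char_ne_zero ψ _)
  have hD'D : D' * D = 1 := by
    rw [hD, hD', Matrix.diagonal_mul_diagonal, ← Matrix.diagonal_one]
    congr 1
    funext a
    exact inv_mul_cancel₀ (char_ne_zero ψ _)
  have hG : c0 • GM ψ = D * (Cm * D) := by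
    ext a b
    rw [hD, Matrix.diagonal_mul, Matrix.mul_diagonal]
    simp only [GM, Matrix.smul_apply, Matrix.of_apply, hCm, smul_eq_mul]
    have h3 : a * b = hh * a ^ 2 + -(hh * (a - b) ^ 2) + hh * b ^ 2 := by
      have : hh * a ^ 2 + -(hh * (a - b) ^ 2) + hh * b ^ 2 = (2 * hh) * (a * b) := by ring
      rw [this, h2, one_mul]
    rw [h3, AddChar.map_add_eq_mul, AddChar.map_add_eq_mul]
    ring
  have hv : Function.Injective (fun a : ZMod q => ((a.val : ℕ) : ZMod (2 ^ k))) := by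
    intro a b hab
    have ha := ZMod.val_lt a
    have hb := ZMod.val_lt b
    have h3 : ((a.val : ℕ) : ZMod (2 ^ k)).val = ((b.val : ℕ) : ZMod (2 ^ k)).val := by
      simp only at hab
      rw [hab]
    rw [ZMod.val_natCast, ZMod.val_natCast, Nat.mod_eq_of_lt (by omega),
      Nat.mod_eq_of_lt (by omega)] at h3
    exact ZMod.val_injective q h3
  have hcirc : Lay (16 * k + 5) (Eop x y Cm) := by
    refine Lay_Ecirc hx hy hxy hι hxι hyι (fun a : ZMod q => ((a.val : ℕ) : ZMod (2 ^ k))) hv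
      (fun z => c0 * ψ (-(hh * ((z.valMinAbs : ℤ) : ZMod q) ^ 2))) Cm ?_
    intro a b
    have ha := ZMod.val_lt a
    have hb := ZMod.val_lt b
    have h3 : (((a.val : ℕ) : ZMod (2 ^ k)) - ((b.val : ℕ) : ZMod (2 ^ k))).valMinAbs =
        (a.val : ℤ) - (b.val : ℤ) := by
      rw [ZMod.valMinAbs_spec]
      refine ⟨by push_cast; ring, ?_⟩
      have hk' : (2 * q : ℤ) ≤ ((2 ^ k : ℕ) : ℤ) := by exact_mod_cast hk
      constructor
      · omega
      · omega
    simp only [h3, hCm, Matrix.of_apply]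
    congr 3
    push_cast
    rw [ZMod.natCast_zmod_val, ZMod.natCast_zmod_val]
  rw [hG, ← conj_left hx hxy (Cm * D) D D' hDD', ← conj_right hy hxy Cm D D' hD'D]
  have l1 : Lay 0 (ext x D) := Lay.mono (Mono_ext hx (Mono_diagonal _ (fun a => char_ne_zero ψ _)))
  have l2 : Lay 0 (ext x D') := Lay.mono (Mono_ext hx (Mono_diagonal _
    (fun a => inv_ne_zero (char_ne_zero ψ _))))
  have l3 : Lay 0 (ext y D) := Lay.mono (Mono_ext hy (Mono_diagonal _ (fun a => char_ne_zero ψ _)))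
  have l4 : Lay 0 (ext y D') := Lay.mono (Mono_ext hy (Mono_diagonal _
    (fun a => inv_ne_zero (char_ne_zero ψ _))))
  have := (l1.mul ((l4.mul hcirc).mul l3)).mul l2
  refine this.le (by omega)

/-- the inverse of the Fourier matrix -/
theorem GM_mul_inv {q : ℕ} [NeZero q] [Fintype (ZMod q)] (ψ : AddChar (ZMod q) ℂ)
    (hψ : ψ.IsPrimitive) : GM ψ * ((1 / (q : ℂ)) • GM ψ⁻¹) = 1 := by
  ext a b
  rw [Matrix.mul_smul, Matrix.smul_apply, Matrix.mul_apply, Matrix.one_apply]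
  have h1 : ∀ c : ZMod q, GM ψ a c * GM ψ⁻¹ c b = ψ (c * (a - b)) := by
    intro c
    simp only [GM, Matrix.of_apply, AddChar.inv_apply]
    rw [← AddChar.map_add_eq_mul]
    congr 1
    ring
  simp only [h1]
  rw [AddChar.sum_mulShift _ hψ]
  have hq0 : (q : ℂ) ≠ 0 := by exact_mod_cast NeZero.ne q
  by_cases h : a = b
  · subst h
    rw [sub_self, if_pos rfl, if_pos rfl, ZMod.card, smul_eq_mul]
    field_simp
  · rw [if_neg (sub_ne_zero.2 h), if_neg h]
    simp

/-- two copies of the Fourier matrix -/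
theorem Lay_pair {q k : ℕ} (hq : Odd q) (hk : 2 * q ≤ 2 ^ k) [Fintype (ZMod q)]
    {x y : ZMod q → W}
    (hx : Function.Injective x) (hy : Function.Injective y)
    (hxy : ∀ a b, x a ≠ y b) {ι : ZMod (2 ^ k) → W} (hι : Function.Injective ι)
    (hxι : ∀ a z, x a ≠ ι z) (hyι : ∀ b z, y b ≠ ι z) (ψ : AddChar (ZMod q) ℂ)
    (hψ : ψ.IsPrimitive) : Lay (48 * k + 18) (ext x (GM ψ) * ext y (GM ψ)) := by
  have : NeZero q := ⟨by rintro rfl; exact absurd hq (by decide)⟩
  have hyx : ∀ a b, y a ≠ x b := fun a b => (hxy b a).symm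
  set G' : Matrix (ZMod q) (ZMod q) ℂ := (1 / (q : ℂ)) • GM ψ⁻¹ with hG'
  have h1 : GM ψ * G' = 1 := GM_mul_inv ψ hψ
  have h2 : G' * GM ψ = 1 := mul_eq_one_comm.1 h1
  have hW := whitehead hx hy hxy (GM ψ) G' h1 h2
  have e1 : Lay (16 * k + 5) (Eop x y (GM ψ)) := by
    have := Lay_EGM hq hk hx hy hxy hι hxι hyι ψ 1
    rwa [one_smul] at this
  have e2 : Lay (16 * k + 5) (Eop y x (-G')) := by
    have := Lay_EGM hq hk hy hx hyx hι hyι hxι ψ⁻¹ (-(1 / (q : ℂ)))
    rwa [neg_smul] at this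
  have e3 : Lay 1 (Eop x y (-1 : Matrix (ZMod q) (ZMod q) ℂ)) := by
    have := Lay_E hx hy hxy (-1)
    rwa [neg_smul, one_smul] at this
  have e4 : Lay 1 (Eop y x (1 : Matrix (ZMod q) (ZMod q) ℂ)) := by
    have := Lay_E hy hx hyx 1
    rwa [one_smul] at this
  have hA : Lay (48 * k + 18) (ext x (GM ψ) * ext y G') := by
    rw [← hW]
    refine (((e1.mul e2).mul e1).mul ((e3.mul e4).mul e3)).le (le_of_eq ?_)
    ring
  -- the monomial correction
  set N : Matrix (ZMod q) (ZMod q) ℂ := Matrix.of (fun a b => if b = -a then (q : ℂ) else 0)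
    with hN
  have hq0 : (q : ℂ) ≠ 0 := by exact_mod_cast NeZero.ne q
  have hNm : Mono N := by
    refine ⟨Equiv.neg _, fun _ => (q : ℂ), fun _ => hq0, fun w => ?_, fun w v hv => ?_⟩
    · simp [hN]
    · have hv : v ≠ -w := hv
      simp [hN, hv]
  have hGN : GM ψ = G' * N := by
    ext a b
    rw [Matrix.mul_apply, Finset.sum_eq_single (-b)]
    · simp only [hG', hN, GM, Matrix.smul_apply, Matrix.of_apply, neg_neg, if_true, smul_eq_mul,
        AddChar.inv_apply, mul_neg]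
      field_simp
    · intro c _ hc
      have : ¬ b = -c := by
        intro h
        apply hc
        rw [h, neg_neg]
      simp [hN, this]
    · intro h; exact absurd (Finset.mem_univ _) h
  have hfin : ext x (GM ψ) * ext y (GM ψ) = ext x (GM ψ) * ext y G' * ext y N := by
    conv_lhs => rw [hGN]
    rw [ext_mul hy, ← Matrix.mul_assoc, ← hGN]
  rw [hfin]
  exact (hA.mul (Lay.mono (Mono_ext hy hNm))).le (by omega)

theorem ext_copy {Y : Type*} [Fintype Y] [DecidableEq Y] (s : Y) (G : Matrix X X ℂ) :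
    ext (fun a : X => (a, s)) G = Matrix.blockDiagonal (fun u => if u = s then G else 1) := by
  have hinj : Function.Injective (fun a : X => (a, s)) := fun a b h => (Prod.mk.inj h).1
  ext ⟨a, u⟩ ⟨b, w⟩
  rw [Matrix.blockDiagonal_apply]
  by_cases hu : u = s
  · subst hu
    by_cases hw : w = u
    · subst hw
      rw [if_pos rfl, if_pos rfl]
      exact ext_apply_in hinj G a b
    · rw [if_neg (fun h => hw h.symm)]
      exact ext_apply_in_out hinj G a (b, w) (fun y hy => hw (Prod.mk.inj hy).2.symm)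
  · rw [ext_apply_out G (a, u) (b, w) (fun y hy => hu (Prod.mk.inj hy).2.symm)]
    by_cases hw : u = w
    · subst hw
      simp [hu, Matrix.one_apply]
    · rw [if_neg (fun h => hw (Prod.mk.inj h).2), if_neg hw]

theorem exists_ancilla {q k : ℕ} [NeZero q] [Fintype (ZMod q)] (hk : 2 ^ k ≤ 6 * q)
    (s t : Fin 8) (hst : s ≠ t) :
    ∃ ι : ZMod (2 ^ k) → ZMod q × Fin 8, Function.Injective ι ∧
      (∀ a z, (a, s) ≠ ι z) ∧ (∀ a z, (a, t) ≠ ι z) := by
  have h1 : Nonempty (ZMod (2 ^ k) ↪ ZMod q × Fin 6) := by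
    apply Function.Embedding.nonempty_of_card_le
    rw [Fintype.card_prod, ZMod.card, ZMod.card, Fintype.card_fin]
    omega
  have h2 : Nonempty (Fin 6 ↪ {u : Fin 8 // u ≠ s ∧ u ≠ t}) := by
    apply Function.Embedding.nonempty_of_card_le
    revert s t
    decide
  obtain ⟨e1⟩ := h1
  obtain ⟨e2⟩ := h2
  refine ⟨fun z => ((e1 z).1, (e2 (e1 z).2).1), ?_, ?_, ?_⟩
  · intro z z' h
    have h3 := Prod.mk.inj h
    have h4 : (e1 z).2 = (e1 z').2 := e2.injective (Subtype.ext h3.2)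
    exact e1.injective (Prod.ext h3.1 h4)
  · intro a z h
    exact (e2 (e1 z).2).2.1 (Prod.mk.inj h).2.symm
  · intro a z h
    exact (e2 (e1 z).2).2.2 (Prod.mk.inj h).2.symm

theorem Lay_pair8 {q k : ℕ} (hq : Odd q) (hk : 2 * q ≤ 2 ^ k) (hk' : 2 ^ k ≤ 6 * q)
    [Fintype (ZMod q)] (s t : Fin 8) (hst : s ≠ t) (ψ : AddChar (ZMod q) ℂ)
    (hψ : ψ.IsPrimitive) : Lay (48 * k + 18)
      (Matrix.blockDiagonal (fun u : Fin 8 => (if u = s then GM ψ else 1) *
        (if u = t then GM ψ else 1))) := by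
  have : NeZero q := ⟨by rintro rfl; exact absurd hq (by decide)⟩
  obtain ⟨ι, hι, h1, h2⟩ := exists_ancilla hk' s t hst
  have := Lay_pair (x := fun a : ZMod q => (a, s)) (y := fun a : ZMod q => (a, t)) hq hk
    (fun a b h => (Prod.mk.inj h).1) (fun a b h => (Prod.mk.inj h).1)
    (fun a b h => hst (Prod.mk.inj h).2) hι h1 h2 ψ hψ
  rwa [ext_copy, ext_copy, ← Matrix.blockDiagonal_mul] at this

end LP

open LP in
theorem Lay_GM8 : ∃ C : ℕ, ∀ q : ℕ, Odd q → 3 ≤ q → ∀ ψ : AddChar (ZMod q) ℂ, ψ.IsPrimitive →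
    ∀ [Fintype (ZMod q)], Lay (C * Nat.log 2 q)
      (Matrix.kroneckerMap (· * ·) (GM ψ) (1 : Matrix (Fin 8) (Fin 8) ℂ)) := by
  refine ⟨648, fun q hq hq3 ψ hψ => ?_⟩
  intro _
  set L := Nat.log 2 q with hL
  have hL1 : 1 ≤ L := Nat.log_pos (by norm_num) (by omega)
  have h1 : 2 ^ L ≤ q := Nat.pow_log_le_self 2 (by omega)
  have h2 : q < 2 ^ (L + 1) := Nat.lt_pow_succ_log_self (by norm_num) q
  have hk : 2 * q ≤ 2 ^ (L + 2) := by rw [pow_succ]; omega
  have hk' : 2 ^ (L + 2) ≤ 6 * q := by rw [pow_add]; omega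
  have p01 := Lay_pair8 hq hk hk' 0 1 (by decide) ψ hψ
  have p23 := Lay_pair8 hq hk hk' 2 3 (by decide) ψ hψ
  have p45 := Lay_pair8 hq hk hk' 4 5 (by decide) ψ hψ
  have p67 := Lay_pair8 hq hk hk' 6 7 (by decide) ψ hψ
  have hprod := ((p01.mul p23).mul p45).mul p67
  rw [← Matrix.blockDiagonal_mul, ← Matrix.blockDiagonal_mul, ← Matrix.blockDiagonal_mul] at hprod
  have e : Matrix.kroneckerMap (· * ·) (GM ψ) (1 : Matrix (Fin 8) (Fin 8) ℂ) =
      Matrix.blockDiagonal (fun u : Fin 8 =>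
        (if u = 0 then GM ψ else 1) * (if u = 1 then GM ψ else 1) *
        ((if u = 2 then GM ψ else 1) * (if u = 3 then GM ψ else 1)) *
        ((if u = 4 then GM ψ else 1) * (if u = 5 then GM ψ else 1)) *
        ((if u = 6 then GM ψ else 1) * (if u = 7 then GM ψ else 1))) := by
    ext ⟨a, u⟩ ⟨b, w⟩
    rw [Matrix.kroneckerMap_apply, Matrix.blockDiagonal_apply, Matrix.one_apply]
    by_cases h : u = w
    · subst h
      rw [if_pos rfl, if_pos rfl, mul_one]
      fin_cases u <;> simp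
    · simp [h]
  rw [e]
  refine hprod.le ?_
  nlinarith

end DFTC
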