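import Crest.Agent.DFT.CLBasic

/-!
S0501 part F1/F2 (helper14): API of monomial matrices, matching layers and `Lay`.
-/

set_option autoImplicit false

open Matrix Finset

namespace DFTC

/-! ### Monomial matrices -/

theorem Mono.one {W : Type*} [DecidableEq W] : Mono (1 : Matrix W W ℂ) :=
  ⟨Equiv.refl W, fun _ => 1, fun _ => one_ne_zero, fun w => Matrix.one_apply_eq w,
    fun w v h => Matrix.one_apply_ne (Ne.symm h)⟩

theorem Mono.diagonal {W : Type*} [DecidableEq W] {d : W → ℂ} (hd : ∀ w, d w ≠ 0) :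
    Mono (Matrix.diagonal d) :=
  ⟨Equiv.refl W, d, hd, fun w => by simp, fun w v h => Matrix.diagonal_apply_ne _ (Ne.symm h)⟩

theorem Mono.smul_one {W : Type*} [DecidableEq W] {c : ℂ} (hc : c ≠ 0) :
    Mono (c • (1 : Matrix W W ℂ)) :=
  ⟨Equiv.refl W, fun _ => c, fun _ => hc, fun w => by
      rw [Matrix.smul_apply, Equiv.refl_apply, Matrix.one_apply_eq, smul_eq_mul, mul_one],
    fun w v h => by
      have h' : w ≠ v := fun e => h e.symm
      rw [Matrix.smul_apply, Matrix.one_apply_ne h', smul_zero]⟩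

theorem Mono.smul {W : Type*} {M : Matrix W W ℂ} (hM : Mono M) {c : ℂ} (hc : c ≠ 0) :
    Mono (c • M) := by
  obtain ⟨σ, d, h1, h2, h3⟩ := hM
  exact ⟨σ, fun w => c * d w, fun w => mul_ne_zero hc (h1 w), fun w => by simp [h2 w],
    fun w v h => by simp [h3 w v h]⟩

/-- the monomial matrix with the entry `d w` at `(w, σ w)` -/
theorem Mono.of_entries {W : Type*} [DecidableEq W] (σ : Equiv.Perm W) {d : W → ℂ}
    (hd : ∀ w, d w ≠ 0) :
    Mono (Matrix.of fun w v => if v = σ w then d w else 0 : Matrix W W ℂ) :=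
  ⟨σ, d, hd, fun w => by simp, fun w v h => by simp [h]⟩

theorem Mono.perm {W : Type*} [DecidableEq W] (σ : Equiv.Perm W) :
    Mono (Matrix.of fun w v => if v = σ w then (1 : ℂ) else 0 : Matrix W W ℂ) :=
  Mono.of_entries σ fun _ => one_ne_zero

theorem Mono.toMatrix {W : Type*} [DecidableEq W] (σ : Equiv.Perm W) :
    Mono ((σ.toPEquiv.toMatrix : Matrix W W ℂ)) :=
  ⟨σ, fun _ => 1, fun _ => one_ne_zero, fun w => by simp [PEquiv.toMatrix_apply],
    fun w v h => by
      simp only [PEquiv.toMatrix_apply, Equiv.toPEquiv_apply, Option.mem_def, Option.some.injEq,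
        ite_eq_right_iff, one_ne_zero, imp_false]
      exact fun h' => h h'.symm⟩

theorem Mono.mul {W : Type*} [Fintype W] {M N : Matrix W W ℂ} (hM : Mono M) (hN : Mono N) :
    Mono (M * N) := by
  classical
  obtain ⟨σ, d, hd, h1, h2⟩ := hM
  obtain ⟨τ, e, he, k1, k2⟩ := hN
  have key : ∀ w v, (M * N) w v = d w * N (σ w) v := by
    intro w v
    rw [Matrix.mul_apply, Finset.sum_eq_single (σ w), h1]
    · intro u _ hu
      rw [h2 w u hu, zero_mul]
    · intro h; exact absurd (Finset.mem_univ _) h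
  refine ⟨σ.trans τ, fun w => d w * e (σ w), fun w => mul_ne_zero (hd w) (he _), ?_, ?_⟩
  · intro w
    rw [key, Equiv.trans_apply, k1]
  · intro w v hv
    rw [key, k2 _ _ hv, mul_zero]

theorem Mono.transpose {W : Type*} {M : Matrix W W ℂ} (hM : Mono M) : Mono Mᵀ := by
  obtain ⟨σ, d, hd, h1, h2⟩ := hM
  refine ⟨σ.symm, fun w => d (σ.symm w), fun w => hd _, ?_, ?_⟩
  · intro w
    have := h1 (σ.symm w)
    rw [Equiv.apply_symm_apply] at this
    exact this
  · intro w v hv
    refine h2 v w ?_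
    intro h
    exact hv (by rw [h, Equiv.symm_apply_apply])

/-- monomial matrices have monomial two-sided inverses -/
theorem Mono.exists_inv {W : Type*} [Fintype W] [DecidableEq W] {M : Matrix W W ℂ}
    (hM : Mono M) : ∃ M' : Matrix W W ℂ, Mono M' ∧ M * M' = 1 ∧ M' * M = 1 := by
  obtain ⟨σ, d, hd, h1, h2⟩ := hM
  have hM' : Mono (Matrix.of fun w v => if v = σ.symm w then (d (σ.symm w))⁻¹ else 0 :
      Matrix W W ℂ) :=
    Mono.of_entries σ.symm fun w => inv_ne_zero (hd _)
  have hmul : M * (Matrix.of fun w v => if v = σ.symm w then (d (σ.symm w))⁻¹ else 0 :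
      Matrix W W ℂ) = 1 := by
    ext w v
    rw [Matrix.mul_apply, Finset.sum_eq_single (σ w)]
    · rw [h1, Matrix.of_apply, Equiv.symm_apply_apply]
      by_cases h : v = w
      · subst h
        simp [hd v]
      · simp [h, Matrix.one_apply_ne (Ne.symm h)]
    · intro u _ hu
      rw [h2 w u hu, zero_mul]
    · intro h; exact absurd (Finset.mem_univ _) h
  exact ⟨_, hM', hmul, mul_eq_one_comm.mp hmul⟩

theorem Mono.inv {W : Type*} [Fintype W] [DecidableEq W] {M : Matrix W W ℂ}
    (hM : Mono M) : Mono M⁻¹ := by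
  obtain ⟨M', h1, h2, _⟩ := hM.exists_inv
  rwa [Matrix.inv_eq_right_inv h2]

theorem Mono.isUnit_det {W : Type*} [Fintype W] [DecidableEq W] {M : Matrix W W ℂ}
    (hM : Mono M) : IsUnit M.det := by
  obtain ⟨M', _, h2, _⟩ := hM.exists_inv
  exact Matrix.isUnit_det_of_right_inverse h2

theorem Mono.reindex {W W' : Type*} (e : W ≃ W') {M : Matrix W W ℂ} {M' : Matrix W' W' ℂ}
    (h : ∀ a b, M a b = M' (e a) (e b)) (hM : Mono M') : Mono M := by
  obtain ⟨σ, d, hd, h1, h2⟩ := hM
  refine ⟨(e.trans σ).trans e.symm, fun w => d (e w), fun w => hd _, ?_, ?_⟩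
  · intro w
    rw [h]
    simp only [Equiv.trans_apply, Equiv.apply_symm_apply]
    exact h1 _
  · intro w v hv
    rw [h]
    refine h2 _ _ ?_
    intro h'
    apply hv
    simp only [Equiv.trans_apply]
    rw [← h', Equiv.symm_apply_apply]

theorem Mono.submatrix {W W' : Type*} (e : W ≃ W') {M' : Matrix W' W' ℂ} (hM : Mono M') :
    Mono (M'.submatrix e e) := Mono.reindex e (fun _ _ => rfl) hM

theorem Mono.fromBlocks {X Y : Type*} {M : Matrix X X ℂ} {N : Matrix Y Y ℂ} (hM : Mono M)
    (hN : Mono N) : Mono (Matrix.fromBlocks M 0 0 N) := by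
  obtain ⟨σ, d, hd, h1, h2⟩ := hM
  obtain ⟨τ, e, he, k1, k2⟩ := hN
  refine ⟨Equiv.sumCongr σ τ, Sum.elim d e, ?_, ?_, ?_⟩
  · rintro (w | w)
    · exact hd w
    · exact he w
  · rintro (w | w)
    · simpa using h1 w
    · simpa using k1 w
  · rintro (w | w) (v | v) hv
    · simp only [Equiv.sumCongr_apply, Sum.map_inl, ne_eq, Sum.inl.injEq] at hv
      simpa using h2 w v hv
    · simp
    · simp
    · simp only [Equiv.sumCongr_apply, Sum.map_inr, ne_eq, Sum.inr.injEq] at hv
      simpa using k2 w v hv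

/-- block anti-diagonal monomial matrices -/
theorem Mono.fromBlocks_anti {X : Type*} {M N : Matrix X X ℂ} (hM : Mono M)
    (hN : Mono N) : Mono (Matrix.fromBlocks 0 M N 0) := by
  obtain ⟨σ, d, hd, h1, h2⟩ := hM
  obtain ⟨τ, e, he, k1, k2⟩ := hN
  refine ⟨(Equiv.sumCongr σ τ).trans (Equiv.sumComm X X), Sum.elim d e, ?_, ?_, ?_⟩
  · rintro (w | w)
    · exact hd w
    · exact he w
  · rintro (w | w)
    · simpa using h1 w
    · simpa using k1 w
  · rintro (w | w) (v | v) hv
    · simp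
    · simp only [Equiv.trans_apply, Equiv.sumCongr_apply, Sum.map_inl, Equiv.sumComm_apply,
        Sum.swap_inl, ne_eq, Sum.inr.injEq] at hv
      simpa using h2 w v hv
    · simp only [Equiv.trans_apply, Equiv.sumCongr_apply, Sum.map_inr, Equiv.sumComm_apply,
        Sum.swap_inr, ne_eq, Sum.inl.injEq] at hv
      simpa using k2 w v hv
    · simp

theorem Mono.kron {X Y : Type*} {M : Matrix X X ℂ} {N : Matrix Y Y ℂ} (hM : Mono M)
    (hN : Mono N) : Mono (Matrix.kroneckerMap (· * ·) M N) := by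
  obtain ⟨σ, d, hd, h1, h2⟩ := hM
  obtain ⟨τ, e, he, k1, k2⟩ := hN
  refine ⟨Equiv.prodCongr σ τ, fun w => d w.1 * e w.2, fun w => mul_ne_zero (hd _) (he _), ?_, ?_⟩
  · rintro ⟨x, y⟩
    simp [Matrix.kroneckerMap_apply, h1, k1]
  · rintro ⟨x, y⟩ ⟨x', y'⟩ hv
    simp only [Equiv.prodCongr_apply, Prod.map_apply, ne_eq, Prod.mk.injEq] at hv
    simp only [Matrix.kroneckerMap_apply]
    by_cases hx : x' = σ x
    · have hy : y' ≠ τ y := fun hy => hv ⟨hx, hy⟩
      rw [k2 _ _ hy, mul_zero]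
    · rw [h2 _ _ hx, zero_mul]

theorem Mono.kron_one {X Y : Type*} [DecidableEq Y] {M : Matrix X X ℂ} (hM : Mono M) :
    Mono (Matrix.kroneckerMap (· * ·) M (1 : Matrix Y Y ℂ)) := hM.kron Mono.one

theorem Mono.one_kron {X Y : Type*} [DecidableEq X] {M : Matrix Y Y ℂ} (hM : Mono M) :
    Mono (Matrix.kroneckerMap (· * ·) (1 : Matrix X X ℂ) M) := Mono.one.kron hM

/-! ### Layers -/

theorem IsLayer.one {W : Type*} [DecidableEq W] : IsLayer (1 : Matrix W W ℂ) :=
  ⟨id, fun _ => 0, fun _ _ => rfl, fun _ _ h => absurd rfl h, fun w => by simp,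
    fun _ h => absurd rfl h, fun w v h _ => Matrix.one_apply_ne (Ne.symm h)⟩

/-- the entries of a layer -/
theorem IsLayer.entries {W : Type*} {M : Matrix W W ℂ} [DecidableEq W] (hM : IsLayer M) :
    ∃ (s : W → W) (c : W → ℂ), (∀ w, c w ≠ 0 → c (s w) = 0) ∧
      (∀ w w', c w ≠ 0 → c w' ≠ 0 → s w = s w' → w = w') ∧
      (∀ w, c w ≠ 0 → s w ≠ w) ∧
      (∀ w v, M w v = (if v = w then 1 else 0) + (if v = s w then c w else 0)) := by
  obtain ⟨s, c, h1, h2, h3, h4, h5⟩ := hM
  have hs : ∀ w, c w ≠ 0 → s w ≠ w := fun w hw h => hw (by have := h1 w hw; rwa [h] at this)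
  refine ⟨s, c, h1, h2, hs, fun w v => ?_⟩
  by_cases hc : c w = 0
  · by_cases hv : v = w
    · subst hv; simp [h3, hc]
    · rw [h5 w v hv (fun h => absurd hc h)]; simp [hv, hc]
  · by_cases hv : v = w
    · subst hv; rw [h3]; simp [Ne.symm (hs v hc)]
    · by_cases hv' : v = s w
      · subst hv'; rw [h4 w hc]; simp [hv]
      · rw [h5 w v hv (fun _ => hv')]; simp [hv, hv']

/-- constructor from entries -/
theorem IsLayer.of_entries {W : Type*} {M : Matrix W W ℂ} [DecidableEq W] (s : W → W)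
    (c : W → ℂ) (h1 : ∀ w, c w ≠ 0 → c (s w) = 0)
    (h2 : ∀ w w', c w ≠ 0 → c w' ≠ 0 → s w = s w' → w = w')
    (h : ∀ w v, M w v = (if v = w then 1 else 0) + (if v = s w then c w else 0)) :
    IsLayer M := by
  have hs : ∀ w, c w ≠ 0 → s w ≠ w := fun w hw h => hw (by have := h1 w hw; rwa [h] at this)
  refine ⟨s, c, h1, h2, fun w => ?_, fun w hw => ?_, fun w v hv hw => ?_⟩
  · rw [h]
    by_cases hc : c w = 0
    · simp [hc]
    · simp [Ne.symm (hs w hc)]
  · rw [h]; simp [hs w hw]
  · rw [h]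
    by_cases hc : c w = 0
    · simp [hv, hc]
    · simp [hv, hw hc]

/-- layers have two-sided inverses which are layers -/
theorem IsLayer.exists_inv {W : Type*} [Fintype W] [DecidableEq W] {M : Matrix W W ℂ}
    (hM : IsLayer M) : ∃ M' : Matrix W W ℂ, IsLayer M' ∧ M * M' = 1 ∧ M' * M = 1 := by
  obtain ⟨s, c, h1, h2, h3, h4⟩ := hM.entries
  set M' : Matrix W W ℂ := Matrix.of fun w v =>
    (if v = w then 1 else 0) + (if v = s w then - c w else 0) with hM'
  have hL : IsLayer M' :=
    IsLayer.of_entries s (fun w => - c w) (fun w hw => by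
        rw [neg_ne_zero] at hw; simp [h1 w hw])
      (fun w w' hw hw' => h2 w w' (by simpa using hw) (by simpa using hw'))
      (fun w v => rfl)
  have hmul : M * M' = 1 := by
    ext w v
    rw [Matrix.mul_apply]
    have e1 : ∀ u, M w u * M' u v = (if u = w then M' w v else 0) +
        (if u = s w then c w * M' (s w) v else 0) := by
      intro u
      rw [h4, add_mul]
      congr 1
      · by_cases hu : u = w
        · subst hu; simp
        · simp [hu]
      · by_cases hu : u = s w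
        · subst hu; simp
        · simp [hu]
    simp_rw [e1]
    rw [Finset.sum_add_distrib, Finset.sum_ite_eq' Finset.univ, Finset.sum_ite_eq' Finset.univ]
    simp only [Finset.mem_univ, if_true]
    simp only [hM', Matrix.of_apply]
    by_cases hc : c w = 0
    · simp [hc, Matrix.one_apply, eq_comm]
    · rw [h1 w hc]
      by_cases hv : v = w
      · subst hv
        simp [Ne.symm (h3 v hc)]
      · by_cases hv' : v = s w
        · subst hv'
          simp [hv, Matrix.one_apply_ne (Ne.symm hv)]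
        · simp [hv, hv', Matrix.one_apply_ne (Ne.symm hv)]
  exact ⟨_, hL, hmul, mul_eq_one_comm.mp hmul⟩

theorem IsLayer.inv {W : Type*} [Fintype W] [DecidableEq W] {M : Matrix W W ℂ}
    (hM : IsLayer M) : IsLayer M⁻¹ := by
  obtain ⟨M', h1, h2, _⟩ := hM.exists_inv
  rwa [Matrix.inv_eq_right_inv h2]

theorem IsLayer.isUnit_det {W : Type*} [Fintype W] [DecidableEq W] {M : Matrix W W ℂ}
    (hM : IsLayer M) : IsUnit M.det := by
  obtain ⟨M', _, h2, _⟩ := hM.exists_inv
  exact Matrix.isUnit_det_of_right_inverse h2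

theorem IsLayer.transpose {W : Type*} {M : Matrix W W ℂ} (hM : IsLayer M) :
    IsLayer Mᵀ := by
  classical
  obtain ⟨s, c, h1, h2, h3, h4⟩ := hM.entries
  -- sources become targets
  let s' : W → W := fun v => if h : ∃ w, c w ≠ 0 ∧ s w = v then h.choose else v
  let c' : W → ℂ := fun v => if h : ∃ w, c w ≠ 0 ∧ s w = v then c h.choose else 0
  have hc' : ∀ v, c' v ≠ 0 → ∃ w, c w ≠ 0 ∧ s w = v ∧ s' v = w ∧ c' v = c w := by
    intro v hv
    by_cases h : ∃ w, c w ≠ 0 ∧ s w = v
    · exact ⟨h.choose, h.choose_spec.1, h.choose_spec.2, by simp [s', h], by simp [c', h]⟩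
    · exact absurd (by simp [c', h]) hv
  have hcs : ∀ w, c w ≠ 0 → s' (s w) = w ∧ c' (s w) = c w := by
    intro w hw
    have h : ∃ w', c w' ≠ 0 ∧ s w' = s w := ⟨w, hw, rfl⟩
    have e : h.choose = w := h2 _ _ h.choose_spec.1 hw h.choose_spec.2
    constructor
    · simp only [s', h, dif_pos]; exact e
    · simp only [c', h, dif_pos]; rw [e]
  refine IsLayer.of_entries s' c' ?_ ?_ ?_
  · intro v hv
    obtain ⟨w, hw, hs, hs', hcw⟩ := hc' v hv
    rw [hs']
    by_contra hne
    obtain ⟨w2, hw2, hs2, _, _⟩ := hc' w hne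
    have := h1 w2 hw2
    rw [hs2] at this
    exact hw this
  · intro v v' hv hv' hss
    obtain ⟨w, hw, hs, hs', hcw⟩ := hc' v hv
    obtain ⟨w2, hw2, hs2, hs2', hcw2⟩ := hc' v' hv'
    rw [hs', hs2'] at hss
    rw [← hs, ← hs2, hss]
  · intro v w
    rw [Matrix.transpose_apply, h4]
    congr 1
    · simp [eq_comm]
    · by_cases hw : c w = 0
      · rw [hw]
        by_cases hv : c' v = 0
        · simp [hv]
        · obtain ⟨w2, hw2, hs, hs', hcw⟩ := hc' v hv
          have : w ≠ s' v := by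
            rw [hs']; rintro rfl; exact hw2 hw
          simp [this]
      · by_cases hv : v = s w
        · subst hv
          rw [(hcs w hw).1, (hcs w hw).2]
          simp
        · have : ¬ (w = s' v ∧ c' v ≠ 0) := by
            rintro ⟨h5, h6⟩
            obtain ⟨w2, hw2, hs, hs', hcw⟩ := hc' v h6
            rw [hs'] at h5
            subst h5
            exact hv hs.symm
          by_cases h5 : w = s' v
          · have h6 : c' v = 0 := by by_contra h6; exact this ⟨h5, h6⟩
            simp [hv, h6]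
          · simp [hv, h5]

theorem IsLayer.reindex {W W' : Type*} (e : W ≃ W') {M : Matrix W W ℂ} {M' : Matrix W' W' ℂ}
    (h : ∀ a b, M a b = M' (e a) (e b)) (hM : IsLayer M') : IsLayer M := by
  classical
  obtain ⟨s, c, h1, h2, h3, h4⟩ := hM.entries
  refine IsLayer.of_entries (fun w => e.symm (s (e w))) (fun w => c (e w)) ?_ ?_ ?_
  · intro w hw
    simpa using h1 _ hw
  · intro w w' hw hw' hss
    exact e.injective (h2 _ _ hw hw' (e.symm.injective hss))
  · intro w v
    rw [h, h4]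
    congr 1
    · simp
    · simp [Equiv.eq_symm_apply]

theorem IsLayer.submatrix {W W' : Type*} (e : W ≃ W') {M' : Matrix W' W' ℂ} (hM : IsLayer M') :
    IsLayer (M'.submatrix e e) := IsLayer.reindex e (fun _ _ => rfl) hM

theorem IsLayer.fromBlocks {X Y : Type*} {M : Matrix X X ℂ} {N : Matrix Y Y ℂ}
    (hM : IsLayer M) (hN : IsLayer N) : IsLayer (Matrix.fromBlocks M 0 0 N) := by
  classical
  obtain ⟨s, c, h1, h2, h3, h4⟩ := hM.entries
  obtain ⟨s', c', k1, k2, k3, k4⟩ := hN.entries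
  refine IsLayer.of_entries (Sum.map s s') (Sum.elim c c') ?_ ?_ ?_
  · rintro (w | w) hw
    · exact h1 w hw
    · exact k1 w hw
  · rintro (w | w) (v | v) hw hv hs
    · simp only [Sum.map_inl, Sum.inl.injEq] at hs
      rw [h2 w v hw hv hs]
    · simp at hs
    · simp at hs
    · simp only [Sum.map_inr, Sum.inr.injEq] at hs
      rw [k2 w v hw hv hs]
  · rintro (w | w) (v | v)
    · simp [h4]
    · simp
    · simp
    · simp [k4]

/-- the basic layer `[[1, C], [0, 1]]` for a "partial monomial" matrix `C` (partial injection) -/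
theorem IsLayer.upper {X Y : Type*} [DecidableEq X] [DecidableEq Y] (s : X → Y) (c : X → ℂ)
    (h : ∀ x x', c x ≠ 0 → c x' ≠ 0 → s x = s x' → x = x') :
    IsLayer (Matrix.fromBlocks (1 : Matrix X X ℂ)
      (Matrix.of fun x y => if y = s x then c x else 0) 0 (1 : Matrix Y Y ℂ)) := by
  refine IsLayer.of_entries (Sum.elim (fun x => Sum.inr (s x)) Sum.inr)
    (Sum.elim c fun _ => 0) ?_ ?_ ?_
  · rintro (w | w) hw
    · rfl
    · rfl
  · rintro (w | w) (v | v) hw hv hs
    · simp only [Sum.elim_inl, Sum.inr.injEq] at hs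
      rw [h w v hw hv hs]
    · exact absurd rfl hv
    · exact absurd rfl hw
    · exact absurd rfl hw
  · rintro (w | w) (v | v)
    · simp [Matrix.one_apply, eq_comm]
    · simp
    · simp
    · simp [Matrix.one_apply, eq_comm]

/-- the basic layer `[[1, 0], [C, 1]]` -/
theorem IsLayer.lower {X Y : Type*} [DecidableEq X] [DecidableEq Y] (s : Y → X) (c : Y → ℂ)
    (h : ∀ x x', c x ≠ 0 → c x' ≠ 0 → s x = s x' → x = x') :
    IsLayer (Matrix.fromBlocks (1 : Matrix X X ℂ) 0
      (Matrix.of fun y x => if x = s y then c y else 0) (1 : Matrix Y Y ℂ)) := by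
  refine IsLayer.of_entries (Sum.elim Sum.inl (fun x => Sum.inl (s x)))
    (Sum.elim (fun _ => 0) c) ?_ ?_ ?_
  · rintro (w | w) hw
    · rfl
    · rfl
  · rintro (w | w) (v | v) hw hv hs
    · exact absurd rfl hw
    · exact absurd rfl hw
    · exact absurd rfl hv
    · simp only [Sum.elim_inr, Sum.inl.injEq] at hs
      rw [h w v hw hv hs]
  · rintro (w | w) (v | v)
    · simp [Matrix.one_apply, eq_comm]
    · simp
    · simp
    · simp [Matrix.one_apply, eq_comm]

theorem IsLayer.upper_mono {X : Type*} [DecidableEq X] {C : Matrix X X ℂ} (hC : Mono C) :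
    IsLayer (Matrix.fromBlocks (1 : Matrix X X ℂ) C 0 (1 : Matrix X X ℂ)) := by
  obtain ⟨σ, d, hd, h1, h2⟩ := hC
  have e : C = Matrix.of fun x y => if y = σ x then d x else 0 := by
    ext x y
    by_cases h : y = σ x
    · subst h; simp [h1]
    · simp [h, h2 x y h]
  rw [e]
  exact IsLayer.upper σ d fun x x' _ _ hs => σ.injective hs

theorem IsLayer.lower_mono {X : Type*} [DecidableEq X] {C : Matrix X X ℂ} (hC : Mono C) :
    IsLayer (Matrix.fromBlocks (1 : Matrix X X ℂ) 0 C (1 : Matrix X X ℂ)) := by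
  obtain ⟨σ, d, hd, h1, h2⟩ := hC
  have e : C = Matrix.of fun x y => if y = σ x then d x else 0 := by
    ext x y
    by_cases h : y = σ x
    · subst h; simp [h1]
    · simp [h, h2 x y h]
  rw [e]
  exact IsLayer.lower σ d fun x x' _ _ hs => σ.injective hs

theorem IsLayer.kron_one {X Y : Type*} [DecidableEq Y] {M : Matrix X X ℂ} (hM : IsLayer M) :
    IsLayer (Matrix.kroneckerMap (· * ·) M (1 : Matrix Y Y ℂ)) := by
  classical
  obtain ⟨s, c, h1, h2, h3, h4⟩ := hM.entries
  refine IsLayer.of_entries (fun w => (s w.1, w.2)) (fun w => c w.1) ?_ ?_ ?_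
  · rintro ⟨x, y⟩ hw
    exact h1 x hw
  · rintro ⟨x, y⟩ ⟨x', y'⟩ hw hw' hs
    simp only [Prod.mk.injEq] at hs
    rw [h2 x x' hw hw' hs.1, hs.2]
  · rintro ⟨x, y⟩ ⟨x', y'⟩
    simp only [Matrix.kroneckerMap_apply, h4, Prod.mk.injEq]
    by_cases hy : y' = y
    · subst hy; simp
    · simp [hy, Matrix.one_apply_ne (Ne.symm hy)]

theorem IsLayer.one_kron {X Y : Type*} [DecidableEq X] {M : Matrix Y Y ℂ} (hM : IsLayer M) :
    IsLayer (Matrix.kroneckerMap (· * ·) (1 : Matrix X X ℂ) M) := by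
  classical
  obtain ⟨s, c, h1, h2, h3, h4⟩ := hM.entries
  refine IsLayer.of_entries (fun w => (w.1, s w.2)) (fun w => c w.2) ?_ ?_ ?_
  · rintro ⟨x, y⟩ hw
    exact h1 y hw
  · rintro ⟨x, y⟩ ⟨x', y'⟩ hw hw' hs
    simp only [Prod.mk.injEq] at hs
    rw [h2 y y' hw hw' hs.2, hs.1]
  · rintro ⟨x, y⟩ ⟨x', y'⟩
    simp only [Matrix.kroneckerMap_apply, h4, Prod.mk.injEq]
    by_cases hx : x' = x
    · subst hx; simp
    · simp [hx, Matrix.one_apply_ne (Ne.symm hx)]

/-! ### Products of layers -/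

theorem Lay.of_mono {W : Type*} [Fintype W] {M : Matrix W W ℂ} (h : Mono M) : Lay 0 M :=
  Lay.mono h

theorem Lay.one {W : Type*} [Fintype W] [DecidableEq W] : Lay 0 (1 : Matrix W W ℂ) :=
  Lay.mono Mono.one

theorem Lay.of_layer {W : Type*} [Fintype W] {M : Matrix W W ℂ} (h : IsLayer M) : Lay 1 M := by
  classical
  have := Lay.step Mono.one h (Lay.one (W := W))
  simpa using this

theorem Lay.toMono {W : Type*} [Fintype W] {M : Matrix W W ℂ} (h : Lay 0 M) : Mono M := by
  cases h
  assumption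

theorem Lay.mono_mul {W : Type*} [Fintype W] {M N : Matrix W W ℂ} {b : ℕ} (hM : Mono M)
    (hN : Lay b N) : Lay b (M * N) := by
  cases hN with
  | mono h => exact Lay.mono (hM.mul h)
  | step hA hL h =>
    have := Lay.step (hM.mul hA) hL h
    simpa only [Matrix.mul_assoc] using this

theorem Lay.mul {W : Type*} [Fintype W] {M N : Matrix W W ℂ} {a b : ℕ} (hM : Lay a M)
    (hN : Lay b N) : Lay (a + b) (M * N) := by
  induction hM with
  | mono h => rw [Nat.zero_add]; exact Lay.mono_mul h hN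
  | @step ℓ A L M hA hL h ih =>
    have := Lay.step hA hL ih
    rw [Nat.add_right_comm]
    simpa only [Matrix.mul_assoc] using this

theorem Lay.mul_mono {W : Type*} [Fintype W] {M N : Matrix W W ℂ} {a : ℕ} (hM : Lay a M)
    (hN : Mono N) : Lay a (M * N) := by
  simpa using hM.mul (Lay.mono hN)

theorem Lay.succ {W : Type*} [Fintype W] {M : Matrix W W ℂ} {a : ℕ} (hM : Lay a M) :
    Lay (a + 1) M := by
  classical
  have := Lay.step Mono.one IsLayer.one hM
  simpa using this

theorem Lay.le {W : Type*} [Fintype W] {M : Matrix W W ℂ} {a b : ℕ} (hM : Lay a M)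
    (hab : a ≤ b) : Lay b M := by
  induction hab with
  | refl => exact hM
  | step _ ih => exact ih.succ

theorem Lay.smul {W : Type*} [Fintype W] {M : Matrix W W ℂ} {a : ℕ} (hM : Lay a M) {c : ℂ}
    (hc : c ≠ 0) : Lay a (c • M) := by
  classical
  have := Lay.mono_mul (Mono.smul_one (W := W) hc) hM
  simpa using this

theorem Lay.reindex {W W' : Type*} [Fintype W] [Fintype W'] (e : W ≃ W') {M : Matrix W W ℂ}
    {M' : Matrix W' W' ℂ} (h : ∀ a b, M a b = M' (e a) (e b)) {a : ℕ} (hM : Lay a M') :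
    Lay a M := by
  have e1 : M = M'.submatrix e e := by ext a b; exact h a b
  subst e1
  clear h
  induction hM with
  | mono h => exact Lay.mono (h.submatrix e)
  | @step ℓ A L M hA hL h ih =>
    have := Lay.step (hA.submatrix e) (hL.submatrix e) ih
    rwa [Matrix.submatrix_mul_equiv, Matrix.submatrix_mul_equiv] at this

theorem Lay.submatrix {W W' : Type*} [Fintype W] [Fintype W'] (e : W ≃ W')
    {M' : Matrix W' W' ℂ} {a : ℕ} (hM : Lay a M') : Lay a (M'.submatrix e e) :=
  Lay.reindex e (fun _ _ => rfl) hM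

theorem Lay.transpose {W : Type*} [Fintype W] {M : Matrix W W ℂ} {a : ℕ} (hM : Lay a M) :
    Lay a Mᵀ := by
  induction hM with
  | mono h => exact Lay.mono h.transpose
  | @step ℓ A L M hA hL h ih =>
    have h1 := (ih.mul (Lay.of_layer hL.transpose)).mul_mono hA.transpose
    rw [Matrix.transpose_mul, Matrix.transpose_mul, ← Matrix.mul_assoc]
    exact h1

theorem Lay.exists_inv {W : Type*} [Fintype W] [DecidableEq W] {M : Matrix W W ℂ} {a : ℕ}
    (hM : Lay a M) : ∃ M' : Matrix W W ℂ, Lay a M' ∧ M * M' = 1 ∧ M' * M = 1 := by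
  induction hM with
  | mono h =>
    obtain ⟨M', h1, h2, h3⟩ := h.exists_inv
    exact ⟨M', Lay.mono h1, h2, h3⟩
  | @step ℓ A L M hA hL h ih =>
    obtain ⟨M', i1, i2, i3⟩ := ih
    obtain ⟨A', a1, a2, a3⟩ := hA.exists_inv
    obtain ⟨L', l1, l2, l3⟩ := hL.exists_inv
    refine ⟨M' * L' * A', (i1.mul (Lay.of_layer l1)).mul_mono a1, ?_, ?_⟩
    · calc A * L * M * (M' * L' * A') = A * (L * (M * M') * L') * A' := by
            simp only [Matrix.mul_assoc]
        _ = 1 := by rw [i2, Matrix.mul_one, l2, Matrix.mul_one, a2]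
    · calc M' * L' * A' * (A * L * M) = M' * (L' * (A' * A) * L) * M := by
            simp only [Matrix.mul_assoc]
        _ = 1 := by rw [a3, Matrix.mul_one, l3, Matrix.mul_one, i3]

theorem Lay.inv {W : Type*} [Fintype W] [DecidableEq W] {M : Matrix W W ℂ} {a : ℕ}
    (hM : Lay a M) : Lay a M⁻¹ := by
  obtain ⟨M', h1, h2, _⟩ := hM.exists_inv
  rwa [Matrix.inv_eq_right_inv h2]

theorem Lay.isUnit_det {W : Type*} [Fintype W] [DecidableEq W] {M : Matrix W W ℂ} {a : ℕ}
    (hM : Lay a M) : IsUnit M.det := by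
  obtain ⟨M', _, h2, _⟩ := hM.exists_inv
  exact Matrix.isUnit_det_of_right_inverse h2

theorem fromBlocks_diag_mul {X Y : Type*} [Fintype X] [Fintype Y] (A B : Matrix X X ℂ)
    (A' B' : Matrix Y Y ℂ) :
    Matrix.fromBlocks (A * B) 0 0 (A' * B') =
      Matrix.fromBlocks A 0 0 A' * Matrix.fromBlocks B 0 0 B' := by
  rw [Matrix.fromBlocks_multiply]; simp

theorem Lay.fromBlocks {X Y : Type*} [Fintype X] [Fintype Y] {M : Matrix X X ℂ}
    {N : Matrix Y Y ℂ} {a : ℕ} (hM : Lay a M) (hN : Lay a N) :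
    Lay a (Matrix.fromBlocks M 0 0 N) := by
  induction hM generalizing N with
  | mono h => exact Lay.mono (h.fromBlocks hN.toMono)
  | @step ℓ A L M hA hL h ih =>
    cases hN with
    | @step _ A' L' N' hA' hL' h' =>
      rw [fromBlocks_diag_mul, fromBlocks_diag_mul]
      exact Lay.step (hA.fromBlocks hA') (hL.fromBlocks hL') (ih h')

theorem Lay.kron_one {X Y : Type*} [Fintype X] [Fintype Y] [DecidableEq Y] {M : Matrix X X ℂ}
    {a : ℕ} (hM : Lay a M) :
    Lay a (Matrix.kroneckerMap (· * ·) M (1 : Matrix Y Y ℂ)) := by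
  induction hM with
  | mono h => exact Lay.mono h.kron_one
  | @step ℓ A L M hA hL h ih =>
    have e : Matrix.kroneckerMap (· * ·) (A * L * M) (1 : Matrix Y Y ℂ) =
        Matrix.kroneckerMap (· * ·) A (1 : Matrix Y Y ℂ) *
          Matrix.kroneckerMap (· * ·) L (1 : Matrix Y Y ℂ) *
          Matrix.kroneckerMap (· * ·) M (1 : Matrix Y Y ℂ) := by
      rw [← Matrix.mul_kronecker_mul, ← Matrix.mul_kronecker_mul]
      simp
    rw [e]
    exact Lay.step hA.kron_one hL.kron_one ih

theorem Lay.one_kron {X Y : Type*} [Fintype X] [Fintype Y] [DecidableEq X] {M : Matrix Y Y ℂ}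
    {a : ℕ} (hM : Lay a M) :
    Lay a (Matrix.kroneckerMap (· * ·) (1 : Matrix X X ℂ) M) := by
  induction hM with
  | mono h => exact Lay.mono h.one_kron
  | @step ℓ A L M hA hL h ih =>
    have e : Matrix.kroneckerMap (· * ·) (1 : Matrix X X ℂ) (A * L * M) =
        Matrix.kroneckerMap (· * ·) (1 : Matrix X X ℂ) A *
          Matrix.kroneckerMap (· * ·) (1 : Matrix X X ℂ) L *
          Matrix.kroneckerMap (· * ·) (1 : Matrix X X ℂ) M := by
      rw [← Matrix.mul_kronecker_mul, ← Matrix.mul_kronecker_mul]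
      simp
    rw [e]
    exact Lay.step hA.one_kron hL.one_kron ih

/-- Block diagonal embedding: act by `M` on the part `X` of `W ≃ X ⊕ U`, trivially on `U` -/
theorem Lay.extend {X U : Type*} [Fintype X] [Fintype U] [DecidableEq U] {M : Matrix X X ℂ}
    {a : ℕ} (hM : Lay a M) : Lay a (Matrix.fromBlocks M 0 0 (1 : Matrix U U ℂ)) :=
  hM.fromBlocks (Lay.one.le (Nat.zero_le a))

theorem Lay.extend' {X U : Type*} [Fintype X] [Fintype U] [DecidableEq U] {M : Matrix X X ℂ}
    {a : ℕ} (hM : Lay a M) : Lay a (Matrix.fromBlocks (1 : Matrix U U ℂ) 0 0 M) :=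
  (Lay.one.le (Nat.zero_le a)).fromBlocks hM

theorem Lay.of_list_prod {W : Type*} [Fintype W] [DecidableEq W] (l : List (Matrix W W ℂ))
    (a : ℕ) (h : ∀ M ∈ l, Lay a M) : Lay (l.length * a) l.prod := by
  induction l with
  | nil => simpa using Lay.one
  | cons M l ih =>
    rw [List.prod_cons, List.length_cons, Nat.succ_mul, Nat.add_comm]
    exact (h M (by simp)).mul (ih fun N hN => h N (by simp [hN]))

theorem CL_of_layer {W : Type*} [Fintype W] {M : Matrix W W ℂ} (hM : IsLayer M) :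
    CL M (2 * Fintype.card W) := by
  classical
  obtain ⟨s, c, h1, h2, h3, h4⟩ := hM.entries
  have e : M = 1 + Matrix.of fun w v => if v = s w then c w else 0 := by
    ext w v
    rw [h4, Matrix.add_apply, Matrix.one_apply, Matrix.of_apply]
    simp [eq_comm]
  rw [e]
  have h5 : CL (Matrix.of fun w v => if v = s w then c w else 0 : Matrix W W ℂ)
      (Fintype.card W) :=
    CL.of_scaled_rows fun w => Or.inr ⟨s w, fun k hk => by simp [hk]⟩
  exact (CL.add CL_one h5).le (by omega)

theorem CL_of_Lay {W : Type*} [Fintype W] {M : Matrix W W ℂ} {a : ℕ} (hM : Lay a M) :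
    CL M ((3 * a + 1) * Fintype.card W) := by
  induction hM with
  | mono h => simpa using CL.of_mono h
  | @step ℓ A L M hA hL h ih =>
    refine (CL.mul (CL.mul (CL.of_mono hA) (CL_of_layer hL)) ih).le (le_of_eq ?_)
    ring

end DFTC
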