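import Crest.Agent.DFT.CLBasic
import Crest.Agent.DFT.LayBasic

/-! S0501 part G2: splitting `GM ψ ⊗ 1_Y` into groups of eight copies. -/

set_option autoImplicit false

open Matrix Finset

namespace DFTC

namespace Split

theorem mono_one {W : Type*} [DecidableEq W] : Mono (1 : Matrix W W ℂ) :=
  ⟨Equiv.refl W, fun _ => 1, fun _ => one_ne_zero, fun w => Matrix.one_apply_eq w,
    fun w v hv => Matrix.one_apply_ne (fun h => hv h.symm)⟩

/-- index bijection -/
theorem exists_equiv (Y : Type) [Fintype Y] : ∃ s r : ℕ, r < 8 ∧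
    Nonempty (Y ≃ (Fin s × Fin 8) ⊕ Fin r) := by
  classical
  refine ⟨Fintype.card Y / 8, Fintype.card Y % 8, Nat.mod_lt _ (by norm_num), ⟨?_⟩⟩
  have h : Fintype.card Y = Fintype.card Y / 8 * 8 + Fintype.card Y % 8 := by omega
  exact (Fintype.equivFinOfCardEq h).trans
    (finSumFinEquiv.symm.trans (Equiv.sumCongr finProdFinEquiv.symm (Equiv.refl _)))

variable {q : ℕ} {Y : Type} {s r : ℕ}

open Classical in
/-- part acting on the full groups of eight -/
noncomputable def DM (e : Y ≃ (Fin s × Fin 8) ⊕ Fin r) (ψ : AddChar (ZMod q) ℂ) :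
    Matrix (ZMod q × Y) (ZMod q × Y) ℂ :=
  Matrix.of fun a b => if a.2 = b.2 then
    (if (e a.2).isLeft then GM ψ a.1 b.1 else if a.1 = b.1 then 1 else 0) else 0

open Classical in
/-- part acting on the rest -/
noncomputable def SM (e : Y ≃ (Fin s × Fin 8) ⊕ Fin r) (ψ : AddChar (ZMod q) ℂ) :
    Matrix (ZMod q × Y) (ZMod q × Y) ℂ :=
  Matrix.of fun a b => if a.2 = b.2 then
    (if (e a.2).isLeft then (if a.1 = b.1 then 1 else 0) else GM ψ a.1 b.1) else 0

theorem DM_mul_SM [Fintype (ZMod q)] [Fintype Y] [DecidableEq Y]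
    (e : Y ≃ (Fin s × Fin 8) ⊕ Fin r) (ψ : AddChar (ZMod q) ℂ) :
    Matrix.kroneckerMap (· * ·) (GM ψ) (1 : Matrix Y Y ℂ) = DM e ψ * SM e ψ := by
  ext a b
  rw [Matrix.mul_apply, Fintype.sum_prod_type]
  simp only [Matrix.kroneckerMap_apply, DM, SM, Matrix.of_apply, Matrix.one_apply]
  have h1 : ∀ x : ZMod q, (∑ y : Y, (if a.2 = y then
      (if (e a.2).isLeft then GM ψ a.1 x else if a.1 = x then 1 else 0) else 0) *
      (if y = b.2 then (if (e y).isLeft then (if x = b.1 then 1 else 0) else GM ψ x b.1)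
        else 0)) = (if (e a.2).isLeft then GM ψ a.1 x else if a.1 = x then 1 else 0) *
      (if a.2 = b.2 then (if (e a.2).isLeft then (if x = b.1 then 1 else 0) else GM ψ x b.1)
        else 0) := by
    intro x
    rw [Finset.sum_eq_single a.2]
    · simp
    · intro y _ hy
      rw [if_neg (fun h => hy h.symm), zero_mul]
    · intro h; exact absurd (Finset.mem_univ _) h
  rw [Finset.sum_congr rfl (fun x _ => h1 x)]
  by_cases hab : a.2 = b.2
  · simp only [hab, if_true, mul_one]
    by_cases hl : (e b.2).isLeft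
    · simp [hl]
    · simp [hl]
  · simp [hab]

/-- index bijection of the wires -/
def wireEquiv (e : Y ≃ (Fin s × Fin 8) ⊕ Fin r) (q : ℕ) :
    ZMod q × Y ≃ ((ZMod q × Fin 8) × Fin s) ⊕ (ZMod q × Fin r) :=
  ((Equiv.prodCongr (Equiv.refl _) e).trans (Equiv.prodSumDistrib _ _ _)).trans
    (Equiv.sumCongr ((Equiv.prodCongr (Equiv.refl _) (Equiv.prodComm _ _)).trans
      (Equiv.prodAssoc _ _ _).symm) (Equiv.refl _))

theorem Lay_DM [Fintype (ZMod q)] [Fintype Y] (e : Y ≃ (Fin s × Fin 8) ⊕ Fin r)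
    (ψ : AddChar (ZMod q) ℂ) {t : ℕ}
    (h : Lay t (Matrix.kroneckerMap (· * ·) (GM ψ) (1 : Matrix (Fin 8) (Fin 8) ℂ))) :
    Lay t (DM e ψ) := by
  classical
  have h1 : Lay t (Matrix.fromBlocks (Matrix.kroneckerMap (· * ·)
      (Matrix.kroneckerMap (· * ·) (GM ψ) (1 : Matrix (Fin 8) (Fin 8) ℂ))
      (1 : Matrix (Fin s) (Fin s) ℂ)) 0 0 (1 : Matrix (ZMod q × Fin r) (ZMod q × Fin r) ℂ)) :=
    Lay.fromBlocks h.kron_one ((Lay.mono mono_one).le (Nat.zero_le _))
  refine Lay.reindex (wireEquiv e q) (fun a b => ?_) h1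
  obtain ⟨a, y⟩ := a
  obtain ⟨b, y'⟩ := b
  obtain ⟨u, rfl⟩ := e.symm.surjective y
  obtain ⟨v, rfl⟩ := e.symm.surjective y'
  rcases u with ⟨i, j⟩ | k <;> rcases v with ⟨i', j'⟩ | k'
  · simp only [DM, Matrix.of_apply, wireEquiv, Equiv.trans_apply, Equiv.prodCongr_apply,
      Prod.map_apply, Equiv.refl_apply, Equiv.apply_symm_apply, Equiv.prodSumDistrib_apply_left,
      Equiv.sumCongr_apply, Sum.map_inl, Equiv.prodComm_apply, Prod.swap_prod_mk,
      Equiv.prodAssoc_symm_apply, Matrix.fromBlocks_apply₁₁, Matrix.kroneckerMap_apply,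
      Matrix.one_apply, EmbeddingLike.apply_eq_iff_eq, Sum.inl.injEq, Prod.mk.injEq,
      Sum.isLeft_inl, if_true]
    by_cases h1 : i = i' <;> by_cases h2 : j = j' <;> simp [h1, h2]
  · simp [DM, wireEquiv]
  · simp [DM, wireEquiv]
  · simp only [DM, Matrix.of_apply, wireEquiv, Equiv.trans_apply, Equiv.prodCongr_apply,
      Prod.map_apply, Equiv.refl_apply, Equiv.apply_symm_apply, Equiv.prodSumDistrib_apply_right,
      Equiv.sumCongr_apply, Sum.map_inr, Matrix.fromBlocks_apply₂₂,
      Matrix.one_apply, EmbeddingLike.apply_eq_iff_eq, Sum.inr.injEq, Prod.mk.injEq,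
      Sum.isLeft_inr]
    by_cases h1 : a = b <;> by_cases h2 : k = k' <;> simp [h1, h2]

theorem CL_SM [Fintype (ZMod q)] (hq : q ≠ 0) (e : Y ≃ (Fin s × Fin 8) ⊕ Fin r)
    (ψ : AddChar (ZMod q) ℂ) (hr : r < 8) : CL (SM e ψ) (16 * q ^ 2) := by
  classical
  have hcard : Fintype.card (ZMod q) = q := by
    have : NeZero q := ⟨hq⟩
    have := ZMod.card q
    convert this
  let p : ZMod q × Y → Option (Fin r) := fun a => (e a.2).elim (fun _ => none) some
  have key : CL (SM e ψ) (∑ b : Option (Fin r), b.elim 0 (fun _ => 2 * q * q)) := by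
    refine CL.block (SM e ψ) p p ?_ _ ?_
    · intro i j hij
      have hne : i.2 ≠ j.2 := by
        intro h; apply hij; simp only [p, h]
      simp [SM, hne]
    · intro b
      rcases b with _ | k
      · refine CL.of_unit_rows fun i => Or.inr ⟨i, ?_, fun k hk => ?_⟩
        · obtain ⟨⟨a, y⟩, hi⟩ := i
          have hl : (e y).isLeft = true := by
            rcases hy : e y with u | u
            · rfl
            · simp [p, hy] at hi
          simp [SM, hl]
        · obtain ⟨⟨a, y⟩, hi⟩ := i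
          obtain ⟨⟨a', y'⟩, hi'⟩ := k
          have hl : (e y).isLeft = true := by
            rcases hy : e y with u | u
            · rfl
            · simp [p, hy] at hi
          by_cases h2 : y = y'
          · subst h2
            have h3 : a ≠ a' := fun h => hk (by subst h; rfl)
            simp [SM, hl, h3]
          · simp [SM, h2]
      · have hnaive : CL (GM ψ) (2 * q * q) := by
          have := CL.naive (GM ψ)
          rwa [hcard] at this
        have hf : Function.Injective
            (fun j : {j : ZMod q × Y // p j = some k} => j.1.1) := by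
          rintro ⟨⟨a, y⟩, hi⟩ ⟨⟨a', y'⟩, hi'⟩ h
          have hy : e y = Sum.inr k := by
            rcases hy : e y with u | u
            · simp [p, hy] at hi
            · simp [p, hy] at hi; rw [hi]
          have hy' : e y' = Sum.inr k := by
            rcases hy : e y' with u | u
            · simp [p, hy] at hi'
            · simp [p, hy] at hi'; rw [hi']
          have : y = y' := e.injective (hy.trans hy'.symm)
          simp only at h
          subst h; subst this; rfl
        have h2 := hnaive.submatrix (fun i : {i : ZMod q × Y // p i = some k} => i.1.1)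
          (fun j : {j : ZMod q × Y // p j = some k} => j.1.1) hf
        convert h2 using 1
        swap
        · rfl
        ext ⟨⟨a, y⟩, hi⟩ ⟨⟨a', y'⟩, hi'⟩
        have hy : e y = Sum.inr k := by
          rcases hy : e y with u | u
          · simp [p, hy] at hi
          · simp [p, hy] at hi; rw [hi]
        have hy' : e y' = Sum.inr k := by
          rcases hy : e y' with u | u
          · simp [p, hy] at hi'
          · simp [p, hy] at hi'; rw [hi']
        have : y = y' := e.injective (hy.trans hy'.symm)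
        subst this
        simp [SM, hy]
  refine key.le ?_
  rw [Fintype.sum_option]
  simp only [Option.elim, Finset.sum_const, Finset.card_univ, Fintype.card_fin, smul_eq_mul,
    zero_add]
  calc r * (2 * q * q) ≤ 8 * (2 * q * q) := Nat.mul_le_mul_right _ hr.le
    _ = 16 * q ^ 2 := by ring

end Split

theorem split_GM {C : ℕ} (hC : ∀ q : ℕ, Odd q → 3 ≤ q → ∀ ψ : AddChar (ZMod q) ℂ,
      ψ.IsPrimitive → ∀ [Fintype (ZMod q)], Lay (C * Nat.log 2 q)
      (Matrix.kroneckerMap (· * ·) (GM ψ) (1 : Matrix (Fin 8) (Fin 8) ℂ)))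
    (q : ℕ) (hq : Odd q) (hq3 : 3 ≤ q) (ψ : AddChar (ZMod q) ℂ) (hψ : ψ.IsPrimitive)
    [Fintype (ZMod q)] (Y : Type) [Fintype Y] [DecidableEq Y] :
    ∃ D S : Matrix (ZMod q × Y) (ZMod q × Y) ℂ,
      Matrix.kroneckerMap (· * ·) (GM ψ) (1 : Matrix Y Y ℂ) = D * S ∧
        Lay (C * Nat.log 2 q) D ∧ CL S (16 * q ^ 2) := by
  obtain ⟨s, r, hr, ⟨e⟩⟩ := Split.exists_equiv Y
  exact ⟨Split.DM e ψ, Split.SM e ψ, Split.DM_mul_SM e ψ,
    Split.Lay_DM e ψ (hC q hq hq3 ψ hψ), Split.CL_SM (by omega) e ψ hr⟩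

end DFTC
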