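import Crest.Agent.DFT.KronLayer
import Crest.Agent.DFT.KronPow
import Crest.Agent.DFT.LaySplit
import Crest.Agent.DFT.LayPrime
import Crest.Agent.DFT.ChainDef

/-! S0501 part H: the Chinese remainder theorem and the bound for `GM ψ` on `ZMod N`. -/

set_option autoImplicit false

open Matrix Finset

namespace DFTC

namespace CRT

/-- restriction of a primitive character to a factor -/
theorem prim_restrict {R R' : Type*} [CommRing R] [CommRing R'] {ψ : AddChar R ℂ}
    (hψ : ψ.IsPrimitive) (i : R' →+ R) (hi : ∀ a, i a = 0 → a = 0) (ρ : R → R')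
    (h : ∀ a r, i a * r = i (a * ρ r)) : (ψ.compAddMonoidHom i).IsPrimitive := by
  intro a ha h1
  apply hψ (a := i a) (fun h0 => ha (hi a h0))
  rw [AddChar.eq_one_iff] at h1 ⊢
  intro r
  have h2 := h1 (ρ r)
  rw [AddChar.mulShift_apply] at h2 ⊢
  rw [h a r]
  exact h2

theorem char_sum {R : Type*} [CommRing R] (ψ : AddChar R ℂ) {ι : Type*} (s : Finset ι)
    (f : ι → R) : ψ (∑ i ∈ s, f i) = ∏ i ∈ s, ψ (f i) := by
  classical
  induction s using Finset.induction_on with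
  | empty => simp
  | insert a s ha ih => rw [Finset.sum_insert ha, Finset.prod_insert ha,
      AddChar.map_add_eq_mul, ih]

theorem factor {R R0 : Type*} {d : ℕ} {R1 R2 : Fin d → Type*} [CommRing R] [CommRing R0]
    [∀ g, CommRing (R1 g)] [∀ g, CommRing (R2 g)] (e : R ≃+* R0 × (∀ g, R1 g × R2 g))
    (ψ : AddChar R ℂ) (hψ : ψ.IsPrimitive) :
    ∃ (ψ0 : AddChar R0 ℂ) (ψ1 : ∀ g, AddChar (R1 g) ℂ) (ψ2 : ∀ g, AddChar (R2 g) ℂ),
      ψ0.IsPrimitive ∧ (∀ g, (ψ1 g).IsPrimitive) ∧ (∀ g, (ψ2 g).IsPrimitive) ∧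
        ∀ a b, GM ψ a b = GM ψ0 (e a).1 (e b).1 * ∏ g, (GM (ψ1 g) ((e a).2 g).1 ((e b).2 g).1 *
          GM (ψ2 g) ((e a).2 g).2 ((e b).2 g).2) := by
  classical
  let i0 : R0 →+ R := (e.symm : R0 × (∀ g, R1 g × R2 g) →+ R).comp (AddMonoidHom.inl _ _)
  let i1 : ∀ g, R1 g →+ R := fun g => (e.symm : R0 × (∀ g, R1 g × R2 g) →+ R).comp
    ((AddMonoidHom.inr _ _).comp ((AddMonoidHom.single (fun g => R1 g × R2 g) g).comp
      (AddMonoidHom.inl _ _)))
  let i2 : ∀ g, R2 g →+ R := fun g => (e.symm : R0 × (∀ g, R1 g × R2 g) →+ R).comp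
    ((AddMonoidHom.inr _ _).comp ((AddMonoidHom.single (fun g => R1 g × R2 g) g).comp
      (AddMonoidHom.inr _ _)))
  have hi0 : ∀ a, e (i0 a) = (a, 0) := fun a => e.apply_symm_apply _
  have hi1 : ∀ g a, e (i1 g a) = (0, Pi.single g (a, 0)) := fun g a => e.apply_symm_apply _
  have hi2 : ∀ g a, e (i2 g a) = (0, Pi.single g (0, a)) := fun g a => e.apply_symm_apply _
  refine ⟨ψ.compAddMonoidHom i0, fun g => ψ.compAddMonoidHom (i1 g),
    fun g => ψ.compAddMonoidHom (i2 g), ?_, ?_, ?_, ?_⟩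
  · refine prim_restrict hψ i0 ?_ (fun r => (e r).1) ?_
    · intro a ha
      have := hi0 a
      rw [ha, map_zero] at this
      exact (congrArg Prod.fst this).symm
    · intro a r
      apply e.injective
      rw [map_mul, hi0, hi0]
      ext : 1
      · rfl
      · simp
  · intro g
    refine prim_restrict hψ (i1 g) ?_ (fun r => ((e r).2 g).1) ?_
    · intro a ha
      have := hi1 g a
      rw [ha, map_zero] at this
      have h2 := congrFun (congrArg Prod.snd this) g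
      simp only [Pi.single_eq_same] at h2
      exact (congrArg Prod.fst h2).symm
    · intro a r
      apply e.injective
      rw [map_mul, hi1, hi1]
      ext h : 2
      · simp
      · by_cases hg : h = g
        · subst hg
          ext <;> simp
        · simp [Pi.single_eq_of_ne hg]
  · intro g
    refine prim_restrict hψ (i2 g) ?_ (fun r => ((e r).2 g).2) ?_
    · intro a ha
      have := hi2 g a
      rw [ha, map_zero] at this
      have h2 := congrFun (congrArg Prod.snd this) g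
      simp only [Pi.single_eq_same] at h2
      exact (congrArg Prod.snd h2).symm
    · intro a r
      apply e.injective
      rw [map_mul, hi2, hi2]
      ext h : 2
      · simp
      · by_cases hg : h = g
        · subst hg
          ext <;> simp
        · simp [Pi.single_eq_of_ne hg]
  · intro a b
    have key : a * b = i0 ((e a).1 * (e b).1) + ∑ g, (i1 g (((e a).2 g).1 * ((e b).2 g).1) +
        i2 g (((e a).2 g).2 * ((e b).2 g).2)) := by
      apply e.injective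
      rw [map_mul, map_add, map_sum, hi0]
      simp only [map_add, hi1, hi2]
      ext h : 2
      · simp [Prod.fst_sum]
      · rw [Prod.snd_add, Prod.snd_sum, Pi.add_apply, Finset.sum_apply]
        rw [Finset.sum_eq_single h]
        · ext <;> simp
        · intro g _ hg
          simp [Pi.single_eq_of_ne hg.symm]
        · intro hh; exact absurd (Finset.mem_univ _) hh
    show ψ (a * b) = _
    rw [key, AddChar.map_add_eq_mul, char_sum]
    congr 1
    apply Finset.prod_congr rfl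
    intro g _
    rw [AddChar.map_add_eq_mul]
    rfl

theorem exists_crt {d m : ℕ} {q q' : Fin d → ℕ} {q₀ : ℕ} (hch : Chain d m q q' q₀) :
    Nonempty (ZMod (q₀ * ∏ g, (q g * q' g)) ≃+* ZMod q₀ × (∀ g, ZMod (q g) × ZMod (q' g))) := by
  have h1 : Nat.Coprime q₀ (∏ g, (q g * q' g)) := by
    apply Nat.Coprime.prod_right
    intro g _
    apply Nat.Coprime.mul_right
    · exact (Nat.coprime_primes hch.prime₀ (hch.prime g)).2 (fun h => (hch.ne g).1 h.symm)
    · exact (Nat.coprime_primes hch.prime₀ (hch.prime' g)).2 (fun h => (hch.ne g).2 h.symm)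
  have h2 : Pairwise (Function.onFun Nat.Coprime (fun g => q g * q' g)) := by
    intro g h hgh
    show Nat.Coprime (q g * q' g) (q h * q' h)
    apply Nat.Coprime.mul_right <;> apply Nat.Coprime.mul_left
    · exact (Nat.coprime_primes (hch.prime g) (hch.prime h)).2 (fun h' => hgh (hch.inj h'))
    · exact (Nat.coprime_primes (hch.prime' g) (hch.prime h)).2 (fun h' => hch.disj h g h'.symm)
    · exact (Nat.coprime_primes (hch.prime g) (hch.prime' h)).2 (fun h' => hch.disj g h h')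
    · exact (Nat.coprime_primes (hch.prime' g) (hch.prime' h)).2 (fun h' => hgh (hch.inj' h'))
  have h3 : ∀ g, Nat.Coprime (q g) (q' g) := fun g =>
    (Nat.coprime_primes (hch.prime g) (hch.prime' g)).2 (hch.disj g g)
  exact ⟨(ZMod.chineseRemainder h1).trans (RingEquiv.prodCongr (RingEquiv.refl _)
    ((ZMod.prodEquivPi _ h2).trans (RingEquiv.piCongrRight fun g => ZMod.chineseRemainder (h3 g))))⟩

/-- the two dimensional transform as a product -/
theorem split_pair {C : ℕ} (hC : ∀ q : ℕ, Odd q → 3 ≤ q → ∀ ψ : AddChar (ZMod q) ℂ,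
      ψ.IsPrimitive → ∀ [Fintype (ZMod q)], Lay (C * Nat.log 2 q)
      (Matrix.kroneckerMap (· * ·) (GM ψ) (1 : Matrix (Fin 8) (Fin 8) ℂ)))
    (m q q' : ℕ) (hq : Odd q) (hq3 : 3 ≤ q) (hqm : q < 2 ^ m) (hq' : Odd q') (hq3' : 3 ≤ q')
    (hqm' : q' < 2 ^ m) (ψ : AddChar (ZMod q) ℂ) (hψ : ψ.IsPrimitive)
    (ψ' : AddChar (ZMod q') ℂ) (hψ' : ψ'.IsPrimitive) [Fintype (ZMod q)] [Fintype (ZMod q')] :
    ∃ D S D' S' : Matrix (ZMod q × ZMod q') (ZMod q × ZMod q') ℂ,
      Matrix.kroneckerMap (· * ·) (GM ψ) (GM ψ') = (D * S) * (D' * S') ∧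
        Lay (C * m) D ∧ CL S (16 * q ^ 2) ∧ Lay (C * m) D' ∧ CL S' (16 * q' ^ 2) := by
  classical
  obtain ⟨D, S, h1, h2, h3⟩ := split_GM hC q hq hq3 ψ hψ (ZMod q')
  obtain ⟨D', S', h1', h2', h3'⟩ := split_GM hC q' hq' hq3' ψ' hψ' (ZMod q)
  have hlog : Nat.log 2 q ≤ m := (Nat.log_lt_of_lt_pow (by omega) hqm).le
  have hlog' : Nat.log 2 q' ≤ m := (Nat.log_lt_of_lt_pow (by omega) hqm').le
  let e : ZMod q × ZMod q' ≃ ZMod q' × ZMod q := Equiv.prodComm _ _
  refine ⟨D, S, D'.submatrix e e, S'.submatrix e e, ?_, h2.le (Nat.mul_le_mul_left _ hlog), h3,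
    (h2'.submatrix e).le (Nat.mul_le_mul_left _ hlog'), h3'.submatrix e e e.injective⟩
  rw [← h1, Matrix.submatrix_mul_equiv, ← h1']
  have h4 : (Matrix.kroneckerMap (· * ·) (GM ψ') (1 : Matrix (ZMod q) (ZMod q) ℂ)).submatrix e e =
      Matrix.kroneckerMap (· * ·) (1 : Matrix (ZMod q) (ZMod q) ℂ) (GM ψ') := by
    ext a b
    simp only [Matrix.submatrix_apply, Matrix.kroneckerMap_apply, e, Equiv.prodComm_apply,
      Prod.fst_swap]
    exact mul_comm _ _
  rw [h4]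
  have h5 := Matrix.mul_kronecker_mul (GM ψ) (1 : Matrix (ZMod q) (ZMod q) ℂ)
    (1 : Matrix (ZMod q') (ZMod q') ℂ) (GM ψ')
  rw [Matrix.mul_one, Matrix.one_mul] at h5
  exact h5

theorem sum_bound {d : ℕ} (w c : Fin d → ℕ) (K : ℕ) (h : ∀ i, c i ≤ K * w i) :
    ∑ i, (∏ j ∈ univ.erase i, w j) * c i ≤ K * d * ∏ i, w i := by
  calc ∑ i, (∏ j ∈ univ.erase i, w j) * c i ≤ ∑ i : Fin d, K * ∏ i, w i := by
        apply Finset.sum_le_sum
        intro i _
        calc (∏ j ∈ univ.erase i, w j) * c i ≤ (∏ j ∈ univ.erase i, w j) * (K * w i) :=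
              Nat.mul_le_mul_left _ (h i)
          _ = K * ((∏ j ∈ univ.erase i, w j) * w i) := by ring
          _ = K * ∏ i, w i := by rw [Finset.prod_erase_mul _ _ (Finset.mem_univ i)]
    _ = K * d * ∏ i, w i := by
        rw [Finset.sum_const, Finset.card_univ, Fintype.card_fin, smul_eq_mul]; ring

end CRT

theorem CL_GM_N {A : ℝ} (hA0 : 0 < A) (hA : ZBound A) : ∃ C : ℝ, 0 < C ∧
    ∀ (d m : ℕ) (q q' : Fin d → ℕ) (q₀ : ℕ), 1 ≤ d → 1 ≤ m → Chain d m q q' q₀ →
    ∀ N : ℕ, N = q₀ * ∏ g, (q g * q' g) → ∀ ψ : AddChar (ZMod N) ℂ, ψ.IsPrimitive →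
      ∃ t : ℕ, (t : ℝ) ≤ C * N * (m * (d : ℝ) ^ th1 + d) ∧ CL (GM ψ) t := by
  classical
  obtain ⟨C, hC⟩ := Lay_GM8
  refine ⟨2 * (C + 1) * (A + 3) + 80 + 8 * (3 * C + 1), by positivity, ?_⟩
  intro d m q q' q₀ hd hm hch N hN ψ hψ
  subst hN
  have h3' : ∀ g, 3 ≤ q' g := fun g => (hch.three g).trans (hch.le' g)
  have hodd : ∀ g, Odd (q g) := fun g =>
    (hch.prime g).odd_of_ne_two (by have := hch.three g; omega)
  have hodd' : ∀ g, Odd (q' g) := fun g =>
    (hch.prime' g).odd_of_ne_two (by have := h3' g; omega)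
  have hodd₀ : Odd q₀ := hch.prime₀.odd_of_ne_two (by have := hch.three₀; omega)
  have : NeZero q₀ := ⟨by have := hch.three₀; omega⟩
  have : ∀ g, NeZero (q g) := fun g => ⟨by have := hch.three g; omega⟩
  have : ∀ g, NeZero (q' g) := fun g => ⟨by have := h3' g; omega⟩
  obtain ⟨e⟩ := CRT.exists_crt hch
  obtain ⟨ψ0, ψ1, ψ2, hψ0, hψ1, hψ2, hfac⟩ := CRT.factor e ψ hψ
  -- the big factor
  choose D S D' S' hK hD hS hD' hS' using fun g => CRT.split_pair hC m (q g) (q' g) (hodd g)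
    (hch.three g) (hch.lt' g |> (hch.le' g).trans_lt) (hodd' g) (h3' g) (hch.lt' g) (ψ1 g) (hψ1 g)
    (ψ2 g) (hψ2 g)
  obtain ⟨Q, hQ⟩ : ∃ Q : ℕ, Q = ∏ g, (q g * q' g) := ⟨_, rfl⟩
  let W : Fin d → Type := fun g => ZMod (q g) × ZMod (q' g)
  have hcard : ∀ g, Fintype.card (W g) = q g * q' g := fun g => by
    simp only [W, Fintype.card_prod, ZMod.card]
  have hprod : ∏ g, (Fintype.card (W g) : ℝ) = (Q : ℝ) := by
    rw [hQ]
    push_cast
    exact Finset.prod_congr rfl fun g _ => by rw [hcard g]; push_cast; rfl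
  obtain ⟨t1, ht1, hc1⟩ := CL_piK_Lay hA0 hA hd W D (C * m) hD
  obtain ⟨t2, ht2, hc2⟩ := CL_piK_Lay hA0 hA hd W D' (C * m) hD'
  have hc3 := CL_piK_seq W S _ hS
  have hc4 := CL_piK_seq W S' _ hS'
  simp only [hcard] at hc3 hc4
  have hc3' := hc3.le (CRT.sum_bound (fun g => q g * q' g) (fun g => 16 * q g ^ 2) 16 (fun g => by
    have := hch.le' g
    nlinarith))
  have hc4' := hc4.le (CRT.sum_bound (fun g => q g * q' g) (fun g => 16 * q' g ^ 2) 64 (fun g => by
    have := hch.le4 g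
    nlinarith))
  rw [← hQ] at hc3' hc4'
  have hP : CL (piK (fun g => Matrix.kroneckerMap (· * ·) (GM (ψ1 g)) (GM (ψ2 g))))
      ((t1 + 16 * d * Q) + (t2 + 64 * d * Q)) := by
    have h1 : (piK (fun g => Matrix.kroneckerMap (· * ·) (GM (ψ1 g)) (GM (ψ2 g)))) =
        (piK D * piK S) * (piK D' * piK S') := by
      rw [← piK_mul, ← piK_mul, ← piK_mul]
      congr 1
      funext g
      exact hK g
    rw [h1]
    exact (hc1.mul hc3').mul (hc2.mul hc4')
  -- the small factor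
  have hlog₀ : Nat.log 2 q₀ ≤ m :=
    (Nat.log_lt_of_lt_pow (by have := hch.three₀; omega) hch.lt₀).le
  have hG0 : CL (GM ψ0) ((3 * (C * m) + 1) * (q₀ * 8)) := by
    have h1 := CL_of_Lay ((hC q₀ hodd₀ hch.three₀ ψ0 hψ0).le (Nat.mul_le_mul_left C hlog₀))
    rw [Fintype.card_prod, ZMod.card, Fintype.card_fin] at h1
    have h2 := h1.submatrix (fun a : ZMod q₀ => (a, (0 : Fin 8))) (fun a : ZMod q₀ => (a, (0 : Fin 8)))
      (fun a b hab => (Prod.mk.inj hab).1)
    convert h2 using 1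
    ext a b
    simp
  have hfull : CL (GM ψ) (Fintype.card (∀ g, W g) * ((3 * (C * m) + 1) * (q₀ * 8)) +
      Fintype.card (ZMod q₀) * ((t1 + 16 * d * Q) + (t2 + 64 * d * Q))) := by
    have h1 := (hG0.kron_one (B := ∀ g, W g)).mul (hP.one_kron (B := ZMod q₀))
    have h2 := h1.submatrix e e e.injective
    convert h2 using 1
    have h3 := Matrix.mul_kronecker_mul (GM ψ0) (1 : Matrix (ZMod q₀) (ZMod q₀) ℂ)
      (1 : Matrix (∀ g, W g) (∀ g, W g) ℂ)
      (piK (fun g => Matrix.kroneckerMap (· * ·) (GM (ψ1 g)) (GM (ψ2 g))))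
    rw [Matrix.mul_one, Matrix.one_mul] at h3
    ext a b
    rw [hfac a b]
    rw [Matrix.submatrix_apply]
    exact (congrFun (congrFun h3 (e a)) (e b))
  refine ⟨_, ?_, hfull⟩
  have hcW : Fintype.card (∀ g, W g) = Q := by
    rw [Fintype.card_pi, hQ]
    exact Finset.prod_congr rfl fun g _ => hcard g
  have hNQ : ((q₀ * ∏ g, (q g * q' g) : ℕ) : ℝ) = q₀ * Q := by rw [← hQ]; push_cast; rfl
  rw [hcW, ZMod.card, hNQ]
  rw [hprod] at ht1 ht2
  push_cast at ht1 ht2 ⊢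
  have hd1 : (1 : ℝ) ≤ d := by exact_mod_cast hd
  have hm1 : (1 : ℝ) ≤ m := by exact_mod_cast hm
  have hx : (1 : ℝ) ≤ (d : ℝ) ^ th1 := Real.one_le_rpow hd1 (by unfold th1; norm_num)
  set x : ℝ := (d : ℝ) ^ th1 with hxdef
  have hQ0 : (0 : ℝ) ≤ Q := Nat.cast_nonneg _
  have hq0 : (0 : ℝ) ≤ q₀ := Nat.cast_nonneg _
  have hC0 : (0 : ℝ) ≤ C := Nat.cast_nonneg _
  have hb1 : (C * m + 1 : ℝ) * (A * x + 3) ≤ (C + 1) * (A + 3) * (m * x) := by
    have h1 : (C * m + 1 : ℝ) ≤ (C + 1) * m := by nlinarith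
    have h2 : A * x + 3 ≤ (A + 3) * x := by nlinarith
    calc (C * m + 1 : ℝ) * (A * x + 3) ≤ ((C + 1) * m) * ((A + 3) * x) := by
          apply mul_le_mul h1 h2 (by positivity) (by positivity)
      _ = _ := by ring
  have hb2 : (3 * (C * m) + 1 : ℝ) ≤ (3 * C + 1) * (m * x) := by
    have h1 : (3 * (C * m) + 1 : ℝ) ≤ (3 * C + 1) * m := by nlinarith
    have h2 : (m : ℝ) ≤ m * x := by nlinarith
    calc (3 * (C * m) + 1 : ℝ) ≤ (3 * C + 1) * m := h1
      _ ≤ _ := by apply mul_le_mul_of_nonneg_left h2; positivity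
  have ht1' : (t1 : ℝ) ≤ (C + 1) * (A + 3) * (m * x) * Q :=
    ht1.trans (mul_le_mul_of_nonneg_right hb1 hQ0)
  have ht2' : (t2 : ℝ) ≤ (C + 1) * (A + 3) * (m * x) * Q :=
    ht2.trans (mul_le_mul_of_nonneg_right hb1 hQ0)
  have hmx : (0 : ℝ) ≤ m * x := by positivity
  calc (Q : ℝ) * ((3 * (C * m) + 1) * (q₀ * 8)) +
        q₀ * (t1 + 16 * d * Q + (t2 + 64 * d * Q))
      ≤ (Q : ℝ) * (((3 * C + 1) * (m * x)) * (q₀ * 8)) +
        q₀ * ((C + 1) * (A + 3) * (m * x) * Q + 16 * d * Q +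
          ((C + 1) * (A + 3) * (m * x) * Q + 64 * d * Q)) := by
        gcongr
    _ = q₀ * Q * ((2 * (C + 1) * (A + 3) + 8 * (3 * C + 1)) * (m * x) + 80 * d) := by ring
    _ ≤ q₀ * Q * ((2 * (C + 1) * (A + 3) + 80 + 8 * (3 * C + 1)) * (m * x + d)) := by
        apply mul_le_mul_of_nonneg_left _ (by positivity)
        have h1 : 0 ≤ (2 * (C + 1) * (A + 3) + 8 * (3 * C + 1)) * (d : ℝ) := by positivity
        nlinarith
    _ = _ := by ring

end DFTC
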