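import Crest.Agent.DFT.Defs

/-! S0501 part J2: a lower bound of the exponent. -/

set_option autoImplicit false

namespace DFTC

theorem savingExponent_lb : 1 - 1 / 10 ^ 12 ≤ Crest.FourierCircuit.savingExponent := by
  unfold Crest.FourierCircuit.savingExponent
  set x : ℝ := 6871402692000000 / 2 ^ 71 / 10 ^ 6 with hx
  have hx0 : 0 < x := by rw [hx]; positivity
  have hx1 : x ≤ 2.95 / 10 ^ 12 := by rw [hx]; norm_num
  have e1 : (10 ^ 6 - 6871402692000000 / 2 ^ 71 : ℝ) = 10 ^ 6 * (1 - x) := by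
    rw [hx]; ring
  have hx3 : x < 1 := lt_of_le_of_lt hx1 (by norm_num)
  have hx2 : 0 < 1 - x := by linarith
  rw [e1, Real.logb_mul (by norm_num) hx2.ne', Real.logb_self_eq_one (by norm_num)]
  have hL : 3 ≤ Real.log (10 ^ 6) := by
    rw [Real.le_log_iff_exp_le (by norm_num)]
    have h1 : Real.exp 3 = Real.exp 1 ^ 3 := by rw [← Real.exp_nat_mul]; norm_num
    have h2 := Real.exp_one_lt_d9
    have h3 := Real.exp_pos 1
    rw [h1]
    calc Real.exp 1 ^ 3 ≤ 3 ^ 3 := by gcongr; linarith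
      _ ≤ 10 ^ 6 := by norm_num
  have hl : -(3 / 10 ^ 12) ≤ Real.log (1 - x) := by
    have := Real.one_sub_inv_le_log_of_pos hx2
    refine le_trans ?_ this
    have h1 : (1 - x)⁻¹ ≤ 1 + 3 / 10 ^ 12 := by
      rw [inv_le_comm₀ hx2 (by norm_num)]
      have : ((1 : ℝ) + 3 / 10 ^ 12)⁻¹ ≤ 1 - 2.95 / 10 ^ 12 := by norm_num
      linarith
    linarith
  have h2 : -(1 / 10 ^ 12) ≤ Real.logb (10 ^ 6) (1 - x) := by
    rw [Real.logb, le_div_iff₀ (by linarith)]
    have h4 := mul_le_mul_of_nonneg_left hL (by positivity : (0 : ℝ) ≤ 1 / 10 ^ 12)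
    calc -(1 / 10 ^ 12) * Real.log (10 ^ 6) = -(1 / 10 ^ 12 * Real.log (10 ^ 6)) := by ring
      _ ≤ -(1 / 10 ^ 12 * 3) := neg_le_neg h4
      _ = -(3 / 10 ^ 12) := by ring
      _ ≤ _ := hl
  linarith

theorem savingExponent_le_one : Crest.FourierCircuit.savingExponent ≤ 1 := by
  unfold Crest.FourierCircuit.savingExponent
  rw [Real.logb_le_iff_le_rpow (by norm_num) (by norm_num), Real.rpow_one]
  norm_num

end DFTC
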