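import Crest.Agent.DFT.ChainDef

/-! S0501, part I: the chain of primes (Bertrand). -/

set_option autoImplicit false
open Matrix Finset
namespace DFTC

theorem exists_chain : ∃ N₀ : ℕ, ∀ n ≥ N₀, ∃ (d m : ℕ) (q q' : Fin d → ℕ) (q₀ : ℕ),
    1 ≤ d ∧ Chain d m q q' q₀ ∧ m ≤ 20 * d ∧ d ^ 2 ≤ Nat.log 2 n ∧
      2 * n ≤ q₀ * ∏ g, (q g * q' g) ∧ q₀ * ∏ g, (q g * q' g) ≤ 6 * n := by
  -- the primes
  have hber : ∀ k : ℕ, ∃ p : ℕ, p.Prime ∧ 2 ^ k < p ∧ p ≤ 2 ^ (k + 1) := by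
    intro k
    obtain ⟨p, hp, h1, h2⟩ := Nat.exists_prime_lt_and_le_two_mul (2 ^ k) (by positivity)
    exact ⟨p, hp, h1, by rw [pow_succ]; omega⟩
  choose r hr hr1 hr2 using hber
  refine ⟨128, fun n hn => ?_⟩
  obtain ⟨k, hk⟩ : ∃ k, k = Nat.log 2 n := ⟨_, rfl⟩
  have hn0 : n ≠ 0 := by omega
  have hk1 : 2 ^ k ≤ n := by rw [hk]; exact Nat.pow_log_le_self 2 hn0
  have hk2 : n < 2 ^ (k + 1) := by rw [hk]; exact Nat.lt_pow_succ_log_self (by norm_num) n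
  have hk7 : 7 ≤ k := by
    by_contra hcon
    have : 2 ^ (k + 1) ≤ 2 ^ 7 := Nat.pow_le_pow_right (by norm_num) (by omega)
    omega
  -- the maximal `d`
  obtain ⟨d, hd1, hd2, hd3⟩ : ∃ d, 1 ≤ d ∧ 2 * d ^ 2 + 5 * d ≤ k ∧
      k < 2 * (d + 1) ^ 2 + 5 * (d + 1) := by
    have h1 : (Nat.findGreatest (fun d => 2 * d ^ 2 + 5 * d ≤ k) k) = _ := rfl
    refine ⟨Nat.findGreatest (fun d => 2 * d ^ 2 + 5 * d ≤ k) k, ?_, ?_, ?_⟩
    · exact Nat.le_findGreatest (by omega) (by omega)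
    · exact Nat.findGreatest_spec (P := fun d => 2 * d ^ 2 + 5 * d ≤ k) (m := 0) (by omega) (by omega)
    · by_contra hcon
      have h2 := Nat.findGreatest_is_greatest (P := fun d => 2 * d ^ 2 + 5 * d ≤ k) (n := k)
        (k := Nat.findGreatest (fun d => 2 * d ^ 2 + 5 * d ≤ k) k + 1) (by omega) (by
          have : ∀ x : ℕ, x ≤ 2 * x ^ 2 + 5 * x := fun x => by nlinarith
          exact (this _).trans (by omega))
      exact h2 (by omega)
  -- the product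
  have hprod : ∀ e : ℕ, 2 ^ (2 * e ^ 2 + e) ≤ ∏ i ∈ range e, (r (2 * i + 1) * r (2 * i + 2)) ∧
      ∏ i ∈ range e, (r (2 * i + 1) * r (2 * i + 2)) ≤ 2 ^ (2 * e ^ 2 + 3 * e) := by
    intro e
    induction e with
    | zero => simp
    | succ e ih =>
      rw [Finset.prod_range_succ]
      constructor
      · have e1 : 2 ^ (2 * (e + 1) ^ 2 + (e + 1)) = 2 ^ (2 * e ^ 2 + e) *
            (2 ^ (2 * e + 1) * 2 ^ (2 * e + 2)) := by
          rw [← pow_add, ← pow_add]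
          congr 1
          ring
        rw [e1]
        exact Nat.mul_le_mul ih.1 (Nat.mul_le_mul (hr1 _).le (hr1 _).le)
      · have e1 : 2 ^ (2 * (e + 1) ^ 2 + 3 * (e + 1)) = 2 ^ (2 * e ^ 2 + 3 * e) *
            (2 ^ (2 * e + 1 + 1) * 2 ^ (2 * e + 2 + 1)) := by
          rw [← pow_add, ← pow_add]
          congr 1
          ring
        rw [e1]
        exact Nat.mul_le_mul ih.2 (Nat.mul_le_mul (hr2 _) (hr2 _))
  obtain ⟨P, hP⟩ : ∃ P, P = ∏ i ∈ range d, (r (2 * i + 1) * r (2 * i + 2)) := ⟨_, rfl⟩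
  have hP1 : 2 ^ (2 * d ^ 2 + d) ≤ P := by rw [hP]; exact (hprod d).1
  have hP2 : P ≤ 2 ^ (2 * d ^ 2 + 3 * d) := by rw [hP]; exact (hprod d).2
  have hP0 : 0 < P := lt_of_lt_of_le (by positivity) hP1
  -- the last prime
  obtain ⟨y, hy⟩ : ∃ y, y = 2 * n / P := ⟨_, rfl⟩
  have hy1 : y * P ≤ 2 * n := by rw [hy]; exact Nat.div_mul_le_self _ _
  have hy2 : 2 * n < (y + 1) * P := by
    have h1 : 2 * n < 2 * n / P * P + P := Nat.lt_div_mul_add hP0
    rw [hy, add_mul, one_mul]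
    exact h1
  have hy3 : 2 ^ (2 * d + 1) ≤ y := by
    rw [hy, Nat.le_div_iff_mul_le hP0]
    calc 2 ^ (2 * d + 1) * P ≤ 2 ^ (2 * d + 1) * 2 ^ (2 * d ^ 2 + 3 * d) :=
          Nat.mul_le_mul_left _ hP2
      _ = 2 * 2 ^ (2 * d ^ 2 + 5 * d) := by
          rw [← pow_add, ← pow_succ']
          congr 1
          ring
      _ ≤ 2 * 2 ^ k := Nat.mul_le_mul_left _ (Nat.pow_le_pow_right (by norm_num) hd2)
      _ ≤ 2 * n := Nat.mul_le_mul_left _ hk1
  have hy0 : y ≠ 0 := by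
    have : 0 < 2 ^ (2 * d + 1) := by positivity
    omega
  obtain ⟨q0, hq0, hq1, hq2⟩ := Nat.exists_prime_lt_and_le_two_mul y hy0
  have hq0P1 : 2 * n ≤ q0 * P := hy2.le.trans (Nat.mul_le_mul_right _ hq1)
  have hq0P2 : q0 * P ≤ 4 * n := by
    calc q0 * P ≤ 2 * y * P := Nat.mul_le_mul_right _ hq2
      _ = 2 * (y * P) := by ring
      _ ≤ 2 * (2 * n) := Nat.mul_le_mul_left _ hy1
      _ = 4 * n := by ring
  have hq0lt : q0 < 2 ^ (8 * d + 9) := by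
    have h1 : q0 * 2 ^ (2 * d ^ 2 + d) < 2 ^ (8 * d + 9) * 2 ^ (2 * d ^ 2 + d) := by
      calc q0 * 2 ^ (2 * d ^ 2 + d) ≤ q0 * P := Nat.mul_le_mul_left _ hP1
        _ ≤ 4 * n := hq0P2
        _ < 4 * 2 ^ (k + 1) := by omega
        _ = 2 ^ (k + 3) := by ring
        _ ≤ 2 ^ (8 * d + 9 + (2 * d ^ 2 + d)) := by
            apply Nat.pow_le_pow_right (by norm_num)
            nlinarith
        _ = 2 ^ (8 * d + 9) * 2 ^ (2 * d ^ 2 + d) := by rw [pow_add]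
    exact Nat.lt_of_mul_lt_mul_right h1
  have hmono : ∀ a b : ℕ, a ≤ b → 2 ^ a ≤ 2 ^ b := fun a b h =>
    Nat.pow_le_pow_right (by norm_num) h
  -- bounds for the individual primes
  have hbig : ∀ i : ℕ, i < 2 * d + 1 → r i ≤ 2 ^ (2 * d + 1) := fun i hi =>
    (hr2 i).trans (hmono _ _ (by omega))
  have hlt : ∀ i j : ℕ, i < j → r i < r j := fun i j hij =>
    lt_of_le_of_lt ((hr2 i).trans (hmono _ _ (by omega))) (hr1 j)
  have hinj : ∀ i j : ℕ, r i = r j → i = j := by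
    intro i j h
    rcases lt_trichotomy i j with h1 | h1 | h1
    · exact absurd h (hlt i j h1).ne
    · exact h1
    · exact absurd h.symm (hlt j i h1).ne
  have h8 : 8 ≤ 2 ^ (2 * d + 1) := by
    calc 8 = 2 ^ 3 := by norm_num
      _ ≤ 2 ^ (2 * d + 1) := hmono _ _ (by omega)
  refine ⟨d, 8 * d + 9, fun g => r (2 * (g : ℕ) + 1), fun g => r (2 * (g : ℕ) + 2), q0, hd1,
    ?_, by omega, ?_, ?_, ?_⟩
  · refine ⟨fun g => hr _, fun g => hr _, hq0, fun g => ?_, fun g => ?_, fun g => ?_, fun g => ?_,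
      hq0lt, by omega, fun g h hgh => ?_, fun g h hgh => ?_, fun g h hgh => ?_, fun g => ?_⟩
    · have h1 := hr1 (2 * (g : ℕ) + 1)
      have h2 : 2 ^ 1 ≤ 2 ^ (2 * (g : ℕ) + 1) := hmono _ _ (by omega)
      omega
    · exact (hlt _ _ (by omega)).le
    · have h1 := hr1 (2 * (g : ℕ) + 1)
      have h2 := hr2 (2 * (g : ℕ) + 2)
      have h3 : 2 ^ (2 * (g : ℕ) + 2 + 1) = 4 * 2 ^ (2 * (g : ℕ) + 1) := by ring
      omega
    · have h1 := hbig (2 * (g : ℕ) + 2) (by have := g.2; omega)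
      have h2 : 2 ^ (2 * d + 1) < 2 ^ (8 * d + 9) := Nat.pow_lt_pow_right (by norm_num) (by omega)
      omega
    · have := hinj _ _ hgh
      exact Fin.ext (by omega)
    · have := hinj _ _ hgh
      exact Fin.ext (by omega)
    · have := hinj _ _ hgh
      omega
    · have h1 := hbig (2 * (g : ℕ) + 2) (by have := g.2; omega)
      have h2 := hbig (2 * (g : ℕ) + 1) (by have := g.2; omega)
      constructor <;> omega
  · calc d ^ 2 ≤ 2 * d ^ 2 + 5 * d := by nlinarith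
      _ ≤ k := hd2
      _ = Nat.log 2 n := hk
  · rw [Fin.prod_univ_eq_prod_range (fun i => r (2 * i + 1) * r (2 * i + 2)) d, ← hP]
    exact hq0P1
  · rw [Fin.prod_univ_eq_prod_range (fun i => r (2 * i + 1) * r (2 * i + 2)) d, ← hP]
    omega

end DFTC
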