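import Mathlib
import Crest.Agent.DFT.Defs

/-!
S0501 Part E (helper15): the pure real analysis of the recursion for Kronecker powers of stars.
-/

set_option autoImplicit false

namespace DFTC

namespace RecA

open Finset

/-- `∑_j C(k,j) U^(k-j) V^j = (U+V)^k`. -/
lemma binom_sum (U V : ℝ) (k : ℕ) :
    ∑ j ∈ range (k + 1), (k.choose j : ℝ) * U ^ (k - j) * V ^ j = (U + V) ^ k := by
  rw [add_comm U V, add_pow]
  refine Finset.sum_congr rfl fun j _ => ?_
  ring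

/-- `(U+V) * ∑_j C(k,j) U^(k-j) V^j j = k V (U+V)^k`. -/
lemma binom_mean (U V : ℝ) (k : ℕ) :
    (U + V) * ∑ j ∈ range (k + 1), (k.choose j : ℝ) * U ^ (k - j) * V ^ j * j =
      k * V * (U + V) ^ k := by
  rcases k with _ | k
  · simp
  rw [Finset.sum_range_succ']
  have h : ∀ j ∈ range (k + 1),
      ((k + 1).choose (j + 1) : ℝ) * U ^ (k + 1 - (j + 1)) * V ^ (j + 1) * ((j + 1 : ℕ) : ℝ) =
        ((k + 1 : ℕ) : ℝ) * V * ((k.choose j : ℝ) * U ^ (k - j) * V ^ j) := by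
    intro j _
    have h1 : ((k + 1 : ℕ) : ℝ) * (k.choose j : ℝ) =
        ((k + 1).choose (j + 1) : ℝ) * ((j + 1 : ℕ) : ℝ) := by
      exact_mod_cast Nat.add_one_mul_choose_eq k j
    have h2 : k + 1 - (j + 1) = k - j := by omega
    rw [h2]
    calc ((k + 1).choose (j + 1) : ℝ) * U ^ (k - j) * V ^ (j + 1) * ((j + 1 : ℕ) : ℝ)
        = (((k + 1).choose (j + 1) : ℝ) * ((j + 1 : ℕ) : ℝ)) * (U ^ (k - j) * V ^ (j + 1)) := by
          ring
      _ = _ := by rw [← h1]; ring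
  rw [Finset.sum_congr rfl h, ← Finset.mul_sum, binom_sum]
  simp only [Nat.cast_zero, mul_zero, add_zero]
  ring

/-- Jensen for the binomial weights. -/
lemma jensen (U V θ : ℝ) (hU : 0 ≤ U) (hV : 0 < V) (hθ0 : 0 ≤ θ) (hθ1 : θ ≤ 1) (k : ℕ) :
    ∑ j ∈ range (k + 1), (k.choose j : ℝ) * U ^ (k - j) * V ^ j * (j : ℝ) ^ θ ≤
      (U + V) ^ k * ((k : ℝ) * (V / (U + V))) ^ θ := by
  have hUV : 0 < U + V := by linarith
  have hc := Real.concaveOn_rpow hθ0 hθ1
  set w : ℕ → ℝ := fun j => (k.choose j : ℝ) * U ^ (k - j) * V ^ j / (U + V) ^ k with hw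
  have hpow : 0 < (U + V) ^ k := by positivity
  have hw0 : ∀ j ∈ range (k + 1), 0 ≤ w j := by
    intro j _
    simp only [hw]
    positivity
  have hw1 : ∑ j ∈ range (k + 1), w j = 1 := by
    simp only [hw]
    rw [← Finset.sum_div, binom_sum, div_self hpow.ne']
  have hmem : ∀ j ∈ range (k + 1), (j : ℝ) ∈ Set.Ici (0 : ℝ) := by
    intro j _
    simp
  have key := hc.le_map_sum hw0 hw1 hmem
  have hmean : ∑ j ∈ range (k + 1), w j • (j : ℝ) = (k : ℝ) * (V / (U + V)) := by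
    have h := binom_mean U V k
    simp only [hw, smul_eq_mul]
    have : ∀ j ∈ range (k + 1), (k.choose j : ℝ) * U ^ (k - j) * V ^ j / (U + V) ^ k * (j : ℝ) =
        ((k.choose j : ℝ) * U ^ (k - j) * V ^ j * (j : ℝ)) / (U + V) ^ k := by
      intro j _; ring
    rw [Finset.sum_congr rfl this, ← Finset.sum_div]
    rw [div_eq_iff hpow.ne']
    have h2 : (U + V) * ∑ j ∈ range (k + 1), (k.choose j : ℝ) * U ^ (k - j) * V ^ j * (j : ℝ) =
      (U + V) * ((k : ℝ) * (V / (U + V)) * (U + V) ^ k) := by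
      rw [h]; field_simp
    exact mul_left_cancel₀ hUV.ne' h2
  rw [hmean] at key
  have hL : ∑ j ∈ range (k + 1), (k.choose j : ℝ) * U ^ (k - j) * V ^ j * (j : ℝ) ^ θ =
      (U + V) ^ k * ∑ j ∈ range (k + 1), w j • (j : ℝ) ^ θ := by
    rw [Finset.mul_sum]
    refine Finset.sum_congr rfl fun j _ => ?_
    simp only [hw, smul_eq_mul]
    field_simp
  rw [hL]
  exact mul_le_mul_of_nonneg_left key hpow.le

/-- loss from the exponent -/
lemma pow_th (x : ℝ) (hx : 0 < x) (h1 : 1 ≤ 2 ^ 40 * x) : x ^ th1 ≤ x * (1 + 1 / 10 ^ 8) := by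
  have e1 : x ^ th1 = x * (x⁻¹) ^ ((1 : ℝ) / 10 ^ 10) := by
    rw [th1, sub_eq_add_neg, Real.rpow_add hx, Real.rpow_one, Real.rpow_neg hx.le,
      Real.inv_rpow hx.le]
  rw [e1]
  refine mul_le_mul_of_nonneg_left ?_ hx.le
  have h2 : x⁻¹ ≤ 2 ^ (40 : ℕ) := by
    rw [inv_le_iff_one_le_mul₀ hx]
    exact h1
  calc (x⁻¹) ^ ((1 : ℝ) / 10 ^ 10) ≤ ((2 : ℝ) ^ (40 : ℕ)) ^ ((1 : ℝ) / 10 ^ 10) :=
        Real.rpow_le_rpow (by positivity) h2 (by positivity)
    _ = (1 + 1 : ℝ) ^ ((40 : ℝ) / 10 ^ 10) := by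
        rw [← Real.rpow_natCast, ← Real.rpow_mul (by norm_num)]
        norm_num
    _ ≤ 1 + (40 : ℝ) / 10 ^ 10 * 1 :=
        rpow_one_add_le_one_add_mul_self (by norm_num) (by norm_num) (by norm_num)
    _ ≤ 1 + 1 / 10 ^ 8 := by norm_num

lemma th1_nonneg : (0 : ℝ) ≤ th1 := by rw [th1]; norm_num
lemma th1_pos : (0 : ℝ) < th1 := by rw [th1]; norm_num
lemma th1_le : th1 ≤ (1 : ℝ) := by rw [th1]; norm_num

/-- the potential -/
noncomputable def phi (l : ℕ) : ℝ := 2 ^ l * (1 - l / 1000) / (2 ^ l + 1)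

lemma phi_ge (l : ℕ) (hl : l ≤ 12) : 49 / 100 ≤ phi l := by
  rw [phi, le_div_iff₀ (by positivity)]
  have h1 : (1 : ℝ) ≤ 2 ^ l := one_le_pow₀ (by norm_num)
  have h2 : (l : ℝ) ≤ 12 := by exact_mod_cast hl
  have h3 : (988 / 1000 : ℝ) ≤ 1 - l / 1000 := by linarith
  have h4 : 2 ^ l * (988 / 1000 : ℝ) ≤ 2 ^ l * (1 - l / 1000) :=
    mul_le_mul_of_nonneg_left h3 (by positivity)
  linarith

/-- one doubling step -/
lemma double_step (F : ℕ → ℕ → ℕ) (K : ℝ) (hK : 0 ≤ K) (l m : ℕ) (hl : l < 12)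
    (h1 : F (2 ^ l) (2 * m) ≤ 2 * 2 ^ l * (∑ j ∈ range (m + 1),
        m.choose j * ((2 ^ l + 1) * 2 ^ l) ^ (m - j) * F (2 ^ l) j) +
        ∑ j ∈ range (m + 1), m.choose j * ((2 ^ l) ^ 2) ^ (m - j) * F (2 ^ (l + 1)) j)
    (hA : ∀ j ≤ m, (F (2 ^ l) j : ℝ) ≤ K * phi l * (2 ^ l + 1) ^ j * (j : ℝ) ^ th1)
    (hB : ∀ j ≤ m, (F (2 ^ (l + 1)) j : ℝ) ≤
      K * phi (l + 1) * (2 ^ (l + 1) + 1) ^ j * (j : ℝ) ^ th1) :
    (F (2 ^ l) (2 * m) : ℝ) ≤
      K * phi l * (2 ^ l + 1) ^ (2 * m) * (((2 * m : ℕ) : ℝ)) ^ th1 * (1 - 4 / 10 ^ 7) := by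
  set a : ℝ := 2 ^ l with ha
  have ha1 : (1 : ℝ) ≤ a := one_le_pow₀ (by norm_num)
  have ha2 : a ≤ 2 ^ 11 := pow_le_pow_right₀ (by norm_num) (by omega)
  have ha0 : 0 < a := by linarith
  -- cast the recursion
  have h1' : (F (2 ^ l) (2 * m) : ℝ) ≤ 2 * a * (∑ j ∈ range (m + 1),
        (m.choose j : ℝ) * ((a + 1) * a) ^ (m - j) * (F (2 ^ l) j : ℝ)) +
        ∑ j ∈ range (m + 1), (m.choose j : ℝ) * (a ^ 2) ^ (m - j) *
          (F (2 ^ (l + 1)) j : ℝ) := by
    have := (Nat.cast_le (α := ℝ)).mpr h1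
    push_cast at this
    simpa [ha] using this
  -- first sum
  have S1 : ∑ j ∈ range (m + 1),
        (m.choose j : ℝ) * ((a + 1) * a) ^ (m - j) * (F (2 ^ l) j : ℝ) ≤
      K * phi l * ((a + 1) ^ (2 * m) * ((m : ℝ) * ((a + 1) / ((a + 1) * a + (a + 1)))) ^ th1) := by
    have hJ := jensen ((a + 1) * a) (a + 1) th1 (by positivity) (by positivity) th1_nonneg th1_le m
    calc ∑ j ∈ range (m + 1), (m.choose j : ℝ) * ((a + 1) * a) ^ (m - j) * (F (2 ^ l) j : ℝ)
        ≤ ∑ j ∈ range (m + 1), (m.choose j : ℝ) * ((a + 1) * a) ^ (m - j) *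
            (K * phi l * (a + 1) ^ j * (j : ℝ) ^ th1) := by
          refine Finset.sum_le_sum fun j hj => ?_
          refine mul_le_mul_of_nonneg_left (hA j ?_) (by positivity)
          have := Finset.mem_range.mp hj
          omega
      _ = K * phi l * ∑ j ∈ range (m + 1), (m.choose j : ℝ) * ((a + 1) * a) ^ (m - j) *
            (a + 1) ^ j * (j : ℝ) ^ th1 := by
          rw [Finset.mul_sum]
          refine Finset.sum_congr rfl fun j _ => ?_
          ring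
      _ ≤ K * phi l * (((a + 1) * a + (a + 1)) ^ m *
            ((m : ℝ) * ((a + 1) / ((a + 1) * a + (a + 1)))) ^ th1) :=
          mul_le_mul_of_nonneg_left hJ (mul_nonneg hK (by linarith [phi_ge l hl.le]))
      _ = _ := by
          have : ((a + 1) * a + (a + 1)) ^ m = (a + 1) ^ (2 * m) := by
            rw [pow_mul]; congr 1; ring
          rw [this]
  have S2 : ∑ j ∈ range (m + 1),
        (m.choose j : ℝ) * (a ^ 2) ^ (m - j) * (F (2 ^ (l + 1)) j : ℝ) ≤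
      K * phi (l + 1) *
        ((a + 1) ^ (2 * m) * ((m : ℝ) * ((2 * a + 1) / (a ^ 2 + (2 * a + 1)))) ^ th1) := by
    have hJ := jensen (a ^ 2) (2 * a + 1) th1 (by positivity) (by positivity) th1_nonneg th1_le m
    calc ∑ j ∈ range (m + 1), (m.choose j : ℝ) * (a ^ 2) ^ (m - j) * (F (2 ^ (l + 1)) j : ℝ)
        ≤ ∑ j ∈ range (m + 1), (m.choose j : ℝ) * (a ^ 2) ^ (m - j) *
            (K * phi (l + 1) * (2 * a + 1) ^ j * (j : ℝ) ^ th1) := by
          refine Finset.sum_le_sum fun j hj => ?_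
          refine mul_le_mul_of_nonneg_left ?_ (by positivity)
          have h := hB j (by have := Finset.mem_range.mp hj; omega)
          have e : (2 : ℝ) ^ (l + 1) = 2 * a := by rw [pow_succ, ← ha, mul_comm]
          rw [e] at h
          exact h
      _ = K * phi (l + 1) * ∑ j ∈ range (m + 1), (m.choose j : ℝ) * (a ^ 2) ^ (m - j) *
            (2 * a + 1) ^ j * (j : ℝ) ^ th1 := by
          rw [Finset.mul_sum]
          refine Finset.sum_congr rfl fun j _ => ?_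
          ring
      _ ≤ K * phi (l + 1) * ((a ^ 2 + (2 * a + 1)) ^ m *
            ((m : ℝ) * ((2 * a + 1) / (a ^ 2 + (2 * a + 1)))) ^ th1) :=
          mul_le_mul_of_nonneg_left hJ (mul_nonneg hK (by linarith [phi_ge (l + 1) (by omega)]))
      _ = _ := by
          have : (a ^ 2 + (2 * a + 1)) ^ m = (a + 1) ^ (2 * m) := by
            rw [pow_mul]; congr 1; ring
          rw [this]
  -- the powers
  have P1 : ((m : ℝ) * ((a + 1) / ((a + 1) * a + (a + 1)))) ^ th1 ≤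
      (((2 * m : ℕ) : ℝ)) ^ th1 * (1 / (2 * (a + 1)) * (1 + 1 / 10 ^ 8)) := by
    have e : (m : ℝ) * ((a + 1) / ((a + 1) * a + (a + 1))) =
        ((2 * m : ℕ) : ℝ) * (1 / (2 * (a + 1))) := by
      push_cast
      field_simp
    rw [e, Real.mul_rpow (by positivity) (by positivity)]
    refine mul_le_mul_of_nonneg_left (pow_th _ (by positivity) ?_) (by positivity)
    rw [← mul_div_assoc, le_div_iff₀ (by positivity)]
    norm_num at ha2 ⊢
    linarith
  have P2 : ((m : ℝ) * ((2 * a + 1) / (a ^ 2 + (2 * a + 1)))) ^ th1 ≤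
      (((2 * m : ℕ) : ℝ)) ^ th1 * ((2 * a + 1) / (2 * (a + 1) ^ 2) * (1 + 1 / 10 ^ 8)) := by
    have e : (m : ℝ) * ((2 * a + 1) / (a ^ 2 + (2 * a + 1))) =
        ((2 * m : ℕ) : ℝ) * ((2 * a + 1) / (2 * (a + 1) ^ 2)) := by
      push_cast
      field_simp
      ring
    rw [e, Real.mul_rpow (by positivity) (by positivity)]
    refine mul_le_mul_of_nonneg_left (pow_th _ (by positivity) ?_) (by positivity)
    rw [← mul_div_assoc, le_div_iff₀ (by positivity)]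
    norm_num at ha2 ⊢
    nlinarith
  -- assemble
  have hc : (12 : ℝ) ≥ l + 1 := by exact_mod_cast hl
  have hl0 : (0 : ℝ) ≤ l := by positivity
  have hphi : phi l = a * (1 - l / 1000) / (a + 1) := rfl
  have hphi1 : phi (l + 1) = 2 * a * (1 - (l + 1) / 1000) / (2 * a + 1) := by
    rw [phi, pow_succ, ← ha]
    push_cast
    ring
  have hnum : a * phi l / (a + 1) + phi (l + 1) * (2 * a + 1) / (2 * (a + 1) ^ 2) ≤
      phi l * (1 - 45 / 10 ^ 8) := by
    have e1 : a * phi l / (a + 1) + phi (l + 1) * (2 * a + 1) / (2 * (a + 1) ^ 2) =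
        a / (a + 1) ^ 2 * ((a + 1) * (1 - l / 1000) - 1 / 1000) := by
      rw [hphi, hphi1]
      field_simp
      ring
    have e2 : phi l * (1 - 45 / 10 ^ 8) =
        a / (a + 1) ^ 2 * ((a + 1) * (1 - l / 1000) * (1 - 45 / 10 ^ 8)) := by
      rw [hphi]
      field_simp
    rw [e1, e2]
    refine mul_le_mul_of_nonneg_left ?_ (by positivity)
    have h3 : (a + 1) * (1 - (l : ℝ) / 1000) ≤ 2049 := by
      norm_num at ha2
      nlinarith
    nlinarith
  set X : ℝ := (((2 * m : ℕ) : ℝ)) ^ th1 with hX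
  have hX0 : 0 ≤ X := by positivity
  have hphi0 : 0 ≤ phi l := by linarith [phi_ge l hl.le]
  have hphi10 : 0 ≤ phi (l + 1) := by linarith [phi_ge (l + 1) (by omega)]
  calc (F (2 ^ l) (2 * m) : ℝ)
      ≤ 2 * a * (K * phi l * ((a + 1) ^ (2 * m) *
            (X * (1 / (2 * (a + 1)) * (1 + 1 / 10 ^ 8))))) +
          K * phi (l + 1) * ((a + 1) ^ (2 * m) *
            (X * ((2 * a + 1) / (2 * (a + 1) ^ 2) * (1 + 1 / 10 ^ 8)))) := by
        refine h1'.trans (add_le_add ?_ ?_)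
        · refine mul_le_mul_of_nonneg_left (S1.trans ?_) (by positivity)
          exact mul_le_mul_of_nonneg_left
            (mul_le_mul_of_nonneg_left P1 (by positivity)) (mul_nonneg hK hphi0)
        · refine S2.trans ?_
          exact mul_le_mul_of_nonneg_left
            (mul_le_mul_of_nonneg_left P2 (by positivity)) (mul_nonneg hK hphi10)
    _ = K * (a + 1) ^ (2 * m) * X * (1 + 1 / 10 ^ 8) *
          (a * phi l / (a + 1) + phi (l + 1) * (2 * a + 1) / (2 * (a + 1) ^ 2)) := by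
        field_simp
    _ ≤ K * (a + 1) ^ (2 * m) * X * (1 + 1 / 10 ^ 8) * (phi l * (1 - 45 / 10 ^ 8)) :=
        mul_le_mul_of_nonneg_left hnum (by positivity)
    _ = K * phi l * (a + 1) ^ (2 * m) * X * ((1 + 1 / 10 ^ 8) * (1 - 45 / 10 ^ 8)) := by ring
    _ ≤ K * phi l * (a + 1) ^ (2 * m) * X * (1 - 4 / 10 ^ 7) :=
        mul_le_mul_of_nonneg_left (by norm_num) (by positivity)

/-- the tripling step -/
lemma triple_step (F : ℕ → ℕ → ℕ) (K : ℝ) (hK : 10 ^ 20 ≤ K) (T m : ℕ) (hm : 1 ≤ m)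
    (h2 : F 4096 (3 * m) ≤
      T * ∑ j ∈ range (m + 1), m.choose j * ((4096 + 1) ^ 3 - 2) ^ (m - j) * (F 1 j + 2 * 2 ^ j))
    (hT : 16 * T + 4096 ^ 3 ≤ 48 * 4096 * (4096 + 1) ^ 2 + 640 * 4096 ^ 2)
    (hA : ∀ j ≤ m, (F 1 j : ℝ) ≤ K * phi 0 * 2 ^ j * (j : ℝ) ^ th1) :
    (F 4096 (3 * m) : ℝ) ≤
      K * phi 12 * 4097 ^ (3 * m) * (((3 * m : ℕ) : ℝ)) ^ th1 * (1 - 4 / 10 ^ 7) := by
  have hK0 : 0 < K := by linarith [show (0 : ℝ) < 10 ^ 20 by norm_num]
  obtain ⟨M, hM⟩ : ∃ M : ℝ, M = 68769820671 := ⟨_, rfl⟩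
  have hM0 : 0 < M := by rw [hM]; norm_num
  have h2' : (F 4096 (3 * m) : ℝ) ≤ T * ∑ j ∈ range (m + 1),
      (m.choose j : ℝ) * M ^ (m - j) * ((F 1 j : ℝ) + 2 * 2 ^ j) := by
    have := (Nat.cast_le (α := ℝ)).mpr h2
    push_cast at this
    rw [hM]
    exact this
  have hphi0 : phi 0 = 1 / 2 := by rw [phi]; norm_num
  have hphi12 : phi 12 = 4096 * (1 - 12 / 1000) / 4097 := by rw [phi]; norm_num
  have S : ∑ j ∈ range (m + 1),
      (m.choose j : ℝ) * M ^ (m - j) * ((F 1 j : ℝ) + 2 * 2 ^ j) ≤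
      K * phi 0 * ((M + 2) ^ m * ((m : ℝ) * (2 / (M + 2))) ^ th1) +
        2 * (M + 2) ^ m := by
    have hJ := jensen M 2 th1 hM0.le (by norm_num) th1_nonneg th1_le m
    have hB := binom_sum M 2 m
    calc ∑ j ∈ range (m + 1),
          (m.choose j : ℝ) * M ^ (m - j) * ((F 1 j : ℝ) + 2 * 2 ^ j)
        ≤ ∑ j ∈ range (m + 1), (m.choose j : ℝ) * M ^ (m - j) *
            (K * phi 0 * 2 ^ j * (j : ℝ) ^ th1 + 2 * 2 ^ j) := by
          refine Finset.sum_le_sum fun j hj => ?_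
          refine mul_le_mul_of_nonneg_left ?_ (by positivity)
          have := hA j (by have := Finset.mem_range.mp hj; omega)
          linarith
      _ = K * phi 0 * (∑ j ∈ range (m + 1), (m.choose j : ℝ) * M ^ (m - j) *
            2 ^ j * (j : ℝ) ^ th1) + 2 * ∑ j ∈ range (m + 1),
            (m.choose j : ℝ) * M ^ (m - j) * 2 ^ j := by
          rw [Finset.mul_sum, Finset.mul_sum, ← Finset.sum_add_distrib]
          refine Finset.sum_congr rfl fun j _ => ?_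
          ring
      _ ≤ _ := by
          rw [hB]
          have := mul_le_mul_of_nonneg_left hJ
            (show (0 : ℝ) ≤ K * phi 0 by rw [hphi0]; positivity)
          linarith
  have P : ((m : ℝ) * (2 / (M + 2))) ^ th1 ≤
      (((3 * m : ℕ) : ℝ)) ^ th1 * (2 / (3 * (M + 2)) * (1 + 1 / 10 ^ 8)) := by
    have e : (m : ℝ) * (2 / (M + 2)) = ((3 * m : ℕ) : ℝ) * (2 / (3 * (M + 2))) := by
      push_cast
      field_simp
    rw [e, Real.mul_rpow (by positivity) (by positivity)]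
    exact mul_le_mul_of_nonneg_left (pow_th _ (by positivity) (by rw [hM]; norm_num))
      (by positivity)
  obtain ⟨Tm, hTm⟩ : ∃ Tm : ℝ,
    Tm = (48 * 4096 * (4096 + 1) ^ 2 + 640 * 4096 ^ 2 - 4096 ^ 3) / 16 := ⟨_, rfl⟩
  have hTR : (T : ℝ) ≤ Tm := by
    have : (16 * (T : ℝ) + 4096 ^ 3) ≤ 48 * 4096 * (4096 + 1) ^ 2 + 640 * 4096 ^ 2 := by
      exact_mod_cast hT
    rw [hTm]
    linarith
  have hTM : Tm * (1 / (3 * (M + 2)) * (1 + 1 / 10 ^ 8) + 2 / 10 ^ 20) ≤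
      phi 12 * (1 - 4 / 10 ^ 7) := by
    rw [hphi12, hTm, hM]
    norm_num
  have e4 : (4097 : ℝ) ^ (3 * m) = (M + 2) ^ m := by
    rw [pow_mul, hM]; norm_num
  rw [e4]
  have hT0 : 0 ≤ Tm := by rw [hTm]; norm_num
  clear hT h2 hTm hM e4 hA hphi12
  set X : ℝ := (((3 * m : ℕ) : ℝ)) ^ th1 with hX
  have hX1 : 1 ≤ X := by
    refine Real.one_le_rpow ?_ th1_nonneg
    have : 1 ≤ 3 * m := by omega
    exact_mod_cast this
  generalize hεdef : (1 : ℝ) + 1 / 10 ^ 8 = ε at P hTM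
  have hε0 : 0 < ε := by rw [← hεdef]; norm_num
  have h9 : (2 : ℝ) ≤ K * X * (2 / 10 ^ 20) := by
    have : (10 : ℝ) ^ 20 ≤ K * X := by nlinarith
    linarith
  generalize (4 : ℝ) / 10 ^ 7 = δ at hTM ⊢
  generalize hρdef : (2 : ℝ) / 10 ^ 20 = ρ at hTM h9
  have hρ0 : 0 < ρ := by rw [← hρdef]; norm_num
  calc (F 4096 (3 * m) : ℝ)
      ≤ T * (K * phi 0 * ((M + 2) ^ m * (X * (2 / (3 * (M + 2)) * ε))) +
        2 * (M + 2) ^ m) := by
        refine h2'.trans (mul_le_mul_of_nonneg_left (S.trans ?_) (by positivity))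
        have := mul_le_mul_of_nonneg_left P
          (show (0 : ℝ) ≤ K * phi 0 * (M + 2) ^ m by rw [hphi0]; positivity)
        nlinarith
    _ = (M + 2) ^ m * (T * (K * X * (1 / (3 * (M + 2)) * ε) + 2)) := by
        rw [hphi0]; ring
    _ ≤ (M + 2) ^ m * (T * (K * X * (1 / (3 * (M + 2)) * ε) + K * X * ρ)) := by
        refine mul_le_mul_of_nonneg_left ?_ (by positivity)
        exact mul_le_mul_of_nonneg_left (by linarith) (by positivity)
    _ = (M + 2) ^ m * (K * X) * (T * (1 / (3 * (M + 2)) * ε + ρ)) := by ring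
    _ ≤ (M + 2) ^ m * (K * X) * (Tm * (1 / (3 * (M + 2)) * ε + ρ)) := by
        refine mul_le_mul_of_nonneg_left ?_ (by positivity)
        exact mul_le_mul_of_nonneg_right hTR (by positivity)
    _ ≤ (M + 2) ^ m * (K * X) * (phi 12 * (1 - δ)) := by
        exact mul_le_mul_of_nonneg_left hTM (by positivity)
    _ = _ := by ring

/-- absorb at most two further steps -/
lemma add_step (f : ℕ → ℕ) (a : ℕ) (C : ℝ) (hC : 10 ^ 8 ≤ C) (k r : ℕ) (hk : 1 ≤ k) (hr : r ≤ 2)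
    (h3 : ∀ k, f (k + 1) ≤ (a + 1) * f k + a * (a + 1) ^ k)
    (h : (f k : ℝ) ≤ C * (a + 1) ^ k * (k : ℝ) ^ th1 * (1 - 4 / 10 ^ 7)) :
    (f (k + r) : ℝ) ≤ C * (a + 1) ^ (k + r) * (((k + r : ℕ) : ℝ)) ^ th1 := by
  have h3' : ∀ k, (f (k + 1) : ℝ) ≤ (a + 1) * f k + (a + 1) ^ (k + 1) := by
    intro k
    have h := (Nat.cast_le (α := ℝ)).mpr (h3 k)
    push_cast at h
    have : (a : ℝ) * (a + 1) ^ k ≤ (a + 1) ^ (k + 1) := by
      rw [pow_succ, mul_comm]
      exact mul_le_mul_of_nonneg_left (by linarith) (by positivity)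
    linarith
  have hb : ∀ r : ℕ, (f (k + r) : ℝ) ≤ (a + 1) ^ (k + r) * ((f k : ℝ) / (a + 1) ^ k + r) := by
    intro r
    induction r with
    | zero =>
      simp only [Nat.cast_zero, add_zero]
      rw [mul_div_cancel₀]
      positivity
    | succ r ih =>
      have h := h3' (k + r)
      have h4 : (a + 1 : ℝ) * f (k + r) ≤
          (a + 1) * ((a + 1) ^ (k + r) * ((f k : ℝ) / (a + 1) ^ k + r)) :=
        mul_le_mul_of_nonneg_left ih (by positivity)
      have e : ((a : ℝ) + 1) ^ (k + (r + 1)) * ((f k : ℝ) / (a + 1) ^ k + ((r + 1 : ℕ) : ℝ)) =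
          (a + 1) * ((a + 1) ^ (k + r) * ((f k : ℝ) / (a + 1) ^ k + r)) + (a + 1) ^ (k + r + 1) := by
        push_cast
        ring
      rw [e]
      have e2 : k + (r + 1) = k + r + 1 := by ring
      rw [e2]
      linarith
  have hX1 : 1 ≤ (k : ℝ) ^ th1 := Real.one_le_rpow (by exact_mod_cast hk) th1_nonneg
  have hXr : (k : ℝ) ^ th1 ≤ (((k + r : ℕ) : ℝ)) ^ th1 :=
    Real.rpow_le_rpow (by positivity) (by push_cast; linarith [show (0:ℝ) ≤ r by positivity])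
      th1_nonneg
  refine (hb r).trans ?_
  have h5 : (f k : ℝ) / (a + 1) ^ k ≤ C * (k : ℝ) ^ th1 * (1 - 4 / 10 ^ 7) := by
    rw [div_le_iff₀ (by positivity)]
    refine h.trans (le_of_eq ?_)
    ring
  have h6 : (r : ℝ) ≤ 2 := by exact_mod_cast hr
  have h7 : (2 : ℝ) ≤ C * (k : ℝ) ^ th1 * (4 / 10 ^ 7) := by nlinarith
  have h8 : (f k : ℝ) / (a + 1) ^ k + r ≤ C * (((k + r : ℕ) : ℝ)) ^ th1 := by
    have : C * (k : ℝ) ^ th1 ≤ C * (((k + r : ℕ) : ℝ)) ^ th1 :=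
      mul_le_mul_of_nonneg_left hXr (by linarith [show (0 : ℝ) < 10 ^ 8 by norm_num])
    linarith
  calc ((a : ℝ) + 1) ^ (k + r) * ((f k : ℝ) / (a + 1) ^ k + r)
      ≤ (a + 1) ^ (k + r) * (C * (((k + r : ℕ) : ℝ)) ^ th1) :=
        mul_le_mul_of_nonneg_left h8 (by positivity)
    _ = _ := by ring

/-- the trivial bound for `k ≤ 2` -/
lemma small_step (f : ℕ → ℕ) (a : ℕ) (C : ℝ) (hC : 10 ^ 8 ≤ C) (k : ℕ) (hk : k ≤ 2)
    (h0 : f 0 = 0)
    (h3 : ∀ k, f (k + 1) ≤ (a + 1) * f k + a * (a + 1) ^ k) :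
    (f k : ℝ) ≤ C * (a + 1) ^ k * (k : ℝ) ^ th1 := by
  have hC0 : (2 : ℝ) ≤ C := by linarith [show (2 : ℝ) ≤ 10 ^ 8 by norm_num]
  have ha : (0 : ℝ) ≤ a := by positivity
  interval_cases k
  · rw [h0]
    simp only [Nat.cast_zero]
    positivity
  · have h := h3 0
    rw [h0] at h
    have h' : (f 1 : ℝ) ≤ a := by
      have := (Nat.cast_le (α := ℝ)).mpr h
      push_cast at this
      simpa using this
    simp only [Nat.cast_one, Real.one_rpow, pow_one, mul_one]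
    nlinarith
  · have h := h3 0
    rw [h0] at h
    have h' : (f 1 : ℝ) ≤ a := by
      have := (Nat.cast_le (α := ℝ)).mpr h
      push_cast at this
      simpa using this
    have hh := h3 1
    have h'' : (f 2 : ℝ) ≤ (a + 1) * f 1 + a * (a + 1) := by
      have := (Nat.cast_le (α := ℝ)).mpr hh
      push_cast at this
      simpa using this
    have h4 : (1 : ℝ) ≤ ((2 : ℕ) : ℝ) ^ th1 := Real.one_le_rpow (by norm_num) th1_nonneg
    have h5 : (f 2 : ℝ) ≤ 2 * (a + 1) ^ 2 := by nlinarith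
    calc (f 2 : ℝ) ≤ 2 * (a + 1) ^ 2 := h5
      _ ≤ C * (a + 1) ^ 2 := mul_le_mul_of_nonneg_right hC0 (by positivity)
      _ = C * (a + 1) ^ 2 * 1 := by ring
      _ ≤ _ := mul_le_mul_of_nonneg_left h4 (by positivity)

end RecA

open Finset RecA in
theorem rec_analysis (F : ℕ → ℕ → ℕ) (T n : ℕ) (hn : n = 4096) (h0 : ∀ a, F a 0 = 0)
    (h1 : ∀ a k, F a (2 * k) ≤
      2 * a * (∑ j ∈ range (k + 1), k.choose j * ((a + 1) * a) ^ (k - j) * F a j) +
        ∑ j ∈ range (k + 1), k.choose j * (a ^ 2) ^ (k - j) * F (2 * a) j)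
    (h2 : ∀ k, F n (3 * k) ≤
      T * ∑ j ∈ range (k + 1), k.choose j * ((n + 1) ^ 3 - 2) ^ (k - j) * (F 1 j + 2 * 2 ^ j))
    (h3 : ∀ a k, F a (k + 1) ≤ (a + 1) * F a k + a * (a + 1) ^ k)
    (hT : 16 * T + n ^ 3 ≤ 48 * n * (n + 1) ^ 2 + 640 * n ^ 2) :
    ∃ A : ℝ, 0 < A ∧ ∀ k : ℕ, (F 1 k : ℝ) ≤ A * 2 ^ k * (k : ℝ) ^ th1 := by
  subst hn
  have hK : (10 : ℝ) ^ 20 ≤ 10 ^ 20 := le_rfl
  have main : ∀ k : ℕ, ∀ l ≤ 12, (F (2 ^ l) k : ℝ) ≤
      10 ^ 20 * phi l * (2 ^ l + 1) ^ k * (k : ℝ) ^ th1 := by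
    intro k
    induction k using Nat.strong_induction_on with
    | _ k ih =>
      intro l hl
      have hC : (10 : ℝ) ^ 8 ≤ 10 ^ 20 * phi l := by
        have := phi_ge l hl
        norm_num
        nlinarith
      by_cases hk2 : k ≤ 2
      · have := small_step (F (2 ^ l)) (2 ^ l) (10 ^ 20 * phi l) hC k hk2 (h0 _) (h3 _)
        push_cast at this
        exact this
      push Not at hk2
      rcases Nat.lt_or_ge l 12 with hl12 | hl12
      · -- doubling
        obtain ⟨m, r, hr, hkm⟩ : ∃ m r, r ≤ 1 ∧ k = 2 * m + r :=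
          ⟨k / 2, k % 2, by omega, by omega⟩
        have hm : 1 ≤ m := by omega
        have h1' : F (2 ^ l) (2 * m) ≤ 2 * 2 ^ l * (∑ j ∈ range (m + 1),
            m.choose j * ((2 ^ l + 1) * 2 ^ l) ^ (m - j) * F (2 ^ l) j) +
            ∑ j ∈ range (m + 1), m.choose j * ((2 ^ l) ^ 2) ^ (m - j) * F (2 ^ (l + 1)) j := by
          have e : 2 ^ (l + 1) = 2 * 2 ^ l := by ring
          rw [e]
          exact h1 (2 ^ l) m
        have hd := double_step F (10 ^ 20) (by norm_num) l m hl12 h1'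
          (fun j hj => ih j (by omega) l hl) (fun j hj => ih j (by omega) (l + 1) (by omega))
        have := add_step (F (2 ^ l)) (2 ^ l) (10 ^ 20 * phi l) hC (2 * m) r (by omega) (by omega)
          (h3 _) (by push_cast; exact_mod_cast hd)
        rw [hkm]
        push_cast at this ⊢
        exact this
      · have hl' : l = 12 := by omega
        subst hl'
        obtain ⟨m, r, hr, hkm⟩ : ∃ m r, r ≤ 2 ∧ k = 3 * m + r :=
          ⟨k / 3, k % 3, by omega, by omega⟩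
        have hm : 1 ≤ m := by omega
        have hd := triple_step F (10 ^ 20) hK T m hm (h2 m) hT (fun j hj => by
          have := ih j (by omega) 0 (by omega)
          norm_num at this ⊢
          exact this)
        have e12 : (2 : ℕ) ^ 12 = 4096 := by norm_num
        have := add_step (F (2 ^ 12)) (2 ^ 12) (10 ^ 20 * phi 12) hC (3 * m) r (by omega) hr
          (h3 _) (by
            rw [e12]
            norm_num at hd ⊢
            exact hd)
        rw [hkm]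
        push_cast at this ⊢
        have e13 : (2 : ℝ) ^ 12 = 4096 := by norm_num
        rw [e13]
        exact this
  refine ⟨10 ^ 20, by norm_num, fun k => ?_⟩
  have h := main k 0 (by omega)
  have hphi0 : phi 0 = 1 / 2 := by rw [phi]; norm_num
  rw [hphi0] at h
  norm_num at h ⊢
  refine h.trans ?_
  gcongr
  norm_num

end DFTC
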