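import Crest.Agent.DFT.KronPow
import Crest.Agent.DFT.Kron3

/-!
S0501, Part C: recursion inequalities for the Kronecker powers of the star gates.
-/

set_option autoImplicit false
open Matrix Finset
namespace DFTC

namespace Rec

open Classical in
/-- `x_w += x_{par w}` for all `w` with `dom w`. -/
noncomputable def PM {W : Type*} (dom : W → Prop) (par : W → W) : Matrix W W ℂ :=
  Matrix.of fun x y => (if x = y then 1 else 0) + (if dom x ∧ y = par x then 1 else 0)

open Classical in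
theorem PM_apply {W : Type*} (dom : W → Prop) (par : W → W) (x y : W) :
    PM dom par x y = (if x = y then 1 else 0) + (if dom x ∧ y = par x then 1 else 0) := rfl

open Classical in
theorem PM_mul {W : Type*} [Fintype W] (dom : W → Prop) (par : W → W) (M : Matrix W W ℂ) (x y : W) :
    (PM dom par * M) x y = M x y + (if dom x then M (par x) y else 0) := by
  rw [Matrix.mul_apply]
  simp only [PM_apply, add_mul, Finset.sum_add_distrib]
  congr 1
  · simp [ite_mul]
  · by_cases h : dom x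
    · simp [h, ite_mul]
    · simp [h]

open Classical in
theorem PM_false {W : Type*} [DecidableEq W] (par : W → W) :
    PM (fun _ : W => False) par = 1 := by
  ext x y
  simp [PM_apply, Matrix.one_apply]

theorem CL_pw_one {W : Type*} [Fintype W] [DecidableEq W] (k : ℕ) :
    CL (pw k (1 : Matrix W W ℂ)) 0 := by
  classical
  rw [pw_one]
  exact CL.of_unit_rows fun i => Or.inr ⟨i, by simp, fun k hk => by simp [Ne.symm hk]⟩

/-- an equivalence `Fin (m+1) ≃ {r} ∪ L` sending `0` to `r` -/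
theorem exists_equiv {W : Type*} (r : W) (L : Finset W) (hr : r ∉ L) :
    ∃ e : {w : W // w = r ∨ w ∈ L} ≃ Fin (L.card + 1), e ⟨r, Or.inl rfl⟩ = 0 := by
  classical
  have hfin : Finite {w : W // w = r ∨ w ∈ L} := by
    have : Finite {w : W // w ∈ insert r L} := Finset.finite_toSet (insert r L)
    exact Finite.of_equiv {w : W // w ∈ insert r L}
      (Equiv.subtypeEquivRight (q := fun w => w = r ∨ w ∈ L) fun w => by simp)
  have : Fintype {w : W // w = r ∨ w ∈ L} := Fintype.ofFinite _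
  have hcard : Fintype.card {w : W // w = r ∨ w ∈ L} = L.card + 1 := by
    rw [Fintype.card_of_subtype (insert r L) (by simp)]
    exact Finset.card_insert_of_notMem hr
  let e0 := Fintype.equivFinOfCardEq hcard
  refine ⟨e0.trans (Equiv.swap (e0 ⟨r, Or.inl rfl⟩) 0), ?_⟩
  simp

theorem star_apply (a : ℕ) (i j : Fin (a + 1)) :
    star a i j = if i = j ∨ j = 0 then 1 else 0 := rfl

/-- the `c`-version of the star gate -/
noncomputable def starc (c : ℂ) (a : ℕ) : Matrix (Fin (a + 1)) (Fin (a + 1)) ℂ :=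
  Matrix.of fun i j => (if i = j then 1 else 0) + (if i ≠ 0 ∧ j = 0 then c else 0)

theorem starc_one (a : ℕ) : starc 1 a = star a := by
  ext i j
  simp only [starc, star_apply, Matrix.of_apply]
  by_cases h : i = j
  · subst h
    by_cases h0 : i = 0
    · simp [h0]
    · simp [h0]
  · by_cases h0 : j = 0
    · subst h0
      simp [h]
    · simp [h, h0]

/-- Kronecker powers of one star inside a bigger index set -/
theorem CL_pw_starc {W : Type} [Fintype W] (g : Matrix W W ℂ) (cc : ℂ) (r : W) (L : Finset W)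
    (hr : r ∉ L) (hg1 : ∀ x, g x x = 1) (hg2 : ∀ x ∈ L, g x r = cc)
    (hg3 : ∀ x y, x ≠ y → ¬ (x ∈ L ∧ y = r) → g x y = 0) (k : ℕ)
    (c : ℕ → ℕ) (hc : ∀ j ≤ k, CL (pw j (starc cc L.card)) (c j)) :
    CL (pw k g)
      (∑ j ∈ range (k + 1), k.choose j * (Fintype.card W - (L.card + 1)) ^ (k - j) * c j) := by
  classical
  obtain ⟨e, he⟩ := exists_equiv r L hr
  let U := {w : W // ¬ (w = r ∨ w ∈ L)}
  have hU : Fintype.card U = Fintype.card W - (L.card + 1) := by
    have h1 : Fintype.card U = Fintype.card W - Fintype.card {w : W // w = r ∨ w ∈ L} :=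
      Fintype.card_subtype_compl _
    rw [h1, Fintype.card_congr e, Fintype.card_fin]
  let e1 : W ≃ U ⊕ Fin (L.card + 1) :=
    ((Equiv.sumCompl (fun w : W => w = r ∨ w ∈ L)).symm.trans (Equiv.sumComm _ _)).trans
      (Equiv.sumCongr (Equiv.refl _) e)
  have hl : ∀ u : U, e1.symm (.inl u) = u.1 := fun u => by
    simp [e1]
    rfl
  have hx : ∀ x : Fin (L.card + 1), e1.symm (.inr x) = (e.symm x).1 := fun x => by
    simp [e1]
  have hr0 : ∀ x : Fin (L.card + 1), (e.symm x).1 = r ↔ x = 0 := fun x => by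
    constructor
    · intro h
      have : e.symm x = ⟨r, Or.inl rfl⟩ := Subtype.ext h
      rw [← he, ← this, Equiv.apply_symm_apply]
    · rintro rfl
      rw [← he, Equiv.symm_apply_apply]
  have hmem : ∀ x : Fin (L.card + 1), (e.symm x).1 ∈ L ↔ x ≠ 0 := fun x => by
    rw [Ne, ← hr0 x]
    constructor
    · intro h h'
      exact hr (h' ▸ h)
    · intro h
      exact (e.symm x).2.resolve_left h
  have hinj : ∀ x y : Fin (L.card + 1), (e.symm x).1 = (e.symm y).1 ↔ x = y := fun x y => by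
    constructor
    · intro h
      exact e.symm.injective (Subtype.ext h)
    · rintro rfl; rfl
  rw [← hU]
  refine CL_pw_block e1 _ (starc cc L.card) ?_ ?_ ?_ k c hc
  · intro u
    exact hg1 _
  · intro u w hw
    rw [hl] at hw ⊢
    have h1 : u.1 ∉ L := fun h => u.2 (Or.inr h)
    have h2 : u.1 ≠ r := fun h => u.2 (Or.inl h)
    exact ⟨hg3 _ _ (Ne.symm hw) fun h => h1 h.1, hg3 _ _ hw fun h => h2 h.2⟩
  · intro x x'
    rw [hx, hx]
    simp only [starc, Matrix.of_apply]
    by_cases h : x = x'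
    · subst h
      rw [hg1]
      by_cases h0 : x = 0
      · simp [h0]
      · simp [h0]
    · have h' : (e.symm x).1 ≠ (e.symm x').1 := fun hh => h ((hinj _ _).1 hh)
      by_cases h0 : x' = 0
      · subst h0
        have h1 : (e.symm x).1 ∈ L := (hmem x).2 h
        have h2 : (e.symm 0).1 = r := (hr0 0).2 rfl
        rw [h2, hg2 _ h1]
        simp [h]
      · have h2 : (e.symm x').1 ≠ r := fun hh => h0 ((hr0 x').1 hh)
        rw [hg3 _ _ h' fun hh => h2 hh.2]
        simp [h, h0]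

/-- Kronecker powers of one star inside a bigger index set -/
theorem CL_pw_star {W : Type} [Fintype W] (r : W) (L : Finset W) (hr : r ∉ L) (k : ℕ)
    (c : ℕ → ℕ) (hc : ∀ j ≤ k, CL (pw j (star L.card)) (c j)) :
    CL (pw k (PM (· ∈ L) fun _ => r))
      (∑ j ∈ range (k + 1), k.choose j * (Fintype.card W - (L.card + 1)) ^ (k - j) * c j) := by
  refine CL_pw_starc _ 1 r L hr ?_ ?_ ?_ k c (by simpa only [starc_one] using hc)
  · intro x
    have : ¬ (x ∈ L ∧ x = r) := fun h => hr (h.2 ▸ h.1)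
    simp [PM_apply, this]
  · intro x hx
    have : x ≠ r := fun h => hr (h ▸ hx)
    simp [PM_apply, this, hx]
  · intro x y hxy h
    simp [PM_apply, hxy, h]

theorem pw_diagonal {W : Type*} [DecidableEq W] (k : ℕ) (d : W → ℂ) :
    pw k (Matrix.diagonal d) = Matrix.diagonal fun x => ∏ i, d (x i) := by
  ext x y
  simp only [pw, Matrix.of_apply, Matrix.diagonal_apply]
  by_cases h : x = y
  · subst h; simp
  · rw [if_neg h]
    obtain ⟨i, hi⟩ := Function.ne_iff.1 h
    exact Finset.prod_eq_zero (Finset.mem_univ i) (if_neg hi)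

theorem starc_fac (c : ℂ) (hc : c = 1 ∨ c = -1) : starc c 1 =
    Matrix.diagonal (fun i : Fin 2 => if i = 0 then 1 else c) * (star 1 *
      Matrix.diagonal (fun i : Fin 2 => if i = 0 then 1 else c)) := by
  ext i j
  rw [Matrix.diagonal_mul, Matrix.mul_diagonal, star_apply]
  simp only [starc, Matrix.of_apply]
  fin_cases i <;> fin_cases j <;> rcases hc with rfl | rfl <;> simp

theorem CL_pw_starc_one (k t : ℕ) (c : ℂ) (hc : c = 1 ∨ c = -1) (h : CL (pw k (star 1)) t) :
    CL (pw k (starc c 1)) (t + 2 * 2 ^ k) := by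
  classical
  have hD : CL (pw k (Matrix.diagonal (fun i : Fin 2 => if i = 0 then 1 else c))) (2 ^ k) := by
    rw [pw_diagonal]
    exact (CL.diagonal _).le (by simp)
  rw [starc_fac c hc, pw_mul, pw_mul]
  refine (hD.mul (h.mul hD)).le (le_of_eq ?_)
  ring

theorem CL_pw_TV {W : Type} [Fintype W] [DecidableEq W] (M : Matrix W W ℂ) (T k : ℕ)
    (hT : TV M T) (F1 : ℕ → ℕ) (hF : ∀ j ≤ k, CL (pw j (star 1)) (F1 j)) :
    CL (pw k M) (T * ∑ j ∈ range (k + 1), k.choose j * (Fintype.card W - 2) ^ (k - j) *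
      (F1 j + 2 * 2 ^ j)) := by
  induction hT with
  | one => simpa using CL_pw_one (W := W) k
  | @step M t i j c hij hc h ih =>
    rw [pw_mul, add_mul, one_mul, add_comm]
    refine CL.mul ?_ ih
    have := CL_pw_starc (Matrix.transvection i j c) c j {i} (by simpa using Ne.symm hij) ?_ ?_ ?_ k
      (fun j => F1 j + 2 * 2 ^ j) (fun j hj => by
        rw [card_singleton]
        exact CL_pw_starc_one j _ c hc (hF j hj))
    · simpa using this
    · intro x
      simp only [Matrix.transvection, Matrix.add_apply, Matrix.one_apply_eq]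
      rw [Matrix.single_apply_of_ne _ _ _ _ _ (by rintro ⟨rfl, rfl⟩; exact hij rfl), add_zero]
    · intro x hx
      rw [mem_singleton] at hx
      subst hx
      simp [Matrix.transvection, Matrix.one_apply_ne hij]
    · intro x y hxy hn
      simp only [Matrix.transvection, Matrix.add_apply, Matrix.one_apply_ne hxy, zero_add]
      rw [Matrix.single_apply_of_ne]
      rintro ⟨rfl, rfl⟩
      exact hn ⟨mem_singleton_self _, rfl⟩

/-- parallel composition -/
theorem PM_mul_PM {W : Type*} [Fintype W] (d1 d2 : W → Prop) (par : W → W)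
    (h12 : ∀ w, d1 w → ¬ d2 w) (hp : ∀ w, d1 w → ¬ d2 (par w)) :
    PM d1 par * PM d2 par = PM (fun w => d1 w ∨ d2 w) par := by
  classical
  ext x y
  rw [PM_mul]
  simp only [PM_apply]
  by_cases h1 : d1 x
  · have h2 := h12 x h1
    have h3 := hp x h1
    simp [h1, h2, h3, eq_comm]
  · simp [h1]

/-- a family of parallel stars indexed by a finset, all with `a` leaves -/
theorem CL_pw_family {W ι : Type} [Fintype W] (par : W → W) (s : Finset ι) (r : ι → W)
    (L : ι → Finset W) (a k : ℕ) (c : ℕ → ℕ) (hc : ∀ j ≤ k, CL (pw j (star a)) (c j))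
    (hcard : ∀ i ∈ s, (L i).card = a) (hpar : ∀ i ∈ s, ∀ w ∈ L i, par w = r i)
    (hdisj : ∀ i ∈ s, ∀ j ∈ s, i ≠ j → ∀ w ∈ L i, w ∉ L j)
    (hr : ∀ i ∈ s, ∀ j ∈ s, r i ∉ L j) :
    CL (pw k (PM (fun w => ∃ i ∈ s, w ∈ L i) par))
      (s.card * ∑ j ∈ range (k + 1), k.choose j * (Fintype.card W - (a + 1)) ^ (k - j) * c j) := by
  classical
  induction s using Finset.induction_on with
  | empty =>
    have : PM (fun w : W => ∃ i ∈ (∅ : Finset ι), w ∈ L i) par = 1 := by
      ext x y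
      simp [PM_apply, Matrix.one_apply]
    rw [this]
    simpa using CL_pw_one (W := W) k
  | insert i s his ih =>
    have ih' := ih (fun j hj => hcard j (mem_insert_of_mem hj))
      (fun j hj => hpar j (mem_insert_of_mem hj))
      (fun j hj l hl => hdisj j (mem_insert_of_mem hj) l (mem_insert_of_mem hl))
      (fun j hj l hl => hr j (mem_insert_of_mem hj) l (mem_insert_of_mem hl))
    have h1 : PM (fun w => ∃ j ∈ insert i s, w ∈ L j) par
        = PM (· ∈ L i) par * PM (fun w => ∃ j ∈ s, w ∈ L j) par := by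
      rw [PM_mul_PM]
      · congr 1
        ext w
        simp
      · rintro w hw ⟨j, hj, hwj⟩
        exact hdisj i (mem_insert_self _ _) j (mem_insert_of_mem hj)
          (fun h => his (h ▸ hj)) w hw hwj
      · rintro w hw ⟨j, hj, hwj⟩
        rw [hpar i (mem_insert_self _ _) w hw] at hwj
        exact hr i (mem_insert_self _ _) j (mem_insert_of_mem hj) hwj
    have h2 : PM (· ∈ L i) par = PM (· ∈ L i) fun _ => r i := by
      ext x y
      simp only [PM_apply]
      by_cases hx : x ∈ L i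
      · rw [hpar i (mem_insert_self _ _) x hx]
      · simp [hx]
    have hci := hcard i (mem_insert_self _ _)
    have h3 := CL_pw_star (r i) (L i) (hr i (mem_insert_self _ _) i (mem_insert_self _ _)) k c
      (by rw [hci]; exact hc)
    rw [hci] at h3
    rw [h1, pw_mul, h2, card_insert_of_notMem his, add_mul, one_mul, add_comm]
    exact h3.mul ih'

theorem double_fac (a : ℕ) : (Matrix.of fun x y : Fin (a + 1) × Fin (a + 1) =>
      star a x.1 y.1 * star a x.2 y.2)
    = PM (fun w => w.1 ≠ 0 ∧ w.2 ≠ 0) (fun w => (0, w.2)) *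
      (PM (fun w => (w.2 = 0 ∧ w.1 ≠ 0) ∨ (w.1 = 0 ∧ w.2 ≠ 0)) (fun _ => (0, 0)) *
        PM (fun w => w.1 ≠ 0 ∧ w.2 ≠ 0) (fun w => (w.1, 0))) := by
  classical
  ext ⟨x1, x2⟩ ⟨y1, y2⟩
  simp only [Matrix.of_apply, PM_mul, PM_apply, star_apply, Prod.mk.injEq]
  by_cases h1 : x1 = 0
  · subst h1
    by_cases h2 : x2 = 0
    · subst h2
      by_cases h3 : y1 = 0 <;> by_cases h4 : y2 = 0 <;> simp [h3, h4, eq_comm]
    · by_cases h3 : y1 = 0 <;> by_cases h4 : y2 = 0 <;> by_cases h5 : x2 = y2 <;>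
        simp [h2, h3, h4, h5, eq_comm]
  · by_cases h2 : x2 = 0
    · subst h2
      by_cases h3 : y1 = 0 <;> by_cases h4 : y2 = 0 <;> by_cases h5 : x1 = y1 <;>
        simp [h1, h3, h4, h5, eq_comm]
    · by_cases h3 : y1 = 0 <;> by_cases h4 : y2 = 0 <;> by_cases h5 : x1 = y1 <;>
        by_cases h6 : x2 = y2 <;> simp [h1, h2, h3, h4, h5, h6, eq_comm]

end Rec

open Rec

theorem CL_zero (a : ℕ) : CL (pw 0 (star a)) 0 :=
  CL.of_unit_rows fun i => Or.inr ⟨i, by simp [pw], fun k hk => absurd (Subsingleton.elim k i) hk⟩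

theorem CL_double (a k : ℕ) (F F2 : ℕ → ℕ) (hF : ∀ j ≤ k, CL (pw j (star a)) (F j))
    (hF2 : ∀ j ≤ k, CL (pw j (star (2 * a))) (F2 j)) :
    CL (pw (2 * k) (star a))
      (2 * a * (∑ j ∈ range (k + 1), k.choose j * ((a + 1) * a) ^ (k - j) * F j) +
        ∑ j ∈ range (k + 1), k.choose j * (a ^ 2) ^ (k - j) * F2 j) := by
  classical
  apply CL_pw_two
  let W := Fin (a + 1) × Fin (a + 1)
  let s : Finset (Fin (a + 1)) := univ.erase 0
  have hs : s.card = a := by simp [s]
  -- first factor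
  let L1 : Fin (a + 1) → Finset W := fun i => s.image fun j => (i, j)
  let L3 : Fin (a + 1) → Finset W := fun j => s.image fun i => (i, j)
  let L2 : Finset W := (s.image fun i => (i, 0)) ∪ (s.image fun j => (0, j))
  have hms : ∀ i, i ∈ s ↔ i ≠ 0 := fun i => by simp [s]
  have hmL1 : ∀ i (w : W), w ∈ L1 i ↔ w.1 = i ∧ w.2 ≠ 0 := fun i w => by
    simp only [L1, mem_image, hms]
    constructor
    · rintro ⟨j, hj, rfl⟩; exact ⟨rfl, hj⟩
    · rintro ⟨h1, h2⟩; exact ⟨w.2, h2, Prod.ext h1.symm rfl⟩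
  have hmL3 : ∀ i (w : W), w ∈ L3 i ↔ w.2 = i ∧ w.1 ≠ 0 := fun i w => by
    simp only [L3, mem_image, hms]
    constructor
    · rintro ⟨j, hj, rfl⟩; exact ⟨rfl, hj⟩
    · rintro ⟨h1, h2⟩; exact ⟨w.1, h2, Prod.ext rfl h1.symm⟩
  have hmL2 : ∀ (w : W), w ∈ L2 ↔ (w.2 = 0 ∧ w.1 ≠ 0) ∨ (w.1 = 0 ∧ w.2 ≠ 0) := fun w => by
    simp only [L2, mem_union, mem_image, hms]
    constructor
    · rintro (⟨j, hj, rfl⟩ | ⟨j, hj, rfl⟩)
      · exact Or.inl ⟨rfl, hj⟩
      · exact Or.inr ⟨rfl, hj⟩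
    · rintro (⟨h1, h2⟩ | ⟨h1, h2⟩)
      · exact Or.inl ⟨w.1, h2, Prod.ext rfl h1.symm⟩
      · exact Or.inr ⟨w.2, h2, Prod.ext h1.symm rfl⟩
  have hc1 : ∀ i, (L1 i).card = a := fun i => by
    rw [card_image_of_injective _ (fun x y h => (Prod.ext_iff.1 h).2), hs]
  have hc3 : ∀ i, (L3 i).card = a := fun i => by
    rw [card_image_of_injective _ (fun x y h => (Prod.ext_iff.1 h).1), hs]
  have hc2 : L2.card = 2 * a := by
    rw [card_union_of_disjoint, card_image_of_injective _ (fun x y h => (Prod.ext_iff.1 h).1),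
      card_image_of_injective _ (fun x y h => (Prod.ext_iff.1 h).2), hs]
    · ring
    · rw [Finset.disjoint_left]
      intro w h1 h2
      simp only [mem_image, hms] at h1 h2
      obtain ⟨i, hi, rfl⟩ := h1
      obtain ⟨j, hj, h⟩ := h2
      exact hi (Prod.ext_iff.1 h).1.symm
  have hd1 : (fun w : W => w.1 ≠ 0 ∧ w.2 ≠ 0) = fun w => ∃ i ∈ s, w ∈ L1 i := by
    ext w
    simp only [hms, hmL1]
    exact ⟨fun h => ⟨w.1, h.1, rfl, h.2⟩, fun ⟨i, hi, h, h'⟩ => ⟨h ▸ hi, h'⟩⟩
  have hd3 : (fun w : W => w.1 ≠ 0 ∧ w.2 ≠ 0) = fun w => ∃ i ∈ s, w ∈ L3 i := by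
    ext w
    simp only [hms, hmL3]
    exact ⟨fun h => ⟨w.2, h.2, rfl, h.1⟩, fun ⟨i, hi, h, h'⟩ => ⟨h', h ▸ hi⟩⟩
  have hd2 : (fun w : W => (w.2 = 0 ∧ w.1 ≠ 0) ∨ (w.1 = 0 ∧ w.2 ≠ 0)) = fun w => w ∈ L2 := by
    ext w
    rw [hmL2]
  have hW : Fintype.card W - (a + 1) = (a + 1) * a := by
    simp only [W, Fintype.card_prod, Fintype.card_fin]
    rw [Nat.sub_eq_iff_eq_add (by nlinarith)]
    ring
  have hW2 : Fintype.card W - (2 * a + 1) = a ^ 2 := by
    simp only [W, Fintype.card_prod, Fintype.card_fin]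
    rw [Nat.sub_eq_iff_eq_add (by nlinarith)]
    ring
  have k1 := CL_pw_family (W := W) (fun w => (w.1, 0)) s (fun i => (i, 0)) L1 a k F hF
    (fun i _ => hc1 i) (fun i _ w hw => by rw [((hmL1 i w).1 hw).1])
    (fun i _ j _ hij w hw hw' => hij (((hmL1 i w).1 hw).1.symm.trans ((hmL1 j w).1 hw').1))
    (fun i _ j _ hw => ((hmL1 j _).1 hw).2 rfl)
  have k3 := CL_pw_family (W := W) (fun w => (0, w.2)) s (fun i => (0, i)) L3 a k F hF
    (fun i _ => hc3 i) (fun i _ w hw => by rw [((hmL3 i w).1 hw).1])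
    (fun i _ j _ hij w hw hw' => hij (((hmL3 i w).1 hw).1.symm.trans ((hmL3 j w).1 hw').1))
    (fun i _ j _ hw => ((hmL3 j _).1 hw).2 rfl)
  have k2 := CL_pw_star (W := W) (0, 0) L2 (by rw [hmL2]; simp) k F2 (by rw [hc2]; exact hF2)
  rw [hc2, hW2] at k2
  rw [hs, hW] at k1 k3
  rw [← hd1] at k1
  rw [← hd2] at k2
  rw [← hd3] at k3
  rw [double_fac, pw_mul, pw_mul]
  refine (k3.mul (k2.mul k1)).le (le_of_eq ?_)
  ring

theorem CL_triple (n T k : ℕ) (hT : TV (kron3 n) T) (F1 : ℕ → ℕ)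
    (hF : ∀ j ≤ k, CL (pw j (star 1)) (F1 j)) :
    CL (pw (3 * k) (star n))
      (T * ∑ j ∈ range (k + 1), k.choose j * ((n + 1) ^ 3 - 2) ^ (k - j) * (F1 j + 2 * 2 ^ j)) := by
  apply CL_pw_three
  have h := CL_pw_TV (kron3 n) T k hT F1 hF
  have hW : Fintype.card (Fin (n + 1) × Fin (n + 1) × Fin (n + 1)) = (n + 1) ^ 3 := by
    simp only [Fintype.card_prod, Fintype.card_fin]
    ring
  rw [hW] at h
  exact h

theorem CL_star (a : ℕ) : CL (star a) a := by
  classical
  have h1 : Reach (units (Fin (a + 1))) (Fintype.card (Fin a))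
      (Set.range fun i : Fin a => star a i.succ) := by
    refine Reach.of_gates fun i => ?_
    refine Or.inl ⟨Pi.single i.succ 1, Or.inr (single_mem_units _), Pi.single 0 1,
      Or.inr (single_mem_units _), Or.inl ?_⟩
    funext j
    rw [star_apply]
    simp only [Pi.add_apply, Pi.single_apply]
    by_cases h0 : j = 0
    · subst h0
      simp [(Fin.succ_ne_zero i).symm]
    · simp [h0, eq_comm]
  rw [Fintype.card_fin] at h1
  have h2 := h1.keep (units (Fin (a + 1)))
  rw [Set.union_self] at h2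
  refine Reach.mono_right h2 ?_
  rintro _ ⟨i, rfl⟩
  refine Or.inr ?_
  refine Fin.cases (Or.inl ⟨0, by simp [star_apply], fun j hj => ?_⟩) (fun i => Or.inr ⟨i, rfl⟩) i
  rw [star_apply]
  simp [hj, Ne.symm hj]

theorem CL_succ (a k t : ℕ) (h : CL (pw k (star a)) t) :
    CL (pw (k + 1) (star a)) ((a + 1) * t + a * (a + 1) ^ k) := by
  classical
  have h1 := (CL_star a).kron_one (B := Fin k → Fin (a + 1))
  have h2 := h.one_kron (B := Fin (a + 1))
  have h3 := h1.mul h2
  rw [← Matrix.mul_kronecker_mul, Matrix.mul_one, Matrix.one_mul] at h3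
  have h4 := h3.submatrix (fun x : Fin (k + 1) → Fin (a + 1) => (x 0, Fin.tail x))
    (fun x : Fin (k + 1) → Fin (a + 1) => (x 0, Fin.tail x)) (by
      intro x y hxy
      simp only [Prod.mk.injEq] at hxy
      rw [← Fin.cons_self_tail x, ← Fin.cons_self_tail y, hxy.1, hxy.2])
  refine CL.le (M := pw (k + 1) (star a)) ?_ (le_of_eq ?_) (s := Fintype.card (Fin k → Fin (a + 1)) * a + Fintype.card (Fin (a + 1)) * t)
  · convert h4 using 1
    ext x y
    simp [pw, Fin.prod_univ_succ, Matrix.kroneckerMap_apply, Fin.tail]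
  · simp
    ring

end DFTC
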