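import Crest.Agent.DFT.CLBasic
import Crest.Agent.DFT.Rec
import Crest.Agent.DFT.Base
import Crest.Agent.DFT.RecAnalysis

/-!
S0501 Part E2 (helper15): the main bound for the Kronecker powers of `[[1,0],[1,1]]`.
-/

set_option autoImplicit false

open Matrix Finset

namespace DFTC

/-- complexity of `pw k (star a)` -/
noncomputable def starCost (a k : ℕ) : ℕ := sInf {t | CL (pw k (star a)) t}

theorem exists_starCost (a k : ℕ) : ∃ t, CL (pw k (star a)) t := by
  induction k with
  | zero => exact ⟨0, CL_zero a⟩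
  | succ k ih =>
    obtain ⟨t, ht⟩ := ih
    exact ⟨_, CL_succ a k t ht⟩

theorem starCost_spec (a k : ℕ) : CL (pw k (star a)) (starCost a k) :=
  Nat.sInf_mem (s := {t | CL (pw k (star a)) t}) (exists_starCost a k)

theorem starCost_le {a k t : ℕ} (h : CL (pw k (star a)) t) : starCost a k ≤ t :=
  Nat.sInf_le (s := {t | CL (pw k (star a)) t}) h

/-- E2 -/
theorem zbound : ∃ A : ℝ, 0 < A ∧ ZBound A := by
  obtain ⟨T, hT, hTb⟩ := TV_kron3 1024 (by norm_num)
  obtain ⟨A, hA, h⟩ := rec_analysis starCost T (4 * 1024) (by norm_num)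
    (fun a => Nat.le_zero.mp (starCost_le (CL_zero a)))
    (fun a k => starCost_le (CL_double a k (starCost a) (starCost (2 * a))
      (fun j _ => starCost_spec a j) (fun j _ => starCost_spec (2 * a) j)))
    (fun k => starCost_le (CL_triple (4 * 1024) T k hT (starCost 1)
      (fun j _ => starCost_spec 1 j)))
    (fun a k => starCost_le (CL_succ a k _ (starCost_spec a k))) hTb
  exact ⟨A, hA, fun k => ⟨starCost 1 k, h k, starCost_spec 1 k⟩⟩

end DFTC
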