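import Crest.Agent.DFT.CLBasic
import Crest.Agent.DFT.RecAnalysis
import Crest.Agent.DFT.ZBound
import Crest.Agent.DFT.Crt
import Crest.Agent.DFT.Primes
import Crest.Agent.DFT.Bluestein
import Crest.Agent.DFT.Exponent

/-! S0501 part J3: the final combination. -/

set_option autoImplicit false

open Matrix Finset

namespace DFTC

/-- `d^(1+th1) ≤ 2 (log n)^θ` when `d² ≤ log₂ n` -/
theorem pow_bound (d n : ℕ) (hd : 1 ≤ d) (hdn : d ^ 2 ≤ Nat.log 2 n) (hL : 1 ≤ Real.log n) :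
    (d : ℝ) ^ (1 + th1) ≤ 2 * Real.log n ^ Crest.FourierCircuit.savingExponent := by
  have hd0 : (0 : ℝ) < d := by exact_mod_cast hd
  have hl2 : (1 / 2 : ℝ) ≤ Real.log 2 := by
    have := Real.log_two_gt_d9
    linarith
  have hl2' : (0 : ℝ) < Real.log 2 := by linarith
  have hn : n ≠ 0 := by
    rintro rfl
    simp at hL
    linarith
  -- `d² ≤ log n / log 2`
  have h1 : (d : ℝ) ^ 2 ≤ Real.log n / Real.log 2 := by
    have h2 : ((Nat.log 2 n : ℕ) : ℝ) ≤ Real.log n / Real.log 2 := by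
      rw [le_div_iff₀ hl2', ← Real.log_pow]
      apply Real.log_le_log (by positivity)
      exact_mod_cast Nat.pow_log_le_self 2 hn
    calc (d : ℝ) ^ 2 = ((d ^ 2 : ℕ) : ℝ) := by push_cast; rfl
      _ ≤ ((Nat.log 2 n : ℕ) : ℝ) := by exact_mod_cast hdn
      _ ≤ _ := h2
  have he0 : 0 ≤ (1 + th1) / 2 := by unfold th1; norm_num
  have he1 : (1 + th1) / 2 ≤ 1 := by unfold th1; norm_num
  have heθ : (1 + th1) / 2 ≤ Crest.FourierCircuit.savingExponent := by
    refine le_trans ?_ savingExponent_lb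
    unfold th1; norm_num
  have e1 : (d : ℝ) ^ (1 + th1) = ((d : ℝ) ^ 2) ^ ((1 + th1) / 2) := by
    rw [← Real.rpow_natCast, ← Real.rpow_mul hd0.le]
    congr 1
    push_cast
    ring
  have hLn : 0 ≤ Real.log n := by linarith
  rw [e1]
  calc ((d : ℝ) ^ 2) ^ ((1 + th1) / 2) ≤ (Real.log n / Real.log 2) ^ ((1 + th1) / 2) :=
        Real.rpow_le_rpow (by positivity) h1 he0
    _ ≤ (2 * Real.log n) ^ ((1 + th1) / 2) := by
        apply Real.rpow_le_rpow (by positivity) _ he0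
        rw [div_le_iff₀ hl2']
        nlinarith
    _ = 2 ^ ((1 + th1) / 2) * Real.log n ^ ((1 + th1) / 2) := Real.mul_rpow (by norm_num) hLn
    _ ≤ 2 ^ (1 : ℝ) * Real.log n ^ Crest.FourierCircuit.savingExponent := by
        gcongr
        norm_num
    _ = _ := by rw [Real.rpow_one]

/-- J3 final: combine. -/
theorem final : ∃ C : ℝ, ∃ N₀ : ℕ, ∀ n ≥ N₀, ∃ P : Crest.FourierCircuit.LinCircuit n,
      P.Computes (Crest.FourierCircuit.dftMatrix n) ∧
        (P.size : ℝ) ≤ C * n * Real.log n ^ Crest.FourierCircuit.savingExponent *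
          Real.log (Real.log n) ^ (4 - Crest.FourierCircuit.savingExponent) := by
  obtain ⟨A, hA0, hA⟩ := zbound
  obtain ⟨C, hC0, hC⟩ := CL_GM_N hA0 hA
  obtain ⟨N₀, hN₀⟩ := exists_chain
  refine ⟨2 * (252 * C + 14), max N₀ ⌈Real.exp (Real.exp 1)⌉₊, fun n hn => ?_⟩
  have hn0 : N₀ ≤ n := (le_max_left _ _).trans hn
  have hne : Real.exp (Real.exp 1) ≤ n :=
    (Nat.le_ceil _).trans (by exact_mod_cast (le_max_right _ _).trans hn)
  have hnpos : (0 : ℝ) < n := (Real.exp_pos _).trans_le hne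
  have hn1 : 1 ≤ n := by exact_mod_cast hnpos
  have hLe : Real.exp 1 ≤ Real.log n := by
    rwa [Real.le_log_iff_exp_le hnpos]
  have hL1 : 1 ≤ Real.log n := by
    have := Real.add_one_le_exp (1 : ℝ)
    linarith
  have hLL : 1 ≤ Real.log (Real.log n) := by
    rwa [Real.le_log_iff_exp_le (by linarith)]
  obtain ⟨d, m, q, q', q₀, hd, hch, hm, hdn, hN2, hN6⟩ := hN₀ n hn0
  set N : ℕ := q₀ * ∏ g, (q g * q' g) with hN
  have hm1 : 1 ≤ m := by
    rcases Nat.eq_zero_or_pos m with h | h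
    · have h1 := hch.lt₀
      have h2 := hch.three₀
      rw [h, pow_zero] at h1
      omega
    · exact h
  have : NeZero N := ⟨by omega⟩
  set B : ℝ := C * N * (m * (d : ℝ) ^ th1 + d) with hB
  have hd1 : (1 : ℝ) ≤ d := by exact_mod_cast hd
  have hd0 : (0 : ℝ) < d := by linarith
  have hdth : 0 ≤ (d : ℝ) ^ th1 := Real.rpow_nonneg hd0.le _
  have hB0 : 0 ≤ B := by rw [hB]; positivity
  have hGM : ∀ ψ : AddChar (ZMod N) ℂ, ψ.IsPrimitive → CL (GM ψ) ⌊B⌋₊ := by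
    intro ψ hψ
    obtain ⟨t, ht, hct⟩ := hC d m q q' q₀ hd hm1 hch N hN ψ hψ
    exact hct.le (Nat.le_floor ht)
  obtain ⟨P, hP, hPs⟩ := (CL_dft_of_GM n N hn1 hN2 _ hGM).toLinCircuit
  refine ⟨P, hP, ?_⟩
  -- numeric bound
  have hNn : (N : ℝ) ≤ 6 * n := by exact_mod_cast hN6
  have hmd : (m : ℝ) ≤ 20 * d := by exact_mod_cast hm
  have hpw : (d : ℝ) * (d : ℝ) ^ th1 = (d : ℝ) ^ (1 + th1) := by
    rw [Real.rpow_add hd0, Real.rpow_one]
  have hdle : (d : ℝ) ≤ (d : ℝ) ^ (1 + th1) := by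
    have : (d : ℝ) ^ (1 : ℝ) ≤ (d : ℝ) ^ (1 + th1) :=
      Real.rpow_le_rpow_of_exponent_le hd1 (by unfold th1; norm_num)
    rwa [Real.rpow_one] at this
  have hX1 : 1 ≤ (d : ℝ) ^ (1 + th1) := hd1.trans hdle
  set X : ℝ := (d : ℝ) ^ (1 + th1) with hX
  have hBle : B ≤ 126 * C * n * X := by
    calc B ≤ C * (6 * n) * ((20 * d) * (d : ℝ) ^ th1 + d) := by rw [hB]; gcongr
      _ = C * (6 * n) * (20 * (d * (d : ℝ) ^ th1) + d) := by ring
      _ ≤ C * (6 * n) * (20 * X + X) := by rw [hpw]; gcongr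
      _ = _ := by ring
  have hsize : (P.size : ℝ) ≤ (252 * C + 14) * n * X := by
    have h1 : (P.size : ℝ) ≤ 2 * (⌊B⌋₊ : ℝ) + 2 * N + 2 * n := by exact_mod_cast hPs
    have h2 : (⌊B⌋₊ : ℝ) ≤ B := Nat.floor_le hB0
    have h3 : (n : ℝ) ≤ n * X := le_mul_of_one_le_right hnpos.le hX1
    calc (P.size : ℝ) ≤ 2 * (126 * C * n * X) + 2 * (6 * n) + 2 * n := by linarith
      _ ≤ 2 * (126 * C * n * X) + 14 * (n * X) := by linarith
      _ = _ := by ring
  have hXL : X ≤ 2 * Real.log n ^ Crest.FourierCircuit.savingExponent :=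
    pow_bound d n hd hdn hL1
  have hLLp : 1 ≤ Real.log (Real.log n) ^ (4 - Crest.FourierCircuit.savingExponent) :=
    Real.one_le_rpow hLL (by have := savingExponent_le_one; linarith)
  have hLp : 0 ≤ Real.log n ^ Crest.FourierCircuit.savingExponent :=
    Real.rpow_nonneg (by linarith) _
  calc (P.size : ℝ) ≤ (252 * C + 14) * n * X := hsize
    _ ≤ (252 * C + 14) * n * (2 * Real.log n ^ Crest.FourierCircuit.savingExponent) := by gcongr
    _ = 2 * (252 * C + 14) * n * Real.log n ^ Crest.FourierCircuit.savingExponent * 1 := by ring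
    _ ≤ _ := by gcongr

end DFTC
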