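import Crest.Agent.DFT.CLBasic

/-!
S0501, parts B4 and B5 (helper22): Kronecker products of matching layers.
-/

set_option autoImplicit false
open Matrix Finset
namespace DFTC

namespace KL

/-- Kronecker products are multiplicative -/
theorem piK_mul' {ι : Type*} [Fintype ι] [DecidableEq ι] {m n p : ι → Type*}
    [∀ i, Fintype (n i)] (M : ∀ i, Matrix (m i) (n i) ℂ) (N : ∀ i, Matrix (n i) (p i) ℂ) :
    piK (fun i => M i * N i) = piK M * piK N := by
  ext a b
  simp only [piK, Matrix.of_apply, Matrix.mul_apply]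
  rw [Finset.prod_univ_sum]
  simp only [Fintype.piFinset_univ, ← Finset.prod_mul_distrib]

theorem piK_mono {ι : Type*} [Fintype ι] {W : ι → Type*}
    (M : ∀ i, Matrix (W i) (W i) ℂ) (h : ∀ i, Mono (M i)) : Mono (piK M) := by
  choose σ d hd h1 h2 using h
  refine ⟨Equiv.piCongrRight σ, fun w => ∏ i, d i (w i), ?_, ?_, ?_⟩
  · intro w
    exact Finset.prod_ne_zero_iff.2 fun i _ => hd i (w i)
  · intro w
    simp only [piK, Matrix.of_apply, Equiv.piCongrRight_apply, Pi.map_apply]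
    exact Finset.prod_congr rfl fun i _ => h1 i (w i)
  · intro w v hv
    obtain ⟨i, hi⟩ : ∃ i, v i ≠ σ i (w i) := by
      by_contra hcon
      push Not at hcon
      exact hv (funext hcon)
    simp only [piK, Matrix.of_apply]
    exact Finset.prod_eq_zero (Finset.mem_univ i) (h2 i (w i) (v i) hi)

theorem lay_zero {W : Type*} [Fintype W] {M : Matrix W W ℂ} (h : Lay 0 M) : Mono M := by
  cases h with
  | mono h => exact h

theorem lay_succ {W : Type*} [Fintype W] {M : Matrix W W ℂ} {ℓ : ℕ} (h : Lay (ℓ + 1) M) :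
    ∃ A L M' : Matrix W W ℂ, Mono A ∧ IsLayer L ∧ Lay ℓ M' ∧ M = A * L * M' := by
  cases h with
  | step hA hL h => exact ⟨_, _, _, hA, hL, h, rfl⟩

/-- one block of the Kronecker product -/
theorem block_bound {A : ℝ} (hA0 : 0 < A) (hA : ZBound A) {d : ℕ}
    (W : Fin d → Type) [∀ i, Fintype (W i)] (M : ∀ i, Matrix (W i) (W i) ℂ)
    (s : ∀ i, W i → W i) (c : ∀ i, W i → ℂ) (hsc : ∀ i w, c i w ≠ 0 → c i (s i w) = 0)
    (hinj : ∀ i w w', c i w ≠ 0 → c i w' ≠ 0 → s i w = s i w' → w = w')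
    (hdiag : ∀ i w, M i w w = 1) (hoff : ∀ i w, c i w ≠ 0 → M i w (s i w) = c i w)
    (hz : ∀ i w v, v ≠ w → (c i w ≠ 0 → v ≠ s i w) → M i w v = 0)
    (p : ∀ i, W i → W i) (hp1 : ∀ i w, c i w ≠ 0 → p i w = s i w)
    (hp2 : ∀ i w, c i w = 0 → p i w = w) (b : ∀ i, W i)
    [instX : Fintype {x : ∀ i, W i // (fun i => p i (x i)) = b}] :
    ∃ t : ℕ, (t : ℝ) ≤ (A * (d : ℝ) ^ th1 + 2) *
        (Fintype.card {x : ∀ i, W i // (fun i => p i (x i)) = b} : ℝ) ∧
      CL ((piK M).submatrix (fun x : {x : ∀ i, W i // (fun i => p i (x i)) = b} => x.1)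
        (fun x : {x : ∀ i, W i // (fun i => p i (x i)) = b} => x.1)) t := by
  classical
  set X := {x : ∀ i, W i // (fun i => p i (x i)) = b} with hX
  have hth : 0 ≤ th1 := by
    unfold th1
    norm_num
  rcases isEmpty_or_nonempty X with hemp | ⟨⟨x0, hx0⟩⟩
  · refine ⟨0, ?_, ?_⟩
    · have h1 : 0 ≤ (d : ℝ) ^ th1 := Real.rpow_nonneg (Nat.cast_nonneg _) _
      push_cast
      positivity
    · exact CL.of_unit_rows fun i => (hemp.false i).elim
  -- `b i` is never a target
  have hb : ∀ i, c i (b i) = 0 := by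
    intro i
    have h : p i (x0 i) = b i := congrFun hx0 i
    by_cases hc : c i (x0 i) = 0
    · rw [hp2 i _ hc] at h
      rw [← h]
      exact hc
    · rw [hp1 i _ hc] at h
      rw [← h]
      exact hsc i _ hc
  set J : Finset (Fin d) := univ.filter fun i => ∃ w, c i w ≠ 0 ∧ s i w = b i with hJ
  have hJmem : ∀ i, i ∈ J ↔ ∃ w, c i w ≠ 0 ∧ s i w = b i := by
    intro i
    simp [hJ]
  -- the partner
  have hw : ∀ i, ∃ w, (i ∈ J → c i w ≠ 0 ∧ s i w = b i) := by
    intro i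
    by_cases hi : i ∈ J
    · obtain ⟨w, hw⟩ := (hJmem i).1 hi
      exact ⟨w, fun _ => hw⟩
    · exact ⟨b i, fun h => (hi h).elim⟩
  choose w hw using hw
  -- elements of the fibre
  have hfib : ∀ (x : X) (i : Fin d), x.1 i = b i ∨ (i ∈ J ∧ x.1 i = w i) := by
    rintro ⟨x, hx⟩ i
    have h : p i (x i) = b i := congrFun hx i
    by_cases hc : c i (x i) = 0
    · left
      rw [hp2 i _ hc] at h
      exact h
    · right
      rw [hp1 i _ hc] at h
      have hi : i ∈ J := (hJmem i).2 ⟨x i, hc, h⟩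
      refine ⟨hi, ?_⟩
      exact hinj i _ _ hc (hw i hi).1 (h.trans (hw i hi).2.symm)
  have hwb : ∀ i ∈ J, w i ≠ b i := by
    intro i hi h
    exact (hw i hi).1 (by rw [h]; exact hb i)
  set k := J.card with hk
  set e : Fin k ≃ J := J.equivFin.symm with he
  set ψ : X → Fin d → Fin 2 := fun x i => if x.1 i = b i then 0 else 1 with hψ
  set φ : X → (Fin k → Fin 2) := fun x a => ψ x (e a).1 with hφ
  have hφe : ∀ (x : X) (i : Fin d) (hi : i ∈ J), φ x (e.symm ⟨i, hi⟩) = ψ x i := by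
    intro x i hi
    simp only [hφ, Equiv.apply_symm_apply]
  have hψ0 : ∀ (x : X) (i : Fin d), x.1 i = b i → ψ x i = 0 := by
    intro x i h
    simp only [hψ, if_pos h]
  have hψ1 : ∀ (x : X) (i : Fin d), i ∈ J → x.1 i = w i → ψ x i = 1 := by
    intro x i hi h
    have : x.1 i ≠ b i := by rw [h]; exact hwb i hi
    simp only [hψ, if_neg this]
  have hφinj : Function.Injective φ := by
    intro x y hxy
    apply Subtype.ext
    funext i
    rcases hfib x i with h1 | ⟨hi, h1⟩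
    · rcases hfib y i with h2 | ⟨hi, h2⟩
      · rw [h1, h2]
      · exfalso
        have h3 := congrFun hxy (e.symm ⟨i, hi⟩)
        rw [hφe, hφe, hψ0 x i h1, hψ1 y i hi h2] at h3
        exact absurd h3 (by decide)
    · rcases hfib y i with h2 | ⟨_, h2⟩
      · exfalso
        have h3 := congrFun hxy (e.symm ⟨i, hi⟩)
        rw [hφe, hφe, hψ1 x i hi h1, hψ0 y i h2] at h3
        exact absurd h3 (by decide)
      · rw [h1, h2]
  have hφsurj : Function.Surjective φ := by
    intro u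
    have hmem : (fun i => p i ((fun i => if h : i ∈ J then
        (if u (e.symm ⟨i, h⟩) = 0 then b i else w i) else b i) i)) = b := by
      funext i
      by_cases h : i ∈ J
      · simp only [dif_pos h]
        by_cases h2 : u (e.symm ⟨i, h⟩) = 0
        · rw [if_pos h2, hp2 i _ (hb i)]
        · rw [if_neg h2, hp1 i _ (hw i h).1, (hw i h).2]
      · simp only [dif_neg h]
        exact hp2 i _ (hb i)
    refine ⟨⟨_, hmem⟩, ?_⟩
    funext a
    have h : (e a).1 ∈ J := (e a).2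
    have h4 : e.symm ⟨(e a).1, h⟩ = a := by
      simp
    by_cases h2 : u a = 0
    · rw [h2]
      refine hψ0 _ _ ?_
      simp only [dif_pos h, h4, if_pos h2]
    · have h5 : u a = 1 := by
        have h6 : (u a : ℕ) < 2 := (u a).2
        have h7 : (u a : ℕ) ≠ 0 := fun h7 => h2 (Fin.ext h7)
        apply Fin.ext
        change (u a : ℕ) = 1
        omega
      rw [h5]
      refine hψ1 _ _ h ?_
      simp only [dif_pos h, h4, if_neg h2]
  have hcard : Fintype.card X = 2 ^ k := by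
    rw [Fintype.card_of_bijective (f := φ) ⟨hφinj, hφsurj⟩]
    simp
  -- the diagonal scaling
  set D : X → ℂ := fun x => ∏ i, (if c i (x.1 i) = 0 then 1 else c i (x.1 i)) with hD
  set D' : X → ℂ := fun x => ∏ i, (if c i (x.1 i) = 0 then 1 else (c i (x.1 i))⁻¹) with hD'
  have hprod : ∀ x y : X, ∏ a, star 1 (φ x a) (φ y a)
      = ∏ i, (if i ∈ J then star 1 (ψ x i) (ψ y i) else 1) := by
    intro x y
    rw [Finset.prod_ite_mem, Finset.univ_inter,
      ← Finset.prod_coe_sort J (fun i => star 1 (ψ x i) (ψ y i))]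
    exact Equiv.prod_comp e (fun j : J => star 1 (ψ x j.1) (ψ y j.1))
  have s00 : star 1 0 0 = 1 := by simp [star]
  have s10 : star 1 1 0 = 1 := by simp [star]
  have s01 : star 1 0 1 = 0 := by simp [star]
  have s11 : star 1 1 1 = 1 := by simp [star]
  have hmat : (piK M).submatrix (fun x : X => x.1) (fun x : X => x.1)
      = Matrix.diagonal D * ((pw k (star 1)).submatrix φ φ) * Matrix.diagonal D' := by
    ext x y
    rw [Matrix.mul_diagonal, Matrix.diagonal_mul, Matrix.submatrix_apply, Matrix.submatrix_apply]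
    simp only [piK, pw, Matrix.of_apply]
    rw [hprod, hD, hD']
    simp only
    rw [← Finset.prod_mul_distrib, ← Finset.prod_mul_distrib]
    refine Finset.prod_congr rfl fun i _ => ?_
    rcases hfib x i with h1 | ⟨hi, h1⟩
    · rcases hfib y i with h2 | ⟨hi, h2⟩
      · rw [h1, h2, hψ0 x i h1, hψ0 y i h2, if_pos (hb i), if_pos (hb i), hdiag, s00]
        simp
      · rw [hψ0 x i h1, hψ1 y i hi h2, s01, if_pos hi, mul_zero, zero_mul, h1, h2]
        exact hz i _ _ (hwb i hi) fun h => absurd (hb i) h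
    · rcases hfib y i with h2 | ⟨_, h2⟩
      · rw [hψ1 x i hi h1, hψ0 y i h2, s10, if_pos hi, h1, h2, if_neg (hw i hi).1, if_pos (hb i),
          mul_one, mul_one]
        have h3 := hoff i (w i) (hw i hi).1
        rwa [(hw i hi).2] at h3
      · rw [hψ1 x i hi h1, hψ1 y i hi h2, s11, if_pos hi, h1, h2, if_neg (hw i hi).1,
          if_neg (hw i hi).1, mul_one, hdiag, mul_inv_cancel₀ (hw i hi).1]
  obtain ⟨t, ht, hCL⟩ := hA k
  refine ⟨Fintype.card X + t + Fintype.card X, ?_, ?_⟩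
  · have hkd : k ≤ d := by
      have := Finset.card_le_univ J
      rwa [Fintype.card_fin] at this
    have h1 : (k : ℝ) ^ th1 ≤ (d : ℝ) ^ th1 :=
      Real.rpow_le_rpow (Nat.cast_nonneg _) (by exact_mod_cast hkd) hth
    have hcR : (Fintype.card X : ℝ) = 2 ^ k := by exact_mod_cast hcard
    have h2 : (0 : ℝ) < 2 ^ k := by positivity
    have h3 : A * 2 ^ k * (k : ℝ) ^ th1 ≤ A * 2 ^ k * (d : ℝ) ^ th1 :=
      mul_le_mul_of_nonneg_left h1 (by positivity)
    have h4 : (A * (d : ℝ) ^ th1 + 2) * 2 ^ k = A * 2 ^ k * (d : ℝ) ^ th1 + 2 * 2 ^ k := by ring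
    have h5 : (2 : ℝ) ^ k + t + 2 ^ k ≤ (A * (d : ℝ) ^ th1 + 2) * 2 ^ k := by
      rw [h4]
      linarith
    have h6 : ((Fintype.card X + t + Fintype.card X : ℕ) : ℝ) = 2 ^ k + t + 2 ^ k := by
      push_cast
      rw [hcR]
    calc ((Fintype.card X + t + Fintype.card X : ℕ) : ℝ) = 2 ^ k + t + 2 ^ k := h6
      _ ≤ (A * (d : ℝ) ^ th1 + 2) * 2 ^ k := h5
      _ = _ := by
        congr 1
        rw [← hcR]
        congr 1
        exact @Fintype.card_congr X X _ (_) (Equiv.refl X)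
  · rw [hmat]
    exact ((CL.diagonal D).mul (hCL.submatrix φ φ hφinj)).mul (CL.diagonal D')

end KL

open KL

/-- B4 -/
theorem CL_piK_layer {A : ℝ} (hA0 : 0 < A) (hA : ZBound A) {d : ℕ} (hd : 1 ≤ d)
    (W : Fin d → Type) [∀ i, Fintype (W i)] (M : ∀ i, Matrix (W i) (W i) ℂ)
    (h : ∀ i, IsLayer (M i)) :
    ∃ t : ℕ, (t : ℝ) ≤ (A * (d : ℝ) ^ th1 + 2) * ∏ i, (Fintype.card (W i) : ℝ) ∧
      CL (piK M) t := by
  classical
  choose s c hsc hinj hdiag hoff hz using h
  set p : ∀ i, W i → W i := fun i w => if c i w = 0 then w else s i w with hp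
  have hp1 : ∀ i w, c i w ≠ 0 → p i w = s i w := fun i w hw => if_neg hw
  have hp2 : ∀ i w, c i w = 0 → p i w = w := fun i w hw => if_pos hw
  have hblk := fun b => block_bound hA0 hA W M s c hsc hinj hdiag hoff hz p hp1 hp2 b
  choose t ht hCL using hblk
  refine ⟨∑ b, t b, ?_, ?_⟩
  · have hcards : ∑ b : (∀ i, W i), Fintype.card {x : ∀ i, W i // (fun i => p i (x i)) = b}
        = ∏ i, Fintype.card (W i) := by
      rw [← Fintype.card_pi, ← Fintype.card_sigma]
      exact Fintype.card_congr (Equiv.sigmaFiberEquiv fun x : ∀ i, W i => fun i => p i (x i))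
    have hcards' : ∑ b : (∀ i, W i),
        (Fintype.card {x : ∀ i, W i // (fun i => p i (x i)) = b} : ℝ)
        = ∏ i, (Fintype.card (W i) : ℝ) := by
      exact_mod_cast hcards
    push_cast
    rw [← hcards', Finset.mul_sum]
    exact Finset.sum_le_sum fun b _ => ht b
  · refine CL.block (piK M) (fun x i => p i (x i)) (fun x i => p i (x i)) ?_ t hCL
    intro x y hxy
    obtain ⟨i, hi⟩ : ∃ i, p i (x i) ≠ p i (y i) := by
      by_contra hcon
      push Not at hcon
      exact hxy (funext hcon)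
    simp only [piK, Matrix.of_apply]
    refine Finset.prod_eq_zero (Finset.mem_univ i) (hz i _ _ ?_ ?_)
    · intro h
      exact hi (by rw [h])
    · intro hc h
      apply hi
      rw [hp1 i _ hc, h, hp2 i _ (hsc i _ hc)]

/-- B5 -/
theorem CL_piK_Lay {A : ℝ} (hA0 : 0 < A) (hA : ZBound A) {d : ℕ} (hd : 1 ≤ d)
    (W : Fin d → Type) [∀ i, Fintype (W i)] (M : ∀ i, Matrix (W i) (W i) ℂ) (ℓ : ℕ)
    (h : ∀ i, Lay ℓ (M i)) :
    ∃ t : ℕ, (t : ℝ) ≤ (ℓ + 1) * (A * (d : ℝ) ^ th1 + 3) * ∏ i, (Fintype.card (W i) : ℝ) ∧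
      CL (piK M) t := by
  classical
  have hP : (0 : ℝ) ≤ ∏ i, (Fintype.card (W i) : ℝ) :=
    Finset.prod_nonneg fun i _ => Nat.cast_nonneg _
  have hd1 : (0 : ℝ) ≤ (d : ℝ) ^ th1 := Real.rpow_nonneg (Nat.cast_nonneg _) _
  have hAd : 0 ≤ A * (d : ℝ) ^ th1 := by positivity
  have hmono : ∀ N : ∀ i, Matrix (W i) (W i) ℂ, (∀ i, Mono (N i)) →
      ∃ t : ℕ, (t : ℝ) = ∏ i, (Fintype.card (W i) : ℝ) ∧ CL (piK N) t := by
    intro N hN
    refine ⟨Fintype.card (∀ i, W i), ?_, CL.of_mono (piK_mono N hN)⟩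
    rw [Fintype.card_pi]
    push_cast
    rfl
  induction ℓ generalizing M with
  | zero =>
    have hN : ∀ i, Mono (M i) := fun i => lay_zero (h i)
    obtain ⟨t, ht, hCL⟩ := hmono M hN
    refine ⟨t, ?_, hCL⟩
    rw [ht]
    push_cast
    nlinarith
  | succ ℓ ih =>
    have hN : ∀ i, ∃ A' L M' : Matrix (W i) (W i) ℂ, Mono A' ∧ IsLayer L ∧ Lay ℓ M' ∧
        M i = A' * L * M' := fun i => lay_succ (h i)
    choose A' L M' hA' hL hM' hM using hN
    obtain ⟨t1, ht1, hCL1⟩ := hmono A' hA'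
    obtain ⟨t2, ht2, hCL2⟩ := CL_piK_layer hA0 hA hd W L hL
    obtain ⟨t3, ht3, hCL3⟩ := ih M' hM'
    refine ⟨t1 + t2 + t3, ?_, ?_⟩
    · push_cast
      rw [ht1]
      nlinarith
    · have e : piK M = piK A' * piK L * piK M' := by
        have hMe : M = fun i => A' i * L i * M' i := funext hM
        rw [hMe, piK_mul' (fun i => A' i * L i) M', piK_mul' A' L]
      rw [e]
      exact (hCL1.mul hCL2).mul hCL3

end DFTC
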