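import Crest.Agent.DFT.Defs

/-!
S0501 Part G, algebra of "in place" operators on a subset of the wires.
`inc f` : inclusion matrix of an injection; `ext f M` : `M` acting on the wires `f x`;
`Eop f g K` : `x_f += K x_g`.
-/

set_option autoImplicit false
set_option linter.unusedSectionVars false
set_option linter.unusedSimpArgs false

namespace DFTC.LP

open Matrix

variable {W X Y Z A : Type*} [Fintype W] [DecidableEq W] [Fintype X] [DecidableEq X]
  [Fintype Y] [DecidableEq Y] [Fintype Z] [DecidableEq Z] [Fintype A] [DecidableEq A]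

/-- inclusion matrix -/
def inc (f : X → W) : Matrix W X ℂ := Matrix.of fun w x => if w = f x then 1 else 0

omit [Fintype X] in
theorem incT_inc {f : X → W} (hf : Function.Injective f) : (inc f)ᵀ * inc f = 1 := by
  ext a b
  simp only [inc, Matrix.mul_apply, Matrix.transpose_apply, Matrix.of_apply, Matrix.one_apply,
    mul_ite, mul_one, mul_zero]
  rw [Finset.sum_eq_single (f b)]
  · simp only [if_true]
    by_cases h : a = b
    · simp [h]
    · rw [if_neg (fun h' => h (hf h').symm), if_neg h]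
  · intro w _ hw
    rw [if_neg hw]
  · intro h; exact absurd (Finset.mem_univ _) h

omit [Fintype X] [DecidableEq X] [Fintype Y] [DecidableEq Y] in
theorem incT_inc_disj {f : X → W} {g : Y → W} (h : ∀ x y, f x ≠ g y) :
    (inc f)ᵀ * inc g = 0 := by
  ext a b
  simp only [inc, Matrix.mul_apply, Matrix.transpose_apply, Matrix.of_apply, Matrix.zero_apply,
    mul_ite, mul_one, mul_zero]
  apply Finset.sum_eq_zero
  intro w _
  by_cases h1 : w = g b
  · rw [if_pos h1, if_neg (fun h2 => h a b (h2.symm.trans h1))]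
  · rw [if_neg h1]

theorem incT_inc_assoc {f : X → W} (hf : Function.Injective f) {V : Type*} (M : Matrix X V ℂ) :
    (inc f)ᵀ * (inc f * M) = M := by
  rw [← Matrix.mul_assoc, incT_inc hf, Matrix.one_mul]

omit [DecidableEq X] in
theorem incT_inc_disj_assoc {f : X → W} {g : Y → W} (h : ∀ x y, f x ≠ g y) {V : Type*}
    (M : Matrix Y V ℂ) : (inc f)ᵀ * (inc g * M) = 0 := by
  rw [← Matrix.mul_assoc, incT_inc_disj h, Matrix.zero_mul]

omit [Fintype W] [Fintype X] [Fintype Y] [DecidableEq X] in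
theorem inc_comp (f : X → W) (g : Y → X) [Fintype X] [DecidableEq X] :
    inc (f ∘ g) = inc f * inc g := by
  ext w y
  simp only [inc, Matrix.mul_apply, Matrix.of_apply, Function.comp_apply, mul_ite, mul_one,
    mul_zero]
  rw [Finset.sum_eq_single (g y)]
  · simp
  · intro x _ hx; rw [if_neg hx]
  · intro h; exact absurd (Finset.mem_univ _) h

/-- `M` acting on the wires `f x` -/
def ext (f : X → W) (M : Matrix X X ℂ) : Matrix W W ℂ := 1 + inc f * ((M - 1) * (inc f)ᵀ)

/-- `x_f += K x_g` -/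
def Eop (f : X → W) (g : Y → W) (K : Matrix X Y ℂ) : Matrix W W ℂ :=
  1 + inc f * (K * (inc g)ᵀ)

theorem ext_one (f : X → W) : ext f (1 : Matrix X X ℂ) = 1 := by
  simp [ext]

theorem ext_mul {f : X → W} (hf : Function.Injective f) (M N : Matrix X X ℂ) :
    ext f (M * N) = ext f M * ext f N := by
  simp only [ext, Matrix.mul_add, Matrix.add_mul, Matrix.mul_sub, Matrix.sub_mul, Matrix.mul_one,
    Matrix.one_mul, Matrix.mul_assoc, incT_inc_assoc hf]
  abel

theorem Eop_mul {f : X → W} {g : Y → W} (h : ∀ x y, f x ≠ g y) (K K' : Matrix X Y ℂ) :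
    Eop f g K * Eop f g K' = Eop f g (K + K') := by
  have h' : ∀ y x, g y ≠ f x := fun y x => (h x y).symm
  simp only [Eop, Matrix.mul_add, Matrix.add_mul, Matrix.mul_one,
    Matrix.one_mul, Matrix.mul_assoc, incT_inc_disj_assoc h', Matrix.mul_zero]
  abel

theorem conj_right {f : X → W} {g : Y → W} (hg : Function.Injective g) (h : ∀ x y, f x ≠ g y)
    (K : Matrix X Y ℂ) (M M' : Matrix Y Y ℂ) (hM : M' * M = 1) :
    ext g M' * Eop f g K * ext g M = Eop f g (K * M) := by
  have h' : ∀ y x, g y ≠ f x := fun y x => (h x y).symm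
  have hM' : ∀ (Q : Matrix Y W ℂ), M' * (M * Q) = Q := by
    intro Q
    rw [← Matrix.mul_assoc, hM, Matrix.one_mul]
  simp only [Eop, ext, Matrix.mul_add, Matrix.add_mul, Matrix.mul_sub, Matrix.sub_mul,
    Matrix.mul_one, Matrix.one_mul, Matrix.mul_assoc, incT_inc_disj_assoc h',
    incT_inc_assoc hg, Matrix.mul_zero, hM']
  abel

theorem conj_left {f : X → W} {g : Y → W} (hf : Function.Injective f) (h : ∀ x y, f x ≠ g y)
    (K : Matrix X Y ℂ) (M M' : Matrix X X ℂ) (hM : M * M' = 1) :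
    ext f M * Eop f g K * ext f M' = Eop f g (M * K) := by
  have h' : ∀ y x, g y ≠ f x := fun y x => (h x y).symm
  have hM' : ∀ (Q : Matrix X W ℂ), M * (M' * Q) = Q := by
    intro Q
    rw [← Matrix.mul_assoc, hM, Matrix.one_mul]
  simp only [Eop, ext, Matrix.mul_add, Matrix.add_mul, Matrix.mul_sub, Matrix.sub_mul,
    Matrix.mul_one, Matrix.one_mul, Matrix.mul_assoc, incT_inc_disj_assoc h',
    incT_inc_assoc hf, Matrix.mul_zero, hM']
  abel

/-- the commutator trick -/
theorem comm_trick {f : X → W} {a : A → W} {g : Y → W} (ha : Function.Injective a)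
    (hfa : ∀ x z, f x ≠ a z) (hfg : ∀ x y, f x ≠ g y) (hag : ∀ z y, a z ≠ g y)
    (Q : Matrix X A ℂ) (P : Matrix A Y ℂ) :
    Eop f a Q * Eop a g P * Eop f a (-Q) * Eop a g (-P) = Eop f g (Q * P) := by
  have haf : ∀ z x, a z ≠ f x := fun z x => (hfa x z).symm
  have hgf : ∀ y x, g y ≠ f x := fun y x => (hfg x y).symm
  have hga : ∀ y z, g y ≠ a z := fun y z => (hag z y).symm
  simp only [Eop, Matrix.mul_add, Matrix.add_mul, Matrix.neg_mul, Matrix.mul_neg,
    Matrix.mul_one, Matrix.one_mul, Matrix.mul_assoc, incT_inc_disj_assoc haf,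
    incT_inc_disj_assoc hgf, incT_inc_disj_assoc hga,
    incT_inc_assoc ha, Matrix.mul_zero, Matrix.zero_mul]
  abel

/-- Whitehead's lemma -/
theorem whitehead {f g : X → W} (hf : Function.Injective f) (hg : Function.Injective g)
    (h : ∀ x y, f x ≠ g y) (G G' : Matrix X X ℂ) (h1 : G * G' = 1) (h2 : G' * G = 1) :
    Eop f g G * Eop g f (-G') * Eop f g G * (Eop f g (-1) * Eop g f 1 * Eop f g (-1)) =
      ext f G * ext g G' := by
  have h' : ∀ y x, g y ≠ f x := fun y x => (h x y).symm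
  have e1 : ∀ (Q : Matrix X W ℂ), G * (G' * Q) = Q := by
    intro Q
    rw [← Matrix.mul_assoc, h1, Matrix.one_mul]
  have e2 : ∀ (Q : Matrix X W ℂ), G' * (G * Q) = Q := by
    intro Q
    rw [← Matrix.mul_assoc, h2, Matrix.one_mul]
  have a1 : Eop f g G * Eop g f (-G') * Eop f g G =
      1 + inc f * (G * (inc g)ᵀ) - inc g * (G' * (inc f)ᵀ) - inc f * (inc f)ᵀ
        - inc g * (inc g)ᵀ := by
    simp only [Eop, Matrix.mul_add, Matrix.add_mul, Matrix.neg_mul, Matrix.mul_neg,
      Matrix.mul_one, Matrix.one_mul, Matrix.mul_assoc, incT_inc_disj_assoc h,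
      incT_inc_disj_assoc h', incT_inc_assoc hf, incT_inc_assoc hg, Matrix.mul_zero, Matrix.zero_mul, e1, e2]
    abel
  have a2 : Eop f g (-1 : Matrix X X ℂ) * Eop g f 1 * Eop f g (-1) =
      1 - inc f * (inc g)ᵀ + inc g * (inc f)ᵀ - inc f * (inc f)ᵀ
        - inc g * (inc g)ᵀ := by
    simp only [Eop, Matrix.mul_add, Matrix.add_mul, Matrix.neg_mul, Matrix.mul_neg,
      Matrix.mul_one, Matrix.one_mul, Matrix.mul_assoc, incT_inc_disj_assoc h,
      incT_inc_disj_assoc h', incT_inc_assoc hf, incT_inc_assoc hg, Matrix.mul_zero, Matrix.zero_mul]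
    abel
  rw [a1, a2]
  simp only [ext, Matrix.mul_add, Matrix.add_mul, Matrix.mul_sub, Matrix.sub_mul, Matrix.neg_mul,
    Matrix.mul_neg, Matrix.mul_one, Matrix.one_mul, Matrix.mul_assoc, incT_inc_disj_assoc h,
    incT_inc_disj_assoc h', incT_inc_assoc hf, incT_inc_assoc hg, Matrix.mul_zero, Matrix.zero_mul]
  abel

end DFTC.LP
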