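import Crest.Agent.DFT.Defs
import Crest.Agent.DFT.LayBasic

/-!
S0501 Part F3/F4 (helper15): the FFT of order `2^k` as a product of `2k` matching layers, and
circulants of order `2^k` (up to a multiple of the identity) as products of `4k` layers.
-/

set_option autoImplicit false

open Matrix Finset

namespace DFTC

namespace FFT

theorem mono_diagonal {W : Type*} [DecidableEq W] (d : W → ℂ) (hd : ∀ w, d w ≠ 0) :
    Mono (Matrix.diagonal d) := by
  refine ⟨1, d, hd, fun w => by simp, fun w v hv => ?_⟩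
  simp only [Equiv.Perm.one_apply] at hv
  exact Matrix.diagonal_apply_ne d (Ne.symm hv)

theorem mono_perm {W : Type*} [DecidableEq W] (σ : Equiv.Perm W) :
    Mono (Matrix.of fun a b : W => if b = σ a then (1 : ℂ) else 0) := by
  refine ⟨σ, fun _ => 1, fun _ => one_ne_zero, fun w => by simp, fun w v hv => ?_⟩
  simp [hv]

theorem mono_one {W : Type*} [DecidableEq W] : Mono (1 : Matrix W W ℂ) := by
  rw [← Matrix.diagonal_one]
  exact mono_diagonal _ fun _ => one_ne_zero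

theorem Lay_submatrix_left {W : Type*} [Fintype W] [DecidableEq W] {M : Matrix W W ℂ} {ℓ : ℕ}
    (h : Lay ℓ M) (σ : Equiv.Perm W) : Lay ℓ (M.submatrix σ id) := by
  have e : M.submatrix σ id = (Matrix.of fun a b : W => if b = σ a then (1 : ℂ) else 0) * M := by
    ext a b
    simp [Matrix.mul_apply]
  rw [e]
  have := Lay.mul (Lay.mono (mono_perm σ)) h
  rwa [zero_add] at this

theorem Lay_smul {W : Type*} [Fintype W] [DecidableEq W] {M : Matrix W W ℂ} {ℓ : ℕ}
    (h : Lay ℓ M) (c : ℂ) (hc : c ≠ 0) : Lay ℓ (c • M) := by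
  have e : c • M = Matrix.diagonal (fun _ => c) * M := by
    ext a b
    simp [Matrix.diagonal_mul]
  rw [e]
  have := Lay.mul (Lay.mono (mono_diagonal _ fun _ : W => hc)) h
  rwa [zero_add] at this

/-- the butterfly -/
def H2 : Matrix (Fin 2) (Fin 2) ℂ := Matrix.of fun a b => (-1) ^ (a.val * b.val)

theorem Lay_H2 : Lay 2 H2 := by
  have e : H2 = 1 * !![1, 0; 1, 1] * (Matrix.diagonal ![1, -2] * !![1, 1; 0, 1] * 1) := by
    ext a b
    fin_cases a <;> fin_cases b <;> (simp [H2, Matrix.mul_apply, Fin.sum_univ_two]; try norm_num)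
  rw [e]
  refine Lay.step mono_one ?_ (Lay.step (mono_diagonal _ ?_) ?_ (Lay.mono mono_one))
  · refine ⟨fun _ => 0, ![0, 1], ?_, ?_, ?_, ?_, ?_⟩ <;> simp [Fin.forall_fin_two]
  · simp [Fin.forall_fin_two]
  · refine ⟨fun _ => 1, ![1, 0], ?_, ?_, ?_, ?_, ?_⟩ <;> simp [Fin.forall_fin_two]

/-- the Fourier matrix of order `N` for the root of unity `ζ` -/
def fm (N : ℕ) (ζ : ℂ) : Matrix (Fin N) (Fin N) ℂ := Matrix.of fun a b => ζ ^ (a.val * b.val)

theorem Lay_fm_step (N ℓ : ℕ) (ζ : ℂ) (hζ0 : ζ ≠ 0) (hζ : ζ ^ N = -1)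
    (h : Lay ℓ (fm N (ζ ^ 2))) : Lay (ℓ + 2) (fm (2 * N) ζ) := by
  -- the three factors on `Fin N × Fin 2`
  have hK : Lay ℓ (Matrix.kroneckerMap (· * ·) (fm N (ζ ^ 2)) (1 : Matrix (Fin 2) (Fin 2) ℂ)) :=
    Lay.kron_one h
  have hD : Lay 0 (Matrix.diagonal fun x : Fin N × Fin 2 => ζ ^ (x.1.val * x.2.val)) :=
    Lay.mono (mono_diagonal _ fun _ => pow_ne_zero _ hζ0)
  have hH : Lay 2 (Matrix.of fun x y : Fin N × Fin 2 =>
      (1 : Matrix (Fin N) (Fin N) ℂ) x.1 y.1 * H2 x.2 y.2) := by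
    refine Lay.reindex (Equiv.prodComm (Fin N) (Fin 2)) (fun a b => ?_)
      (Lay.kron_one (Y := Fin N) Lay_H2)
    show (1 : Matrix (Fin N) (Fin N) ℂ) a.1 b.1 * H2 a.2 b.2 =
      H2 a.2 b.2 * (1 : Matrix (Fin N) (Fin N) ℂ) a.1 b.1
    ring
  have hT := Lay.mul hH (Lay.mul hD hK)
  set T := (Matrix.of fun x y : Fin N × Fin 2 =>
      (1 : Matrix (Fin N) (Fin N) ℂ) x.1 y.1 * H2 x.2 y.2) *
    ((Matrix.diagonal fun x : Fin N × Fin 2 => ζ ^ (x.1.val * x.2.val)) *
      (Matrix.kroneckerMap (· * ·) (fm N (ζ ^ 2)) (1 : Matrix (Fin 2) (Fin 2) ℂ))) with hTdef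
  have hTval : ∀ (a : Fin N) (α : Fin 2) (b : Fin N) (β : Fin 2),
      T (a, α) (b, β) = H2 α β * ζ ^ (a.val * β.val) * (ζ ^ 2) ^ (a.val * b.val) := by
    intro a α b β
    rw [hTdef, Matrix.mul_apply, Fintype.sum_prod_type, Finset.sum_eq_single a]
    · rw [Finset.sum_eq_single β]
      · simp only [Matrix.of_apply, Matrix.one_apply_eq, Matrix.diagonal_mul,
          Matrix.kroneckerMap_apply, fm]
        ring
      · intro γ _ hγ
        simp [Matrix.diagonal_mul, Matrix.kroneckerMap_apply, Matrix.one_apply, hγ]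
      · intro hn; exact absurd (Finset.mem_univ _) hn
    · intro a' _ ha'
      refine Finset.sum_eq_zero fun γ _ => ?_
      simp [Matrix.one_apply, Ne.symm ha']
    · intro hn; exact absurd (Finset.mem_univ _) hn
  -- the index bijections
  let eo : Fin (2 * N) ≃ Fin N × Fin 2 :=
    (finProdFinEquiv (m := 2) (n := N)).symm.trans (Equiv.prodComm _ _)
  let ei : Fin (2 * N) ≃ Fin N × Fin 2 :=
    (finCongr (Nat.mul_comm 2 N)).trans (finProdFinEquiv (m := N) (n := 2)).symm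
  have ho : ∀ a : Fin (2 * N), a.val = (eo a).1.val + N * (eo a).2.val := by
    intro a
    have h1 : finProdFinEquiv ((finProdFinEquiv (m := 2) (n := N)).symm a) = a :=
      Equiv.apply_symm_apply _ _
    have h2 := congrArg Fin.val h1
    rw [finProdFinEquiv_apply_val] at h2
    simpa [eo] using h2.symm
  have hi : ∀ b : Fin (2 * N), b.val = (ei b).2.val + 2 * (ei b).1.val := by
    intro b
    have h1 : finProdFinEquiv ((finProdFinEquiv (m := N) (n := 2)).symm
        (finCongr (Nat.mul_comm 2 N) b)) = finCongr (Nat.mul_comm 2 N) b :=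
      Equiv.apply_symm_apply _ _
    have h2 := congrArg Fin.val h1
    rw [finProdFinEquiv_apply_val] at h2
    simpa [ei] using h2.symm
  have hfm : ∀ a b : Fin (2 * N), fm (2 * N) ζ a b = T (eo a) (ei b) := by
    intro a b
    rcases hea : eo a with ⟨a', α⟩
    rcases heb : ei b with ⟨b', β⟩
    have h1 := ho a
    have h2 := hi b
    rw [hea] at h1
    rw [heb] at h2
    simp only at h1 h2
    rw [hTval]
    simp only [fm, H2, Matrix.of_apply]
    have e : a.val * b.val = N * (α.val * β.val) + a'.val * β.val + 2 * (a'.val * b'.val) +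
        N * 2 * (α.val * b'.val) := by
      rw [h1, h2]; ring
    rw [e, pow_add, pow_add, pow_add, pow_mul, pow_mul ζ (N * 2), pow_mul ζ N 2, hζ,
      pow_mul ζ 2]
    norm_num
  have hL : Lay (ℓ + 2) (T.submatrix ei ei) := by
    refine Lay.reindex ei (M := T.submatrix ei ei) (M' := T) (fun a b => rfl) ?_
    have : 2 + (0 + ℓ) = ℓ + 2 := by ring
    rwa [this] at hT
  have hfin := Lay_submatrix_left hL (eo.trans ei.symm)
  have e : fm (2 * N) ζ = (T.submatrix ei ei).submatrix (eo.trans ei.symm) id := by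
    ext a b
    rw [hfm]
    simp
  rw [e]
  exact hfin

theorem Lay_fm (k : ℕ) : ∀ ζ : ℂ, IsPrimitiveRoot ζ (2 ^ k) → Lay (2 * k) (fm (2 ^ k) ζ) := by
  induction k with
  | zero =>
    intro ζ hζ
    refine Lay.mono ?_
    refine ⟨1, fun _ => 1, fun _ => one_ne_zero, fun w => ?_, fun w v hv => ?_⟩
    · simp [fm]
    · exfalso
      apply hv
      have hw := w.isLt
      have hv' := v.isLt
      apply Fin.ext
      simp only [Equiv.Perm.one_apply]
      omega
  | succ k ih =>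
    intro ζ hζ
    have hζ0 : ζ ≠ 0 := hζ.ne_zero (by positivity)
    have h2 : IsPrimitiveRoot (ζ ^ 2) (2 ^ k) := hζ.pow (by positivity) (pow_succ' 2 k)
    have h3 : ζ ^ (2 ^ k) = -1 :=
      (hζ.pow (by positivity) (pow_succ 2 k)).eq_neg_one_of_two_right
    have h := Lay_fm_step (2 ^ k) (2 * k) ζ hζ0 h3 (ih _ h2)
    rw [pow_succ' 2 k]
    exact h

end FFT

open FFT

theorem Lay_fft (k : ℕ) (ψ : AddChar (ZMod (2 ^ k)) ℂ) (hψ : ψ.IsPrimitive) :
    Lay (2 * k) (GM ψ) := by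
  have hnat : ∀ n : ℕ, ψ (n : ZMod (2 ^ k)) = ψ 1 ^ n := by
    intro n
    rw [← AddChar.map_nsmul_eq_pow, nsmul_one]
  have hζ : IsPrimitiveRoot (ψ 1) (2 ^ k) := by
    constructor
    · rw [← hnat, ZMod.natCast_self, AddChar.map_zero_eq_one]
    · intro l hl
      rw [← hnat, AddChar.IsPrimitive.zmod_char_eq_one_iff _ hψ] at hl
      exact (ZMod.natCast_eq_zero_iff l (2 ^ k)).mp hl
  let e : ZMod (2 ^ k) ≃ Fin (2 ^ k) :=
    { toFun := fun a => ⟨a.val, ZMod.val_lt a⟩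
      invFun := fun i => (i.val : ZMod (2 ^ k))
      left_inv := fun a => by simp
      right_inv := fun i => by
        apply Fin.ext
        simp [ZMod.val_natCast, Nat.mod_eq_of_lt i.isLt] }
  refine Lay.reindex e (fun a b => ?_) (Lay_fm k (ψ 1) hζ)
  show ψ (a * b) = ψ 1 ^ (a.val * b.val)
  rw [← hnat]
  push_cast
  rw [ZMod.natCast_zmod_val, ZMod.natCast_zmod_val]

theorem FFT.circ_aux (N : ℕ) [NeZero N] (ℓ : ℕ)
    (hF : ∀ ψ : AddChar (ZMod N) ℂ, ψ.IsPrimitive → Lay ℓ (GM ψ)) (h : ZMod N → ℂ) :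
    ∃ (c : ℂ) (M M' : Matrix (ZMod N) (ZMod N) ℂ), M * M' = 1 ∧ M' * M = 1 ∧
      (∀ i j, M i j = h (i - j) + if i = j then c else 0) ∧ Lay (ℓ + (0 + ℓ)) M ∧
      Lay (ℓ + (0 + ℓ)) M' := by
  classical
  have hN0 : (N : ℂ) ≠ 0 := Nat.cast_ne_zero.mpr (NeZero.ne N)
  obtain ⟨ψ, hψ⟩ : ∃ ψ : AddChar (ZMod N) ℂ, ψ.IsPrimitive :=
    ⟨ZMod.stdAddChar, ZMod.isPrimitive_stdAddChar N⟩
  have hψ' : (ψ⁻¹).IsPrimitive := by
    intro a ha
    have h1 := hψ ha
    intro h2
    apply h1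
    ext x
    have h3 := DFunLike.congr_fun h2 (-x)
    simpa using h3
  obtain ⟨lam, hlam⟩ : ∃ lam : ZMod N → ℂ, ∀ m, lam m = ∑ x, h x * ψ (x * m) := ⟨_, fun _ => rfl⟩
  obtain ⟨c, hc⟩ := Infinite.exists_notMem_finset (Finset.univ.image fun m => - lam m)
  have hμ : ∀ m, lam m + c ≠ 0 := by
    intro m hm
    apply hc
    rw [Finset.mem_image]
    exact ⟨m, Finset.mem_univ _, by linear_combination -hm⟩
  have hsum : ∀ b : ZMod N, ∑ x, ψ (x * b) = if b = 0 then (N : ℂ) else 0 := by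
    intro b
    rw [AddChar.sum_mulShift b hψ, ZMod.card]
    split_ifs <;> simp
  -- G * F = N and F * G = N
  have hGF : GM ψ⁻¹ * GM ψ = (N : ℂ) • (1 : Matrix (ZMod N) (ZMod N) ℂ) := by
    ext i j
    simp only [Matrix.mul_apply, GM, Matrix.of_apply, AddChar.inv_apply, Matrix.smul_apply,
      Matrix.one_apply, smul_eq_mul]
    have e : ∀ m : ZMod N, ψ (-(i * m)) * ψ (m * j) = ψ (m * (j - i)) := by
      intro m
      rw [← AddChar.map_add_eq_mul]
      congr 1
      ring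
    rw [Finset.sum_congr rfl fun m _ => e m, hsum]
    by_cases hij : i = j
    · simp [hij]
    · rw [if_neg (sub_ne_zero.mpr (Ne.symm hij)), if_neg hij, mul_zero]
  have hFG : GM ψ * GM ψ⁻¹ = (N : ℂ) • (1 : Matrix (ZMod N) (ZMod N) ℂ) := by
    ext i j
    simp only [Matrix.mul_apply, GM, Matrix.of_apply, AddChar.inv_apply, Matrix.smul_apply,
      Matrix.one_apply, smul_eq_mul]
    have e : ∀ m : ZMod N, ψ (i * m) * ψ (-(m * j)) = ψ (m * (i - j)) := by
      intro m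
      rw [← AddChar.map_add_eq_mul]
      congr 1
      ring
    rw [Finset.sum_congr rfl fun m _ => e m, hsum]
    by_cases hij : i = j
    · simp [hij]
    · rw [if_neg (sub_ne_zero.mpr hij), if_neg hij, mul_zero]
  have key : ∀ μ ν : ZMod N → ℂ, (∀ m, μ m * ν m = 1) →
      ((N : ℂ)⁻¹ • (GM ψ⁻¹ * (Matrix.diagonal μ * GM ψ))) *
        ((N : ℂ)⁻¹ • (GM ψ⁻¹ * (Matrix.diagonal ν * GM ψ))) = 1 := by
    intro μ ν hμν
    rw [Matrix.smul_mul, Matrix.mul_smul, smul_smul]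
    have e : (GM ψ⁻¹ * (Matrix.diagonal μ * GM ψ)) * (GM ψ⁻¹ * (Matrix.diagonal ν * GM ψ)) =
        GM ψ⁻¹ * (Matrix.diagonal μ * ((GM ψ * GM ψ⁻¹) * (Matrix.diagonal ν * GM ψ))) := by
      simp only [Matrix.mul_assoc]
    rw [e, hFG, Matrix.smul_mul, Matrix.one_mul, Matrix.mul_smul, Matrix.mul_smul,
      ← Matrix.mul_assoc (Matrix.diagonal μ), Matrix.diagonal_mul_diagonal]
    have e2 : (fun m => μ m * ν m) = fun _ => (1 : ℂ) := funext hμν
    rw [e2, Matrix.diagonal_one, Matrix.one_mul, hGF, smul_smul, smul_smul]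
    have e3 : (N : ℂ)⁻¹ * (N : ℂ)⁻¹ * (N * N) = 1 := by field_simp
    have e4 : (N : ℂ)⁻¹ * (N : ℂ)⁻¹ * N * N = 1 := by rw [← e3]; ring
    rw [← mul_assoc] at *
    rw [e4, one_smul]
  have hL : ∀ μ : ZMod N → ℂ, (∀ m, μ m ≠ 0) →
      Lay (ℓ + (0 + ℓ)) ((N : ℂ)⁻¹ • (GM ψ⁻¹ * (Matrix.diagonal μ * GM ψ))) := by
    intro μ hμ
    exact Lay_smul (Lay.mul (hF _ hψ') (Lay.mul (Lay.mono (mono_diagonal μ hμ)) (hF _ hψ))) _
      (inv_ne_zero hN0)
  refine ⟨c, (N : ℂ)⁻¹ • (GM ψ⁻¹ * (Matrix.diagonal (fun m => lam m + c) * GM ψ)),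
    (N : ℂ)⁻¹ • (GM ψ⁻¹ * (Matrix.diagonal (fun m => (lam m + c)⁻¹) * GM ψ)),
    key _ _ fun m => mul_inv_cancel₀ (hμ m), key _ _ fun m => inv_mul_cancel₀ (hμ m), ?_,
    hL _ hμ, hL _ fun m => inv_ne_zero (hμ m)⟩
  intro i j
  have e1 : ((N : ℂ)⁻¹ • (GM ψ⁻¹ * (Matrix.diagonal (fun m => lam m + c) * GM ψ))) i j =
      (N : ℂ)⁻¹ * ∑ m, (lam m + c) * ψ (m * (j - i)) := by
    rw [Matrix.smul_apply, Matrix.mul_apply, smul_eq_mul]
    congr 1
    refine Finset.sum_congr rfl fun m _ => ?_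
    rw [Matrix.diagonal_mul]
    simp only [GM, Matrix.of_apply, AddChar.inv_apply]
    have : ψ (m * (j - i)) = ψ (-(i * m)) * ψ (m * j) := by
      rw [← AddChar.map_add_eq_mul]
      congr 1
      ring
    rw [this]
    ring
  have e2 : ∑ m, (lam m + c) * ψ (m * (j - i)) =
      ∑ m, lam m * ψ (m * (j - i)) + c * ∑ m, ψ (m * (j - i)) := by
    rw [Finset.mul_sum, ← Finset.sum_add_distrib]
    refine Finset.sum_congr rfl fun m _ => ?_
    ring
  have e3 : ∑ m, lam m * ψ (m * (j - i)) = N * h (i - j) := by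
    have e4 : ∀ m, lam m * ψ (m * (j - i)) = ∑ x, h x * ψ (m * (x + (j - i))) := by
      intro m
      rw [hlam, Finset.sum_mul]
      refine Finset.sum_congr rfl fun x _ => ?_
      rw [mul_assoc, ← AddChar.map_add_eq_mul]
      congr 2
      ring
    rw [Finset.sum_congr rfl fun m _ => e4 m, Finset.sum_comm]
    have e5 : ∀ x, ∑ m, h x * ψ (m * (x + (j - i))) = if x = i - j then N * h x else 0 := by
      intro x
      rw [← Finset.mul_sum, hsum]
      have : x + (j - i) = 0 ↔ x = i - j := by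
        constructor
        · intro h; linear_combination h
        · intro h; rw [h]; ring
      by_cases hx : x = i - j
      · rw [if_pos (this.mpr hx), if_pos hx]; ring
      · rw [if_neg (fun h => hx (this.mp h)), if_neg hx, mul_zero]
    rw [Finset.sum_congr rfl fun x _ => e5 x, Finset.sum_ite_eq' Finset.univ (i - j)]
    simp
  rw [e1, e2, e3, hsum]
  by_cases hij : i = j
  · rw [if_pos (by rw [hij, sub_self]), if_pos hij]
    field_simp
  · rw [if_neg (sub_ne_zero.mpr (Ne.symm hij)), if_neg hij]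
    field_simp
    ring

theorem Lay_circ (k : ℕ) (h : ZMod (2 ^ k) → ℂ) :
    ∃ (c : ℂ) (M M' : Matrix (ZMod (2 ^ k)) (ZMod (2 ^ k)) ℂ), M * M' = 1 ∧ M' * M = 1 ∧
      (∀ i j, M i j = h (i - j) + if i = j then c else 0) ∧ Lay (4 * k) M ∧ Lay (4 * k) M' := by
  have := FFT.circ_aux (2 ^ k) (2 * k) (Lay_fft k) h
  have e : 2 * k + (0 + 2 * k) = 4 * k := by ring
  rw [e] at this
  exact this

end DFTC
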