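import Crest.Agent.DFT.LPExt
import Crest.Agent.DFT.LayBasic
import Crest.Agent.DFT.LayFFT

/-!
S0501 Part G: `ext f` preserves monomial matrices, layers and `Lay`; partial matchings are layers.
-/

set_option autoImplicit false
set_option linter.unusedSectionVars false

namespace DFTC.LP

open Matrix

variable {W X Y Z A : Type*} [Fintype W] [DecidableEq W] [Fintype X] [DecidableEq X]
  [Fintype Y] [DecidableEq Y] [Fintype Z] [DecidableEq Z] [Fintype A] [DecidableEq A]

theorem Eop_apply_in {f : X → W} {g : Y → W} (hf : Function.Injective f)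
    (K : Matrix X Y ℂ) (x : X) (v : W) :
    Eop f g K (f x) v = (if f x = v then 1 else 0) + ∑ y, if v = g y then K x y else 0 := by
  simp only [Eop, Matrix.add_apply, Matrix.one_apply, Matrix.mul_apply, inc, Matrix.of_apply,
    Matrix.transpose_apply, ite_mul, one_mul, zero_mul, mul_ite, mul_one, mul_zero]
  congr 1
  rw [Finset.sum_eq_single x]
  · simp
  · intro x' _ hx'
    rw [if_neg (fun h => hx' (hf h).symm)]
  · intro h; exact absurd (Finset.mem_univ _) h

theorem Eop_apply_out {f : X → W} {g : Y → W} (K : Matrix X Y ℂ) (w v : W)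
    (hw : ∀ x, f x ≠ w) : Eop f g K w v = if w = v then 1 else 0 := by
  simp only [Eop, Matrix.add_apply, Matrix.one_apply, Matrix.mul_apply, inc, Matrix.of_apply,
    Matrix.transpose_apply, ite_mul, one_mul, zero_mul, mul_ite, mul_one, mul_zero]
  rw [Finset.sum_eq_zero, add_zero]
  intro x _
  rw [if_neg (fun h => hw x h.symm)]

theorem Eop_apply_in' {f : X → W} {g : Y → W} (hf : Function.Injective f)
    (hg : Function.Injective g) (h : ∀ x y, f x ≠ g y)
    (K : Matrix X Y ℂ) (x : X) (y : Y) : Eop f g K (f x) (g y) = K x y := by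
  rw [Eop_apply_in hf, if_neg (h x y), zero_add, Finset.sum_eq_single y]
  · simp
  · intro y' _ hy'
    rw [if_neg (fun h => hy' (hg h).symm)]
  · intro h; exact absurd (Finset.mem_univ _) h

/-- entries of `ext` -/
theorem ext_apply_in {f : X → W} (hf : Function.Injective f) (M : Matrix X X ℂ) (x y : X) :
    ext f M (f x) (f y) = M x y := by
  have : ext f M = Eop f f (M - 1) := rfl
  rw [this, Eop_apply_in hf, Finset.sum_eq_single y]
  · simp only [if_true, Matrix.sub_apply, Matrix.one_apply, hf.eq_iff]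
    ring
  · intro y' _ hy'
    rw [if_neg (fun h => hy' (hf h).symm)]
  · intro h; exact absurd (Finset.mem_univ _) h

theorem ext_apply_in_out {f : X → W} (hf : Function.Injective f) (M : Matrix X X ℂ) (x : X)
    (v : W) (hv : ∀ y, f y ≠ v) : ext f M (f x) v = 0 := by
  have : ext f M = Eop f f (M - 1) := rfl
  rw [this, Eop_apply_in hf, if_neg (hv x), zero_add, Finset.sum_eq_zero]
  intro y _
  rw [if_neg (fun h => hv y h.symm)]

theorem ext_apply_out {f : X → W} (M : Matrix X X ℂ) (w v : W) (hw : ∀ x, f x ≠ w) :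
    ext f M w v = if w = v then 1 else 0 := Eop_apply_out (M - 1) w v hw

theorem Mono_ext {f : X → W} (hf : Function.Injective f) {M : Matrix X X ℂ} (h : Mono M) :
    Mono (ext f M) := by
  classical
  obtain ⟨σ, d, hd, h1, h2⟩ := h
  refine ⟨σ.extendDomain (Equiv.ofInjective f hf), fun w => if h : ∃ x, f x = w then d h.choose
    else 1, ?_, ?_, ?_⟩
  · intro w
    dsimp only
    split_ifs with hw
    · exact hd _
    · exact one_ne_zero
  · intro w
    by_cases hw : ∃ x, f x = w
    · obtain ⟨x, rfl⟩ := hw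
      have e1 : (σ.extendDomain (Equiv.ofInjective f hf)) (f x) = f (σ x) := by
        have := Equiv.Perm.extendDomain_apply_image σ (Equiv.ofInjective f hf) x
        simpa using this
      have hex : ∃ x', f x' = f x := ⟨x, rfl⟩
      have e2 : hex.choose = x := hf hex.choose_spec
      rw [e1, ext_apply_in hf, h1]
      dsimp only
      rw [dif_pos hex, e2]
    · have e1 : (σ.extendDomain (Equiv.ofInjective f hf)) w = w := by
        apply Equiv.Perm.extendDomain_apply_not_subtype
        rintro ⟨x, hx⟩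
        exact hw ⟨x, hx⟩
      rw [e1, ext_apply_out _ _ _ (fun x hx => hw ⟨x, hx⟩), if_pos rfl]
      dsimp only
      rw [dif_neg hw]
  · intro w v hv
    by_cases hw : ∃ x, f x = w
    · obtain ⟨x, rfl⟩ := hw
      have e1 : (σ.extendDomain (Equiv.ofInjective f hf)) (f x) = f (σ x) := by
        have := Equiv.Perm.extendDomain_apply_image σ (Equiv.ofInjective f hf) x
        simpa using this
      rw [e1] at hv
      by_cases hv' : ∃ y, f y = v
      · obtain ⟨y, rfl⟩ := hv'
        rw [ext_apply_in hf]
        apply h2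
        intro h
        exact hv (by rw [h])
      · exact ext_apply_in_out hf _ _ _ (fun y hy => hv' ⟨y, hy⟩)
    · have e1 : (σ.extendDomain (Equiv.ofInjective f hf)) w = w := by
        apply Equiv.Perm.extendDomain_apply_not_subtype
        rintro ⟨x, hx⟩
        exact hw ⟨x, hx⟩
      rw [e1] at hv
      rw [ext_apply_out _ _ _ (fun x hx => hw ⟨x, hx⟩), if_neg (fun h => hv h.symm)]

theorem IsLayer_ext {f : X → W} (hf : Function.Injective f) {M : Matrix X X ℂ} (h : IsLayer M) :
    IsLayer (ext f M) := by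
  classical
  obtain ⟨s, c, h1, h2, h3, h4, h5⟩ := h
  have key : ∀ x (hx : ∃ x', f x' = f x), hx.choose = x := fun x hx => hf hx.choose_spec
  refine ⟨fun w => if h : ∃ x, f x = w then f (s h.choose) else w,
    fun w => if h : ∃ x, f x = w then c h.choose else 0, ?_, ?_, ?_, ?_, ?_⟩
  · intro w hw
    dsimp only at hw ⊢
    by_cases hx : ∃ x, f x = w
    · obtain ⟨x, rfl⟩ := hx
      have hex : ∃ x', f x' = f x := ⟨x, rfl⟩
      rw [dif_pos hex, key x hex] at hw
      rw [dif_pos hex, key x hex]
      have hex2 : ∃ x', f x' = f (s x) := ⟨_, rfl⟩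
      rw [dif_pos hex2, key _ hex2]
      exact h1 x hw
    · rw [dif_neg hx] at hw
      exact absurd rfl hw
  · intro w w' hw hw' hs
    dsimp only at hw hw' hs
    by_cases hx : ∃ x, f x = w
    · by_cases hx' : ∃ x, f x = w'
      · obtain ⟨x, rfl⟩ := hx
        obtain ⟨x', rfl⟩ := hx'
        have hex : ∃ x', f x' = f x := ⟨x, rfl⟩
        have hex' : ∃ x'', f x'' = f x' := ⟨x', rfl⟩
        rw [dif_pos hex, key x hex] at hw
        rw [dif_pos hex', key x' hex'] at hw'
        rw [dif_pos hex, dif_pos hex', key x hex, key x' hex'] at hs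
        rw [h2 x x' hw hw' (hf hs)]
      · rw [dif_neg hx'] at hw'
        exact absurd rfl hw'
    · rw [dif_neg hx] at hw
      exact absurd rfl hw
  · intro w
    by_cases hx : ∃ x, f x = w
    · obtain ⟨x, rfl⟩ := hx
      rw [ext_apply_in hf, h3]
    · rw [ext_apply_out _ _ _ (fun x hx' => hx ⟨x, hx'⟩), if_pos rfl]
  · intro w hw
    dsimp only at hw ⊢
    by_cases hx : ∃ x, f x = w
    · obtain ⟨x, rfl⟩ := hx
      have hex : ∃ x', f x' = f x := ⟨x, rfl⟩
      rw [dif_pos hex, key x hex] at hw
      rw [dif_pos hex, dif_pos hex, key x hex, ext_apply_in hf]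
      exact h4 x hw
    · rw [dif_neg hx] at hw
      exact absurd rfl hw
  · intro w v hv hvs
    dsimp only at hvs
    by_cases hx : ∃ x, f x = w
    · obtain ⟨x, rfl⟩ := hx
      have hex : ∃ x', f x' = f x := ⟨x, rfl⟩
      rw [dif_pos hex, dif_pos hex, key x hex] at hvs
      by_cases hv' : ∃ y, f y = v
      · obtain ⟨y, rfl⟩ := hv'
        rw [ext_apply_in hf]
        apply h5
        · intro h; exact hv (by rw [h])
        · intro hc h; exact hvs hc (by rw [h])
      · exact ext_apply_in_out hf _ _ _ (fun y hy => hv' ⟨y, hy⟩)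
    · rw [ext_apply_out _ _ _ (fun x hx' => hx ⟨x, hx'⟩), if_neg (fun h => hv h.symm)]

theorem Lay_ext {f : X → W} (hf : Function.Injective f) {M : Matrix X X ℂ} {l : ℕ}
    (h : Lay l M) : Lay l (ext f M) := by
  induction h with
  | mono h => exact Lay.mono (Mono_ext hf h)
  | step hA hL _ ih =>
    rw [ext_mul hf, ext_mul hf]
    exact Lay.step (Mono_ext hf hA) (IsLayer_ext hf hL) ih

theorem Mono_one : Mono (1 : Matrix W W ℂ) := by
  refine ⟨Equiv.refl W, fun _ => 1, fun _ => one_ne_zero, fun w => ?_, fun w v hv => ?_⟩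
  · exact Matrix.one_apply_eq w
  have hv : v ≠ w := hv
  rw [Matrix.one_apply, if_neg (fun h => hv h.symm)]

theorem Lay_of_layer {M : Matrix W W ℂ} (h : IsLayer M) : Lay 1 M := by
  have := Lay.step (Mono_one (W := W)) h (Lay.mono (Mono_one (W := W)))
  simpa using this

/-- a scaled partial matching is a layer -/
theorem IsLayer_E {f g : X → W} (hf : Function.Injective f) (hg : Function.Injective g)
    (h : ∀ x y, f x ≠ g y) (c : ℂ) : IsLayer (Eop f g (c • (1 : Matrix X X ℂ))) := by
  classical
  have key : ∀ x (hx : ∃ x', f x' = f x), hx.choose = x := fun x hx => hf hx.choose_spec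
  refine ⟨fun w => if h : ∃ x, f x = w then g h.choose else w,
    fun w => if ∃ x, f x = w then c else 0, ?_, ?_, ?_, ?_, ?_⟩
  · intro w hw
    dsimp only at hw ⊢
    by_cases hx : ∃ x, f x = w
    · obtain ⟨x, rfl⟩ := hx
      have hex : ∃ x', f x' = f x := ⟨x, rfl⟩
      rw [dif_pos hex, key x hex, if_neg]
      rintro ⟨x', hx'⟩
      exact h _ _ hx'
    · rw [if_neg hx] at hw
      exact absurd rfl hw
  · intro w w' hw hw' hs
    dsimp only at hw hw' hs
    by_cases hx : ∃ x, f x = w
    · by_cases hx' : ∃ x, f x = w'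
      · obtain ⟨x, rfl⟩ := hx
        obtain ⟨x', rfl⟩ := hx'
        have hex : ∃ x', f x' = f x := ⟨x, rfl⟩
        have hex' : ∃ x'', f x'' = f x' := ⟨x', rfl⟩
        rw [dif_pos hex, dif_pos hex', key x hex, key x' hex'] at hs
        rw [hg hs]
      · rw [if_neg hx'] at hw'
        exact absurd rfl hw'
    · rw [if_neg hx] at hw
      exact absurd rfl hw
  · intro w
    by_cases hx : ∃ x, f x = w
    · obtain ⟨x, rfl⟩ := hx
      rw [Eop_apply_in hf, if_pos rfl, Finset.sum_eq_zero, add_zero]
      intro y _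
      rw [if_neg (h x y)]
    · rw [Eop_apply_out _ _ _ (fun x hx' => hx ⟨x, hx'⟩), if_pos rfl]
  · intro w hw
    dsimp only at hw ⊢
    by_cases hx : ∃ x, f x = w
    · obtain ⟨x, rfl⟩ := hx
      have hex : ∃ x', f x' = f x := ⟨x, rfl⟩
      rw [dif_pos hex, if_pos hex, key x hex, Eop_apply_in' hf hg h]
      simp
    · rw [if_neg hx] at hw
      exact absurd rfl hw
  · intro w v hv hvs
    dsimp only at hvs
    by_cases hx : ∃ x, f x = w
    · obtain ⟨x, rfl⟩ := hx
      have hex : ∃ x', f x' = f x := ⟨x, rfl⟩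
      rw [dif_pos hex, if_pos hex, key x hex] at hvs
      rw [Eop_apply_in hf, if_neg (fun h => hv h.symm), zero_add]
      apply Finset.sum_eq_zero
      intro y _
      split_ifs with hy
      · by_cases hc : c = 0
        · simp [hc]
        · have : x ≠ y := by
            rintro rfl
            exact hvs hc hy
          simp [Matrix.one_apply, this]
      · rfl
    · rw [Eop_apply_out _ _ _ (fun x hx' => hx ⟨x, hx'⟩), if_neg (fun h => hv h.symm)]

theorem Lay_E {f g : X → W} (hf : Function.Injective f) (hg : Function.Injective g)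
    (h : ∀ x y, f x ≠ g y) (c : ℂ) : Lay 1 (Eop f g (c • (1 : Matrix X X ℂ))) :=
  Lay_of_layer (IsLayer_E hf hg h c)

end DFTC.LP
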