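import Crest.Agent.DFT.Defs

set_option autoImplicit false

namespace DFTC

open Matrix Finset

/-! States `W → F` (contents of the wires), gates `s_i ± s_j`. -/

section Run
variable {W : Type*} [DecidableEq W] {F : Type*} [AddCommGroup F]

def op (σ : Bool) (a b : F) : F := if σ then a + b else a - b

@[simp] lemma op_true (a b : F) : op true a b = a + b := rfl
@[simp] lemma op_false (a b : F) : op false a b = a - b := rfl

inductive Run (s : W → F) : (W → F) → ℕ → Prop
  | refl : Run s s 0
  | step {s' : W → F} {t : ℕ} (σ : Bool) (i j : W) (hij : i ≠ j) (h : Run s s' t) :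
      Run s (Function.update s' i (op σ (s' i) (s' j))) (t + 1)

lemma Run.trans {s s' s'' : W → F} {a b : ℕ} (h : Run s s' a) (h' : Run s' s'' b) :
    Run s s'' (a + b) := by
  induction h' with
  | refl => simpa using h
  | step σ i j hij h1 ih => exact Run.step σ i j hij ih

lemma Run.single {s : W → F} (σ : Bool) (i j : W) (hij : i ≠ j) :
    Run s (Function.update s i (op σ (s i) (s j))) 1 := Run.step σ i j hij Run.refl

lemma Run.symm {s s' : W → F} {a : ℕ} (h : Run s s' a) : Run s' s a := by
  induction h with
  | refl => exact Run.refl
  | @step s' t σ i j hij h1 ih =>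
    have h2 : Run (Function.update s' i (op σ (s' i) (s' j))) s' 1 := by
      have := Run.single (s := Function.update s' i (op σ (s' i) (s' j))) (!σ) i j hij
      convert this using 1
      funext w
      by_cases hw : w = i
      · subst hw
        cases σ <;> simp [Function.update_of_ne (Ne.symm hij)]
      · simp [Function.update_of_ne hw]
    have := h2.trans ih
    rwa [Nat.add_comm] at this

/-- a parallel family of gates with distinct targets, no target is a source -/
lemma Run.fam {I : Type*} [Fintype I] (σ : I → Bool) (tgt src : I → W)
    (hinj : Function.Injective tgt) (hdisj : ∀ i j, tgt i ≠ src j) (s s' : W → F)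
    (h1 : ∀ i, s' (tgt i) = op (σ i) (s (tgt i)) (s (src i)))
    (h2 : ∀ w, (∀ i, tgt i ≠ w) → s' w = s w) : Run s s' (Fintype.card I) := by
  classical
  have key : ∀ A : Finset I, Run s
      (fun w => if ∃ i ∈ A, tgt i = w then s' w else s w) A.card := by
    intro A
    induction A using Finset.induction_on with
    | empty => simpa using Run.refl (s := s)
    | @insert a A ha ih =>
      have h3 := Run.step (σ a) (tgt a) (src a) (hdisj a a) ih
      rw [Finset.card_insert_of_notMem ha]
      convert h3 using 1
      funext w
      by_cases hw : w = tgt a
      · subst hw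
        have e1 : ¬ ∃ i ∈ A, tgt i = tgt a := by
          rintro ⟨i, hi, hia⟩
          exact ha (hinj hia ▸ hi)
        have e2 : ¬ ∃ i ∈ A, tgt i = src a := by
          rintro ⟨i, -, hia⟩
          exact hdisj i a hia
        have e3 : ∃ i ∈ insert a A, tgt i = tgt a := ⟨a, Finset.mem_insert_self _ _, rfl⟩
        simp only [e3, if_true, Function.update_self, e1, e2, if_false]
        exact h1 a
      · rw [Function.update_of_ne hw]
        have : (∃ i ∈ insert a A, tgt i = w) ↔ ∃ i ∈ A, tgt i = w := by
          simp only [Finset.mem_insert, exists_eq_or_imp]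
          constructor
          · rintro (h | h)
            · exact absurd h.symm hw
            · exact h
          · exact Or.inr
        simp only [this]
  have h4 := key Finset.univ
  have h5 : (fun w => if ∃ i ∈ (Finset.univ : Finset I), tgt i = w then s' w else s w) = s' := by
    funext w
    by_cases h : ∃ i ∈ (Finset.univ : Finset I), tgt i = w
    · rw [if_pos h]
    · rw [if_neg h]
      symm
      apply h2
      intro i hi
      exact h ⟨i, Finset.mem_univ _, hi⟩
  rw [h5, Finset.card_univ] at h4
  exact h4

end Run

section toTV
variable {W : Type*} [DecidableEq W] [Fintype W]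

lemma TV_of_Run {M : W → W → ℂ} {t : ℕ}
    (h : Run (fun i j => (1 : Matrix W W ℂ) i j) M t) : TV (Matrix.of M) t := by
  induction h with
  | refl => exact TV.one
  | @step s' t σ i j hij h ih =>
    have := TV.step i j (if σ then (1 : ℂ) else -1) hij (by cases σ <;> simp) ih
    convert this using 1
    ext a b
    rw [Matrix.transvection, Matrix.add_mul, Matrix.one_mul, Matrix.add_apply]
    by_cases ha : a = i
    · subst ha
      cases σ <;> simp [sub_eq_add_neg]
    · simp [Function.update_of_ne ha, ha]

end toTV
end DFTC
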