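import Crest.Agent.DFT.Walk

set_option autoImplicit false
set_option linter.unusedSimpArgs false

namespace DFTC

open Finset

section
variable {p : ℕ} {P Q : Type} [DecidableEq P] [DecidableEq Q] [Fintype P] [Fintype Q]
variable {F : Type*} [AddCommGroup F]
variable (U : Fin (p + 1) → Fin 4 → P → Bool → Q → Fin 4 → F)
variable (a1 : P → Bool → Q → Fin 4 → F)
variable (a2 : Fin (p + 1) → Fin 4 → Q → Fin 4 → F) (a3 : Fin (p + 1) → Fin 4 → P → Bool → F)

def SL1 : P → Bool → Q → Fin 4 → F := fun i b c g =>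
  if (b = false ∧ (g = 1 ∨ g = 2)) ∨ (b = true ∧ g = 0) then a1 i b c g - a1 i false c 0
  else a1 i b c g

def SL2 : Fin (p + 1) → Fin 4 → Q → Fin 4 → F := fun h e c g =>
  if g = 1 then a2 h e c 1 - (if e = 3 then a2 (h + 1) 0 c 0 else a2 h 0 c 0)
  else if g = 2 then a2 h e c 2 - a2 h 2 c 0
  else a2 h e c g

def SL3 : Fin (p + 1) → Fin 4 → P → Bool → F := fun h e i b =>
  if b = true then a3 h e i true - (if e = 0 ∨ e = 1 then a3 h 1 i false else a3 h 3 i false)
  else a3 h e i b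

def SI (p : ℕ) (P Q : Type) := (P × Q) ⊕ (P × Q) ⊕ (P × Q) ⊕ (Fin (p + 1) × Fin 4 × Q) ⊕
  (Fin (p + 1) × Fin 4 × Q) ⊕ (Fin (p + 1) × Fin 4 × P)

instance : Fintype (SI p P Q) := by unfold SI; infer_instance

def SItgt : SI p P Q → Bl p P Q
  | .inl k => Bl.l1 k.1 false k.2 1
  | .inr (.inl k) => Bl.l1 k.1 false k.2 2
  | .inr (.inr (.inl k)) => Bl.l1 k.1 true k.2 0
  | .inr (.inr (.inr (.inl k))) => Bl.l2 k.1 k.2.1 k.2.2 1
  | .inr (.inr (.inr (.inr (.inl k)))) => Bl.l2 k.1 k.2.1 k.2.2 2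
  | .inr (.inr (.inr (.inr (.inr k)))) => Bl.l3 k.1 k.2.1 k.2.2 true

def SIsrc : SI p P Q → Bl p P Q
  | .inl k => Bl.l1 k.1 false k.2 0
  | .inr (.inl k) => Bl.l1 k.1 false k.2 0
  | .inr (.inr (.inl k)) => Bl.l1 k.1 false k.2 0
  | .inr (.inr (.inr (.inl k))) => if k.2.1 = 3 then Bl.l2 (k.1 + 1) 0 k.2.2 0
      else Bl.l2 k.1 0 k.2.2 0
  | .inr (.inr (.inr (.inr (.inl k)))) => Bl.l2 k.1 2 k.2.2 0
  | .inr (.inr (.inr (.inr (.inr k)))) => if k.2.1 = 0 ∨ k.2.1 = 1 then Bl.l3 k.1 1 k.2.2 false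
      else Bl.l3 k.1 3 k.2.2 false

lemma serve_prep :
    Run (mk U a1 a2 a3) (mk U (SL1 a1) (SL2 a2) (SL3 a3)) (Fintype.card (SI p P Q)) := by
  apply Run.fam (I := SI p P Q) (fun _ => false) SItgt SIsrc
  · rintro (⟨i, c⟩ | ⟨i, c⟩ | ⟨i, c⟩ | ⟨h, e, c⟩ | ⟨h, e, c⟩ | ⟨h, e, i⟩)
      (⟨i', c'⟩ | ⟨i', c'⟩ | ⟨i', c'⟩ | ⟨h', e', c'⟩ | ⟨h', e', c'⟩ | ⟨h', e', i'⟩) hh <;>
      simp [SItgt] at hh <;>
      first
        | (obtain ⟨rfl, rfl, rfl⟩ := hh; rfl)
        | (obtain ⟨rfl, rfl⟩ := hh; rfl)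
  · rintro (⟨i, c⟩ | ⟨i, c⟩ | ⟨i, c⟩ | ⟨h, e, c⟩ | ⟨h, e, c⟩ | ⟨h, e, i⟩)
      (⟨i', c'⟩ | ⟨i', c'⟩ | ⟨i', c'⟩ | ⟨h', e', c'⟩ | ⟨h', e', c'⟩ | ⟨h', e', i'⟩) <;>
      simp only [SItgt, SIsrc] <;> (try split_ifs) <;> simp
  · rintro (⟨i, c⟩ | ⟨i, c⟩ | ⟨i, c⟩ | ⟨h, e, c⟩ | ⟨h, e, c⟩ | ⟨h, e, i⟩)
    · simp [SItgt, SIsrc, mk, SL1]
    · simp [SItgt, SIsrc, mk, SL1]
    · simp [SItgt, SIsrc, mk, SL1]
    · simp only [SItgt, SIsrc, mk, SL2]
      split_ifs <;> simp_all
    · simp [SItgt, SIsrc, mk, SL2]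
    · simp only [SItgt, SIsrc, mk, SL3]
      split_ifs <;> simp_all
  · rintro (_ | ⟨i, b, c, g⟩ | ⟨h, e, c, g⟩ | ⟨h, e, i, b⟩) hw
    · rfl
    · simp only [mk, SL1]
      rw [if_neg]
      rintro (⟨rfl, rfl | rfl⟩ | ⟨rfl, rfl⟩)
      · exact hw (.inl (i, c)) rfl
      · exact hw (.inr (.inl (i, c))) rfl
      · exact hw (.inr (.inr (.inl (i, c)))) rfl
    · simp only [mk, SL2]
      have h1 : g ≠ 1 := by
        rintro rfl
        exact hw (.inr (.inr (.inr (.inl (h, e, c))))) rfl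
      have h2 : g ≠ 2 := by
        rintro rfl
        exact hw (.inr (.inr (.inr (.inr (.inl (h, e, c)))))) rfl
      rw [if_neg h1, if_neg h2]
    · simp only [mk, SL3]
      rw [if_neg]
      rintro rfl
      exact hw (.inr (.inr (.inr (.inr (.inr (h, e, i)))))) rfl

/-- which classes are served by the walk -/
def Srv (e : Fin 4) (b : Bool) (g : Fin 4) : Prop :=
  g = 0 ∨ (b = false ∧ g = 1 ∧ e ≠ 2) ∨ (b = false ∧ g = 2 ∧ e ≠ 0)

instance (e : Fin 4) (b : Bool) (g : Fin 4) : Decidable (Srv e b g) := by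
  unfold Srv; infer_instance

abbrev KS := {k : Fin 4 × Bool × Fin 4 // Srv k.1 k.2.1 k.2.2}

lemma card_KS : Fintype.card KS = 14 := by decide

/-- the serve form -/
def sv (h : Fin (p + 1)) (e : Fin 4) (i : P) (b : Bool) (c : Q) (g : Fin 4) : F :=
  if b = false ∧ g = 0 then
    (if e = 0 then a1 i false c 0 - a1 i false c 1
     else if e = 2 then a1 i false c 0 - a1 i false c 2
     else a1 i false c 0 - a1 i true c 0)
  else if b = true ∧ g = 0 then SL3 a3 h e i true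
  else if b = false ∧ g = 1 then SL2 a2 h e c 1
  else if b = false ∧ g = 2 then SL2 a2 h e c 2
  else 0

def svsrc (h : Fin (p + 1)) (e : Fin 4) (i : P) (b : Bool) (c : Q) (g : Fin 4) : Bl p P Q :=
  if b = false ∧ g = 0 then
    (if e = 0 then .l1 i false c 1 else if e = 2 then .l1 i false c 2 else .l1 i true c 0)
  else if b = true ∧ g = 0 then .l3 h e i true
  else if b = false ∧ g = 1 then .l2 h e c 1
  else .l2 h e c 2

lemma serve_tap : Run (mk U (SL1 a1) (SL2 a2) (SL3 a3))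
    (mk (fun h e i b c g => if h.val < p ∧ Srv e b g then U h e i b c g + sv a1 a2 a3 h e i b c g
      else U h e i b c g) (SL1 a1) (SL2 a2) (SL3 a3))
      (Fintype.card (Fin p × P × Q × KS)) := by
  apply Run.fam (I := Fin p × P × Q × KS)
    (fun k => if k.2.2.2.1.2.1 = false ∧ k.2.2.2.1.2.2 = 0 then false else true)
    (fun k => Bl.u k.1.castSucc k.2.2.2.1.1 k.2.1 k.2.2.2.1.2.1 k.2.2.1 k.2.2.2.1.2.2)
    (fun k => svsrc k.1.castSucc k.2.2.2.1.1 k.2.1 k.2.2.2.1.2.1 k.2.2.1 k.2.2.2.1.2.2)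
  · rintro ⟨h, i, c, ⟨⟨e, b, g⟩, hk⟩⟩ ⟨h', i', c', ⟨⟨e', b', g'⟩, hk'⟩⟩ hh
    simp only [Bl.u.injEq, Fin.castSucc_inj] at hh
    obtain ⟨rfl, rfl, rfl, rfl, rfl, rfl⟩ := hh
    rfl
  · rintro ⟨h, i, c, ⟨⟨e, b, g⟩, hk⟩⟩ ⟨h', i', c', ⟨⟨e', b', g'⟩, hk'⟩⟩
    simp only [svsrc]
    split_ifs <;> simp
  · rintro ⟨h, i, c, ⟨⟨e, b, g⟩, hk⟩⟩
    have hlt : (h.castSucc).val < p ∧ Srv e b g := ⟨h.isLt, hk⟩
    simp only [mk]
    rw [if_pos hlt]
    simp only at hk
    rcases hk with rfl | ⟨rfl, rfl, he⟩ | ⟨rfl, rfl, he⟩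
    · cases b
      · simp only [svsrc, sv]
        split_ifs <;> simp_all [mk, SL1, sub_eq_add_neg]
      · simp [svsrc, sv, mk]
    · simp [svsrc, sv, mk]
    · simp [svsrc, sv, mk]
  · rintro (⟨h, e, i, b, c, g⟩ | _ | _ | _) hw
    · simp only [mk]
      rw [if_neg]
      rintro ⟨hlt, hs⟩
      apply hw (⟨h.val, hlt⟩, i, c, ⟨(e, b, g), hs⟩)
      simp
    · rfl
    · rfl
    · rfl

lemma serve :
    Run (mk U a1 a2 a3)
      (mk (fun h e i b c g => if h.val < p ∧ Srv e b g then U h e i b c g + sv a1 a2 a3 h e i b c g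
        else U h e i b c g) a1 a2 a3)
      (2 * Fintype.card (SI p P Q) + Fintype.card (Fin p × P × Q × KS)) := by
  have h1 := serve_prep U a1 a2 a3
  have h2 := serve_tap U a1 a2 a3
  have h3 := (serve_prep (fun h e i b c g => if h.val < p ∧ Srv e b g then
    U h e i b c g + sv a1 a2 a3 h e i b c g else U h e i b c g) a1 a2 a3).symm
  have := (h1.trans h2).trans h3
  convert this using 1
  ring

abbrev NI (p : ℕ) (P Q : Type) := {k : Fin (p + 1) × Fin 4 × P × Bool × Q × Fin 4 //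
  ¬ (k.1.val < p ∧ Srv k.2.1 k.2.2.2.1 k.2.2.2.2.2)}

lemma naive_one (src : Fin (p + 1) → Fin 4 → P → Bool → Q → Fin 4 → Bl p P Q)
    (hsrc : ∀ h e i b c g h' e' i' b' c' g', Bl.u h e i b c g ≠ src h' e' i' b' c' g') :
    Run (mk U a1 a2 a3)
      (mk (fun h e i b c g => if h.val < p ∧ Srv e b g then U h e i b c g
        else U h e i b c g + mk U a1 a2 a3 (src h e i b c g)) a1 a2 a3)
      (Fintype.card (NI p P Q)) := by
  apply Run.fam (I := NI p P Q) (fun _ => true)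
    (fun k => Bl.u k.1.1 k.1.2.1 k.1.2.2.1 k.1.2.2.2.1 k.1.2.2.2.2.1 k.1.2.2.2.2.2)
    (fun k => src k.1.1 k.1.2.1 k.1.2.2.1 k.1.2.2.2.1 k.1.2.2.2.2.1 k.1.2.2.2.2.2)
  · rintro ⟨⟨h, e, i, b, c, g⟩, hk⟩ ⟨⟨h', e', i', b', c', g'⟩, hk'⟩ hh
    simp only [Bl.u.injEq] at hh
    obtain ⟨rfl, rfl, rfl, rfl, rfl, rfl⟩ := hh
    rfl
  · rintro ⟨⟨h, e, i, b, c, g⟩, hk⟩ ⟨⟨h', e', i', b', c', g'⟩, hk'⟩
    exact hsrc _ _ _ _ _ _ _ _ _ _ _ _
  · rintro ⟨⟨h, e, i, b, c, g⟩, hk⟩
    simp only at hk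
    simp only [mk]
    rw [if_neg hk]
    rfl
  · rintro (⟨h, e, i, b, c, g⟩ | _ | _ | _) hw
    · simp only [mk]
      rw [if_pos]
      by_contra hk
      exact hw ⟨(h, e, i, b, c, g), hk⟩ rfl
    · rfl
    · rfl
    · rfl

lemma naive :
    Run (mk U a1 a2 a3)
      (mk (fun h e i b c g => if h.val < p ∧ Srv e b g then U h e i b c g
        else U h e i b c g + a1 i b c g + a2 h e c g + a3 h e i b) a1 a2 a3)
      (3 * Fintype.card (NI p P Q)) := by
  have h1 := naive_one U a1 a2 a3 (fun _ _ i b c g => .l1 i b c g) (by intros; simp)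
  have h2 := naive_one (fun h e i b c g => if h.val < p ∧ Srv e b g then U h e i b c g
        else U h e i b c g + a1 i b c g) a1 a2 a3 (fun h e _ _ c g => .l2 h e c g)
        (by intros; simp)
  have h3 := naive_one (fun h e i b c g => if h.val < p ∧ Srv e b g then U h e i b c g
        else U h e i b c g + a1 i b c g + a2 h e c g) a1 a2 a3 (fun h e i b _ _ => .l3 h e i b)
        (by intros; simp)
  simp only [mk] at h1 h2 h3
  have e2 : (fun (h : Fin (p + 1)) (e : Fin 4) (i : P) (b : Bool) (c : Q) (g : Fin 4) =>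
      if h.val < p ∧ Srv e b g then (if h.val < p ∧ Srv e b g then U h e i b c g
        else U h e i b c g + a1 i b c g) else
        (if h.val < p ∧ Srv e b g then U h e i b c g
        else U h e i b c g + a1 i b c g) + a2 h e c g) =
      fun h e i b c g => if h.val < p ∧ Srv e b g then U h e i b c g
        else U h e i b c g + a1 i b c g + a2 h e c g := by
    funext h e i b c g
    split_ifs <;> rfl
  have e3 : (fun (h : Fin (p + 1)) (e : Fin 4) (i : P) (b : Bool) (c : Q) (g : Fin 4) =>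
      if h.val < p ∧ Srv e b g then (if h.val < p ∧ Srv e b g then U h e i b c g
        else U h e i b c g + a1 i b c g + a2 h e c g) else
        (if h.val < p ∧ Srv e b g then U h e i b c g
        else U h e i b c g + a1 i b c g + a2 h e c g) + a3 h e i b) =
      fun h e i b c g => if h.val < p ∧ Srv e b g then U h e i b c g
        else U h e i b c g + a1 i b c g + a2 h e c g + a3 h e i b := by
    funext h e i b c g
    split_ifs <;> rfl
  rw [e2] at h2
  rw [e3] at h3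
  have := (h1.trans h2).trans h3
  convert this using 1
  ring

/-- the walker phase, from unprepared to unprepared registers -/
lemma walk_full :
    Run (mk U a1 a2 a3)
      (mk (fun h e i b c g => if h.val < p then U h e i b c g + wv a1 a2 a3 h e i b c g
        else U h e i b c g) a1 a2 a3)
      (8 * Fintype.card (P × Q) + 2 * ((4 * p + 3) * Fintype.card (P ⊕ Q)) +
        26 * p * Fintype.card (P × Q)) := by
  have h1 := prep1 U a1 a2 a3
  have h2 := chain_prep U a2 a3 (L1w a1 (fun i c => a1 i false c 1))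
  have s1 := wstep U a1 a2 a3 (fun i c => a1 i false c 1) (fun i c => a1 i false c 1 + a2 0 0 c 0)
    true (fun i c => Bl.l2 0 0 c 0) (by intros; simp) (by intro i c; simp [mkW, mk, D2])
  have s2 := wstep U a1 a2 a3 (fun i c => a1 i false c 1 + a2 0 0 c 0) (Rst a1 a2 a3 0 0 0 0 0)
    true (fun i c => Bl.l3 0 0 i false) (by intros; simp) (by intro i c; simp [mkW, mk, D3, Rst])
  have w := walk U a1 a2 a3 p le_rfl
  set U' : Fin (p + 1) → Fin 4 → P → Bool → Q → Fin 4 → F :=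
    fun h e i b c g => if h.val < p then U h e i b c g + wv a1 a2 a3 h e i b c g
        else U h e i b c g with hU'
  set hp : Fin (p + 1) := ⟨p, by omega⟩ with hhp
  have h3 := (chain_prep U' a2 a3 (L1w a1 (Rst a1 a2 a3 0 hp 0 hp 0))).symm
  have f1 : Run (mk U' (L1w a1 (Rst a1 a2 a3 0 hp 0 hp 0)) a2 a3)
      (mk U' (L1w a1 (fun i c => a1 i false c 1 + a3 hp 0 i false)) a2 a3)
      (Fintype.card (P × Q)) := by
    apply Run.fam (I := P × Q) (fun _ => false) (fun k => Bl.l1 k.1 false k.2 1)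
      (fun k => Bl.l2 hp 0 k.2 0)
    · rintro ⟨i, c⟩ ⟨i', c'⟩ h; simpa using h
    · rintro ⟨i, c⟩ ⟨i', c'⟩; simp
    · rintro ⟨i, c⟩
      simp [mk, L1w, Rst]
      abel
    · rintro (_ | ⟨i, b, c, g⟩ | _ | _) hw
      · rfl
      · simp only [mk, L1w]
        have h3 : ¬ (b = false ∧ g = 1) := by
          rintro ⟨rfl, rfl⟩
          exact hw (i, c) rfl
        rw [if_neg h3, if_neg h3]
      · rfl
      · rfl
  have f2 : Run (mk U' (L1w a1 (fun i c => a1 i false c 1 + a3 hp 0 i false)) a2 a3)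
      (mk U' (L1w a1 (fun i c => a1 i false c 1)) a2 a3)
      (Fintype.card (P × Q)) := by
    apply Run.fam (I := P × Q) (fun _ => false) (fun k => Bl.l1 k.1 false k.2 1)
      (fun k => Bl.l3 hp 0 k.1 false)
    · rintro ⟨i, c⟩ ⟨i', c'⟩ h; simpa using h
    · rintro ⟨i, c⟩ ⟨i', c'⟩; simp
    · rintro ⟨i, c⟩
      simp [mk, L1w]
    · rintro (_ | ⟨i, b, c, g⟩ | _ | _) hw
      · rfl
      · simp only [mk, L1w]
        have h3 : ¬ (b = false ∧ g = 1) := by
          rintro ⟨rfl, rfl⟩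
          exact hw (i, c) rfl
        rw [if_neg h3, if_neg h3]
      · rfl
      · rfl
  have h4 := (prep1 U' a1 a2 a3).symm
  have all := h1.trans <| h2.trans <| s1.trans <| s2.trans <| w.trans <| h3.trans <|
    f1.trans <| f2.trans h4
  convert all using 1
  ring

/-- The block `u(x,y,z) += v1(y,z) + v2(x,z) + v3(x,y)`. -/
theorem block :
    Run (mk U a1 a2 a3)
      (mk (fun h e i b c g => U h e i b c g + a1 i b c g + a2 h e c g + a3 h e i b) a1 a2 a3)
      (2 * Fintype.card (SI p P Q) + Fintype.card (Fin p × P × Q × KS) +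
        3 * Fintype.card (NI p P Q) +
        (8 * Fintype.card (P × Q) + 2 * ((4 * p + 3) * Fintype.card (P ⊕ Q)) +
        26 * p * Fintype.card (P × Q))) := by
  have h1 := serve U a1 a2 a3
  have h2 := naive (fun h e i b c g => if h.val < p ∧ Srv e b g then U h e i b c g +
    sv a1 a2 a3 h e i b c g else U h e i b c g) a1 a2 a3
  have h3 := walk_full (fun h e i b c g => if h.val < p ∧ Srv e b g then
      (if h.val < p ∧ Srv e b g then U h e i b c g +
    sv a1 a2 a3 h e i b c g else U h e i b c g)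
        else (if h.val < p ∧ Srv e b g then U h e i b c g +
    sv a1 a2 a3 h e i b c g else U h e i b c g) + a1 i b c g + a2 h e c g + a3 h e i b) a1 a2 a3
  have h4 := (h1.trans h2).trans h3
  convert h4 using 1
  congr 1
  funext h e i b c g
  by_cases hs : Srv e b g
  · by_cases hp : h.val < p
    · simp only [hp, hs, and_self, if_true]
      rcases hs with rfl | ⟨rfl, rfl, he⟩ | ⟨rfl, rfl, he⟩
      · cases b
        · fin_cases e <;> simp [sv, wv, Rst, SL1, SL2, SL3] <;> abel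
        · fin_cases e <;> simp [sv, wv, Rst, SL1, SL2, SL3] <;> abel
      · fin_cases e <;> simp [sv, wv, Rst, SL1, SL2, SL3] at he ⊢ <;> abel
      · fin_cases e <;> simp [sv, wv, Rst, SL1, SL2, SL3] at he ⊢ <;> abel
    · simp [hp]
  · by_cases hp : h.val < p
    · simp only [hp, hs, and_false, if_false, if_true]
      have : wv a1 a2 a3 h e i b c g = 0 := by
        simp only [Srv, not_or, not_and, not_not] at hs
        obtain ⟨h1, h2, h3⟩ := hs
        simp only [wv]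
        rw [if_neg (by tauto), if_neg (by tauto)]
        by_cases h4 : b = false ∧ g = 1
        · rw [if_pos h4]
          have := h2 h4.1 h4.2
          subst this
          simp
        · rw [if_neg h4]
          by_cases h5 : b = false ∧ g = 2
          · rw [if_pos h5]
            have := h3 h5.1 h5.2
            subst this
            simp
          · rw [if_neg h5]
      rw [this, add_zero]
    · simp [hp, hs]

end
end DFTC
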