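import Crest.Agent.DFT.Block

set_option autoImplicit false
set_option linter.unusedSimpArgs false

namespace DFTC

open Finset

section
variable {p : ℕ} {P Q : Type} [DecidableEq P] [DecidableEq Q] [Fintype P] [Fintype Q]
variable {F : Type*} [AddCommGroup F]
variable (U : Fin (p + 1) → Fin 4 → P → Bool → Q → Fin 4 → F)
variable (a1 : P → Bool → Q → Fin 4 → F)
variable (a2 : Fin (p + 1) → Fin 4 → Q → Fin 4 → F) (a3 : Fin (p + 1) → Fin 4 → P → Bool → F)

/-- type 1 lines during the walk; `R` = contents of the walkers -/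
def L1w (R : P → Q → F) : P → Bool → Q → Fin 4 → F := fun i b c g =>
  if b = false ∧ g = 1 then R i c
  else if b = false ∧ g = 2 then a1 i false c 2 - a1 i true c 0
  else if b = true ∧ g = 0 then a1 i true c 0 - a1 i false c 1
  else a1 i b c g

lemma prep1 (L2 : Fin (p + 1) → Fin 4 → Q → Fin 4 → F) (L3 : Fin (p + 1) → Fin 4 → P → Bool → F) :
    Run (mk U a1 L2 L3) (mk U (L1w a1 (fun i c => a1 i false c 1)) L2 L3)
      (2 * Fintype.card (P × Q)) := by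
  set M1 : P → Bool → Q → Fin 4 → F := fun i b c g =>
    if b = false ∧ g = 2 then a1 i false c 2 - a1 i true c 0 else a1 i b c g with hM1
  have h1 : Run (mk U a1 L2 L3) (mk U M1 L2 L3) (Fintype.card (P × Q)) := by
    apply Run.fam (I := P × Q) (fun _ => false) (fun k => Bl.l1 k.1 false k.2 2)
      (fun k => Bl.l1 k.1 true k.2 0)
    · rintro ⟨i, c⟩ ⟨i', c'⟩ h; simpa using h
    · rintro ⟨i, c⟩ ⟨i', c'⟩; simp
    · rintro ⟨i, c⟩; simp [mk, hM1]
    · rintro (_ | ⟨i, b, c, g⟩ | _ | _) hw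
      · rfl
      · simp only [mk, hM1]
        rw [if_neg]
        rintro ⟨rfl, rfl⟩
        exact hw (i, c) rfl
      · rfl
      · rfl
  have h2 : Run (mk U M1 L2 L3) (mk U (L1w a1 (fun i c => a1 i false c 1)) L2 L3)
      (Fintype.card (P × Q)) := by
    apply Run.fam (I := P × Q) (fun _ => false) (fun k => Bl.l1 k.1 true k.2 0)
      (fun k => Bl.l1 k.1 false k.2 1)
    · rintro ⟨i, c⟩ ⟨i', c'⟩ h; simpa using h
    · rintro ⟨i, c⟩ ⟨i', c'⟩; simp
    · rintro ⟨i, c⟩; simp [mk, hM1, L1w]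
    · rintro (_ | ⟨i, b, c, g⟩ | _ | _) hw
      · rfl
      · simp only [mk, hM1, L1w]
        have h3 : ¬ (b = true ∧ g = 0) := by
          rintro ⟨rfl, rfl⟩
          exact hw (i, c) rfl
        rw [if_neg h3]
        by_cases h4 : b = false ∧ g = 1
        · obtain ⟨rfl, rfl⟩ := h4
          simp
        · rw [if_neg h4]
      · rfl
      · rfl
  have := h1.trans h2
  convert this using 1
  ring

def mkW (R : P → Q → F) : Bl p P Q → F := mk U (L1w a1 R) (D2 a2) (D3 a3)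

lemma wstep (R R' : P → Q → F) (σ : Bool) (src : P → Q → Bl p P Q)
    (hsrc : ∀ i c i' c', Bl.l1 i false c 1 ≠ src i' c')
    (h : ∀ i c, R' i c = op σ (R i c) (mkW U a1 a2 a3 R (src i c))) :
    Run (mkW U a1 a2 a3 R) (mkW U a1 a2 a3 R') (Fintype.card (P × Q)) := by
  apply Run.fam (I := P × Q) (fun _ => σ) (fun k => Bl.l1 k.1 false k.2 1)
    (fun k => src k.1 k.2)
  · rintro ⟨i, c⟩ ⟨i', c'⟩ h; simpa using h
  · rintro ⟨i, c⟩ ⟨i', c'⟩; exact hsrc i c i' c'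
  · rintro ⟨i, c⟩
    have := h i c
    simp only [mkW, mk, L1w] at this ⊢
    simpa using this
  · rintro (_ | ⟨i, b, c, g⟩ | _ | _) hw
    · rfl
    · simp only [mkW, mk, L1w]
      have h3 : ¬ (b = false ∧ g = 1) := by
        rintro ⟨rfl, rfl⟩
        exact hw (i, c) rfl
      rw [if_neg h3, if_neg h3]
    · rfl
    · rfl

def tapU (h0 : Fin (p + 1)) (e0 : Fin 4) (b0 : Bool) (g0 : Fin 4) (R : P → Q → F) :
    Fin (p + 1) → Fin 4 → P → Bool → Q → Fin 4 → F := fun h e i b c g =>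
  if h = h0 ∧ e = e0 ∧ b = b0 ∧ g = g0 then U h e i b c g + R i c else U h e i b c g

lemma wtap (h0 : Fin (p + 1)) (e0 : Fin 4) (b0 : Bool) (g0 : Fin 4) (R : P → Q → F) :
    Run (mkW U a1 a2 a3 R) (mkW (tapU U h0 e0 b0 g0 R) a1 a2 a3 R) (Fintype.card (P × Q)) := by
  apply Run.fam (I := P × Q) (fun _ => true) (fun k => Bl.u h0 e0 k.1 b0 k.2 g0)
    (fun k => Bl.l1 k.1 false k.2 1)
  · rintro ⟨i, c⟩ ⟨i', c'⟩ h; simpa using h
  · rintro ⟨i, c⟩ ⟨i', c'⟩; simp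
  · rintro ⟨i, c⟩
    simp [mkW, mk, L1w, tapU]
  · rintro (⟨h, e, i, b, c, g⟩ | ⟨i, b, c, g⟩ | _ | _) hw
    · simp only [mkW, mk, tapU]
      rw [if_neg]
      rintro ⟨rfl, rfl, rfl, rfl⟩
      exact hw (i, c) rfl
    · rfl
    · rfl
    · rfl

/-- walker contents -/
def Rst (z : Fin 3) (h2 : Fin (p + 1)) (e2 : Fin 4) (h3 : Fin (p + 1)) (e3 : Fin 4) : P → Q → F :=
  fun i c => (if z = 0 then a1 i false c 1 else if z = 1 then a1 i false c 2 else a1 i true c 0) +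
    a2 h2 e2 c 0 + a3 h3 e3 i false

/-- what the walk adds to `u` -/
def wv (h : Fin (p + 1)) (e : Fin 4) (i : P) (b : Bool) (c : Q) (g : Fin 4) : F :=
  if b = false ∧ g = 0 then
    (if e = 0 then Rst a1 a2 a3 0 h 0 h 0 i c else if e = 1 then Rst a1 a2 a3 2 h 1 h 1 i c
     else if e = 2 then Rst a1 a2 a3 1 h 2 h 2 i c else Rst a1 a2 a3 2 h 3 h 3 i c)
  else if b = true ∧ g = 0 then
    (if e = 0 then Rst a1 a2 a3 2 h 0 h 1 i c else if e = 1 then Rst a1 a2 a3 2 h 1 h 1 i c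
     else if e = 2 then Rst a1 a2 a3 2 h 2 h 3 i c else Rst a1 a2 a3 2 h 3 h 3 i c)
  else if b = false ∧ g = 1 then
    (if e = 0 then Rst a1 a2 a3 0 h 0 h 0 i c else if e = 1 then Rst a1 a2 a3 0 h 0 h 1 i c
     else if e = 2 then 0 else Rst a1 a2 a3 0 (h + 1) 0 h 3 i c)
  else if b = false ∧ g = 2 then
    (if e = 0 then 0 else if e = 1 then Rst a1 a2 a3 1 h 2 h 1 i c
     else if e = 2 then Rst a1 a2 a3 1 h 2 h 2 i c else Rst a1 a2 a3 1 h 2 h 3 i c)
  else 0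

lemma h1_ne {k : ℕ} (hk : k < p) : (⟨k, by omega⟩ : Fin (p + 1)) + 1 ≠ 0 := by
  intro h
  have := congrArg Fin.val h
  rw [Fin.val_add_one_of_lt (by rw [Fin.lt_def]; simpa using hk)] at this
  simp at this

/-- one double period -/
lemma period (k : ℕ) (hk : k < p) :
    Run (mkW U a1 a2 a3 (Rst a1 a2 a3 0 ⟨k, by omega⟩ 0 ⟨k, by omega⟩ 0))
      (mkW (fun h e i b c g => if h.val = k then U h e i b c g + wv a1 a2 a3 h e i b c g
        else U h e i b c g) a1 a2 a3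
        (Rst a1 a2 a3 0 (⟨k, by omega⟩ + 1) 0 (⟨k, by omega⟩ + 1) 0))
      (26 * Fintype.card (P × Q)) := by
  set h : Fin (p + 1) := ⟨k, by omega⟩ with hh
  have hne : h + 1 ≠ 0 := h1_ne hk
  have hs : h + 1 - 1 = h := by simp
  have t1 := wtap U a1 a2 a3 h 0 false 0 (Rst a1 a2 a3 0 h 0 h 0)
  have t2 := wtap (tapU U h 0 false 0 (Rst a1 a2 a3 0 h 0 h 0)) a1 a2 a3 h 0 false 1
    (Rst a1 a2 a3 0 h 0 h 0)
  set U2 := tapU (tapU U h 0 false 0 (Rst a1 a2 a3 0 h 0 h 0)) h 0 false 1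
    (Rst a1 a2 a3 0 h 0 h 0) with hU2
  have s1 := wstep U2 a1 a2 a3 (Rst a1 a2 a3 0 h 0 h 0) (Rst a1 a2 a3 0 h 0 h 1) true
    (fun i c => Bl.l3 h 1 i false) (by intros; simp)
    (by intro i c; simp [mkW, mk, D3, Rst])
  have t3 := wtap U2 a1 a2 a3 h 1 false 1 (Rst a1 a2 a3 0 h 0 h 1)
  set U3 := tapU U2 h 1 false 1 (Rst a1 a2 a3 0 h 0 h 1) with hU3
  have s2 := wstep U3 a1 a2 a3 (Rst a1 a2 a3 0 h 0 h 1) (Rst a1 a2 a3 2 h 0 h 1) true
    (fun i c => Bl.l1 i true c 0) (by intros; simp)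
    (by intro i c; simp [mkW, mk, L1w, Rst]; abel)
  have t4 := wtap U3 a1 a2 a3 h 0 true 0 (Rst a1 a2 a3 2 h 0 h 1)
  set U4 := tapU U3 h 0 true 0 (Rst a1 a2 a3 2 h 0 h 1) with hU4
  have s3 := wstep U4 a1 a2 a3 (Rst a1 a2 a3 2 h 0 h 1) (Rst a1 a2 a3 2 h 1 h 1) true
    (fun i c => Bl.l2 h 1 c 0) (by intros; simp)
    (by intro i c; simp [mkW, mk, D2, Rst]; abel)
  have t5 := wtap U4 a1 a2 a3 h 1 true 0 (Rst a1 a2 a3 2 h 1 h 1)
  set U5 := tapU U4 h 1 true 0 (Rst a1 a2 a3 2 h 1 h 1) with hU5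
  have t6 := wtap U5 a1 a2 a3 h 1 false 0 (Rst a1 a2 a3 2 h 1 h 1)
  set U6 := tapU U5 h 1 false 0 (Rst a1 a2 a3 2 h 1 h 1) with hU6
  have s4 := wstep U6 a1 a2 a3 (Rst a1 a2 a3 2 h 1 h 1) (Rst a1 a2 a3 2 h 2 h 1) true
    (fun i c => Bl.l2 h 2 c 0) (by intros; simp)
    (by intro i c; simp [mkW, mk, D2, Rst]; abel)
  have s5 := wstep U6 a1 a2 a3 (Rst a1 a2 a3 2 h 2 h 1) (Rst a1 a2 a3 1 h 2 h 1) true
    (fun i c => Bl.l1 i false c 2) (by intros; simp)
    (by intro i c; simp [mkW, mk, L1w, Rst]; abel)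
  have t7 := wtap U6 a1 a2 a3 h 1 false 2 (Rst a1 a2 a3 1 h 2 h 1)
  set U7 := tapU U6 h 1 false 2 (Rst a1 a2 a3 1 h 2 h 1) with hU7
  have s6 := wstep U7 a1 a2 a3 (Rst a1 a2 a3 1 h 2 h 1) (Rst a1 a2 a3 1 h 2 h 2) true
    (fun i c => Bl.l3 h 2 i false) (by intros; simp)
    (by intro i c; simp [mkW, mk, D3, Rst])
  have t8 := wtap U7 a1 a2 a3 h 2 false 0 (Rst a1 a2 a3 1 h 2 h 2)
  set U8 := tapU U7 h 2 false 0 (Rst a1 a2 a3 1 h 2 h 2) with hU8
  have t9 := wtap U8 a1 a2 a3 h 2 false 2 (Rst a1 a2 a3 1 h 2 h 2)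
  set U9 := tapU U8 h 2 false 2 (Rst a1 a2 a3 1 h 2 h 2) with hU9
  have s7 := wstep U9 a1 a2 a3 (Rst a1 a2 a3 1 h 2 h 2) (Rst a1 a2 a3 1 h 2 h 3) true
    (fun i c => Bl.l3 h 3 i false) (by intros; simp)
    (by intro i c; simp [mkW, mk, D3, Rst])
  have t10 := wtap U9 a1 a2 a3 h 3 false 2 (Rst a1 a2 a3 1 h 2 h 3)
  set U10 := tapU U9 h 3 false 2 (Rst a1 a2 a3 1 h 2 h 3) with hU10
  have s8 := wstep U10 a1 a2 a3 (Rst a1 a2 a3 1 h 2 h 3) (Rst a1 a2 a3 2 h 2 h 3) false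
    (fun i c => Bl.l1 i false c 2) (by intros; simp)
    (by intro i c; simp [mkW, mk, L1w, Rst]; abel)
  have t11 := wtap U10 a1 a2 a3 h 2 true 0 (Rst a1 a2 a3 2 h 2 h 3)
  set U11 := tapU U10 h 2 true 0 (Rst a1 a2 a3 2 h 2 h 3) with hU11
  have s9 := wstep U11 a1 a2 a3 (Rst a1 a2 a3 2 h 2 h 3) (Rst a1 a2 a3 2 h 3 h 3) true
    (fun i c => Bl.l2 h 3 c 0) (by intros; simp)
    (by intro i c; simp [mkW, mk, D2, Rst]; abel)
  have t12 := wtap U11 a1 a2 a3 h 3 true 0 (Rst a1 a2 a3 2 h 3 h 3)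
  set U12 := tapU U11 h 3 true 0 (Rst a1 a2 a3 2 h 3 h 3) with hU12
  have t13 := wtap U12 a1 a2 a3 h 3 false 0 (Rst a1 a2 a3 2 h 3 h 3)
  set U13 := tapU U12 h 3 false 0 (Rst a1 a2 a3 2 h 3 h 3) with hU13
  have s10 := wstep U13 a1 a2 a3 (Rst a1 a2 a3 2 h 3 h 3) (Rst a1 a2 a3 2 (h + 1) 0 h 3) true
    (fun i c => Bl.l2 (h + 1) 0 c 0) (by intros; simp)
    (by intro i c; simp [mkW, mk, D2, Rst, hne]; abel)
  have s11 := wstep U13 a1 a2 a3 (Rst a1 a2 a3 2 (h + 1) 0 h 3) (Rst a1 a2 a3 0 (h + 1) 0 h 3)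
    false (fun i c => Bl.l1 i true c 0) (by intros; simp)
    (by intro i c; simp [mkW, mk, L1w, Rst]; abel)
  have t14 := wtap U13 a1 a2 a3 h 3 false 1 (Rst a1 a2 a3 0 (h + 1) 0 h 3)
  set U14 := tapU U13 h 3 false 1 (Rst a1 a2 a3 0 (h + 1) 0 h 3) with hU14
  have s12 := wstep U14 a1 a2 a3 (Rst a1 a2 a3 0 (h + 1) 0 h 3)
    (Rst a1 a2 a3 0 (h + 1) 0 (h + 1) 0) true
    (fun i c => Bl.l3 (h + 1) 0 i false) (by intros; simp)
    (by intro i c; simp [mkW, mk, D3, Rst, hne])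
  have all := t1.trans <| t2.trans <| s1.trans <| t3.trans <| s2.trans <| t4.trans <| s3.trans <|
    t5.trans <| t6.trans <| s4.trans <| s5.trans <| t7.trans <| s6.trans <| t8.trans <|
    t9.trans <| s7.trans <| t10.trans <| s8.trans <| t11.trans <| s9.trans <| t12.trans <|
    t13.trans <| s10.trans <| s11.trans <| t14.trans s12
  have hU : U14 = (fun h e i b c g => if h.val = k then U h e i b c g + wv a1 a2 a3 h e i b c g
        else U h e i b c g) := by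
    funext h' e i b c g
    by_cases h1 : h'.val = k
    · have h2 : h' = h := Fin.ext h1
      subst h2
      simp only [hU14, hU13, hU12, hU11, hU10, hU9, hU8, hU7, hU6, hU5, hU4, hU3, hU2, tapU, wv,
        h1, if_true, true_and]
      fin_cases e <;> cases b <;> fin_cases g <;> simp
    · have h2 : h' ≠ h := fun h3 => h1 (by rw [h3])
      simp only [hU14, hU13, hU12, hU11, hU10, hU9, hU8, hU7, hU6, hU5, hU4, hU3, hU2, tapU,
        h1, h2, if_false, false_and]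
  rw [hU] at all
  convert all using 1
  ring

lemma walk (k : ℕ) (hk : k ≤ p) :
    Run (mkW U a1 a2 a3 (Rst a1 a2 a3 0 0 0 0 0))
      (mkW (fun h e i b c g => if h.val < k then U h e i b c g + wv a1 a2 a3 h e i b c g
        else U h e i b c g) a1 a2 a3
        (Rst a1 a2 a3 0 ⟨k, by omega⟩ 0 ⟨k, by omega⟩ 0))
      (26 * k * Fintype.card (P × Q)) := by
  induction k with
  | zero =>
    simp only [Nat.not_lt_zero, if_false, Nat.mul_zero, Nat.zero_mul]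
    exact Run.refl
  | succ k ih =>
    have h1 := ih (by omega)
    have h2 := period (fun h e i b c g => if h.val < k then U h e i b c g +
      wv a1 a2 a3 h e i b c g else U h e i b c g) a1 a2 a3 k (by omega)
    have h3 := h1.trans h2
    have e1 : (⟨k, by omega⟩ : Fin (p + 1)) + 1 = ⟨k + 1, by omega⟩ := by
      apply Fin.ext
      rw [Fin.val_add_one_of_lt (by rw [Fin.lt_def]; simpa using (by omega : k < p))]
    rw [e1] at h3
    have e2 : (fun (h : Fin (p + 1)) (e : Fin 4) (i : P) (b : Bool) (c : Q) (g : Fin 4) =>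
        if h.val = k then (if h.val < k then U h e i b c g + wv a1 a2 a3 h e i b c g
          else U h e i b c g) + wv a1 a2 a3 h e i b c g else (if h.val < k then U h e i b c g +
      wv a1 a2 a3 h e i b c g else U h e i b c g)) =
      (fun h e i b c g => if h.val < k + 1 then U h e i b c g + wv a1 a2 a3 h e i b c g
        else U h e i b c g) := by
      funext h e i b c g
      by_cases h4 : h.val = k
      · rw [if_pos h4, if_neg (by omega), if_pos (by omega)]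
      · rw [if_neg h4]
        by_cases h5 : h.val < k
        · rw [if_pos h5, if_pos (by omega)]
        · rw [if_neg h5, if_neg (by omega)]
    rw [e2] at h3
    convert h3 using 1
    ring

end
end DFTC
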